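import Vale.Agent.P284.H619.NulS
import Vale.Agent.P284.H573.HForm

/-!
# P284 (helper619): the core for `q = 0`, statements

`Lim0Stmt` is the limit of an energy minimising sequence (the case `q = 0` of the module `A''`), `Core0Stmt`
the core for `q = 0`: the covering carries a Hilbert valued natural form with a good point.
-/

open scoped Manifold ContDiff Topology InnerProductSpace ComplexConjugate
open Filter Set Metric

noncomputable section

namespace Vale.Agent.P284.H619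

open Vale.Agent.P272.K Vale.Agent.P284.H248 Vale.Agent.P284.H894.G Vale.Agent.P284.H894.V
  Vale.Agent.P284.H894.W Vale.Agent.P284.H213.Grp Vale.Agent.P284.H573

/-- The potential `u` of the closed form `Θ`: `⟪c, u⟫` is pluriharmonic with `(1,0)` differential
`⟪c, Θ⟫`. -/
def Pot0 {n : ℕ} {X E : Type} [TopologicalSpace X] [ChartedSpace (Cm n) X] [TopologicalSpace E]
    (p : E → X) {W : Type} [NormedAddCommGroup W] [InnerProductSpace ℂ W]
    (Θ : E → Chart n X → (Cm n →L[ℂ] W)) (u : E → W) : Prop :=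
  ∀ y (e : Chart n X), At e (p y) → ∀ c : W, ∃ g h : Cm n → ℂ, AnalyticAt ℂ g (e (p y)) ∧
    AnalyticAt ℂ h (e (p y)) ∧ ∀ᶠ y' in 𝓝 y,
      ⟪c, u y'⟫_ℂ = g (e (p y')) + conj (h (e (p y'))) ∧
      ∀ ξ, fderiv ℂ g (e (p y')) ξ = ⟪c, Θ y' e ξ⟫_ℂ

/-- **Limit, `q = 0`**: an infinite amenable group of a Galois covering of a compact Kähler manifold has
a nonzero equivariant closed holomorphic 1-form with values in a unitary representation, with a
potential. -/
def Lim0Stmt : Prop :=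
  ∀ (n : ℕ) (X : Type) [TopologicalSpace X] [T2Space X] [CompactSpace X] [ConnectedSpace X]
    [ChartedSpace (Cm n) X] [IsManifold 𝓘(ℂ, Cm n) ω X]
    (w : Chart n X → Cm n → Matrix (Fin n) (Fin n) ℂ), IsKahler w →
    ∀ (E Γ : Type) [TopologicalSpace E] [ConnectedSpace E] [Group Γ] [MulAction Γ E]
      (p : E → X), IsGalois Γ p → Infinite Γ → Folner Γ →
    ∃ (W : Type) (_ : NormedAddCommGroup W) (_ : InnerProductSpace ℂ W) (_ : CompleteSpace W)
      (π : Γ →* (W ≃ₗᵢ[ℂ] W)) (Θ : E → Chart n X → (Cm n →L[ℂ] W)) (u : E → W),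
      CForm n p W Θ ∧ Equi p π Θ ∧ Pot0 p Θ u ∧ (∀ g : Γ, ∃ b : W, ∀ y, u (g • y) = π g (u y) + b) ∧
      ∃ (y : E) (e : Chart n X), At e (p y) ∧ Θ y e ≠ 0

/-- **Core for `q = 0`.** -/
def Core0Stmt : Prop :=
  ∀ (n : ℕ) (X : Type) [TopologicalSpace X] [T2Space X] [CompactSpace X] [ConnectedSpace X]
    [ChartedSpace (Cm n) X] [IsManifold 𝓘(ℂ, Cm n) ω X]
    (w : Chart n X → Cm n → Matrix (Fin n) (Fin n) ℂ), IsKahler w →
    ∀ (E Γ : Type) [TopologicalSpace E] [ConnectedSpace E] [Group Γ] [MulAction Γ E]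
      (p : E → X), IsGalois Γ p → Folner Γ → ∀ (c : Γ → Cm 0) (K : Subgroup Γ), NPkg Γ 0 c K →
    ∃ (R m : ℕ) (_ : 1 ≤ R) (_ : 1 ≤ m) (H : Type) (_ : NormedAddCommGroup H)
      (_ : InnerProductSpace ℂ H) (_ : CompleteSpace H)
      (v : E → Chart n X → (Fin R → Cm n) → H) (y : E), HForm n R m p H v ∧ GoodAt p R m v y

end Vale.Agent.P284.H619
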