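import Vale.Agent.P284.H619.Loc

/-!
# P284 (helper619): local normal form of a holomorphic map to a Hilbert space, of constant rank
-/

open scoped InnerProductSpace ENNReal ComplexConjugate Topology
open Filter Set Metric

noncomputable section

namespace Vale.Agent.P284.H619

variable {H : Type*} [NormedAddCommGroup H] [InnerProductSpace ℂ H] [CompleteSpace H]
  {V : Type*} [NormedAddCommGroup V] [NormedSpace ℂ V] [FiniteDimensional ℂ V]

omit [CompleteSpace H] [FiniteDimensional ℂ V] in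
lemma surj_of_Jd {R : ℕ} {j : V → Fin R → ℂ} {z : V} {ξ : Fin R → V} (h : Jd j z ξ ≠ 0) :
    Function.Surjective (fderiv ℂ j z) := by
  intro w
  set M : Matrix (Fin R) (Fin R) ℂ := Matrix.of fun i a => fderiv ℂ j z (ξ a) i with hM
  have hu : IsUnit M.det := isUnit_iff_ne_zero.2 h
  have h1 : M.mulVec (M⁻¹.mulVec w) = w := by
    rw [Matrix.mulVec_mulVec, Matrix.mul_nonsing_inv M hu, Matrix.one_mulVec]
  refine ⟨∑ a, (M⁻¹.mulVec w) a • ξ a, ?_⟩
  rw [map_sum]
  funext i
  rw [Finset.sum_apply]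
  simp only [map_smul, Pi.smul_apply, smul_eq_mul]
  have h2 : ∀ u : Fin R → ℂ, ∑ a, u a * fderiv ℂ j z (ξ a) i = M.mulVec u i := by
    intro u
    simp only [Matrix.mulVec, dotProduct, hM, Matrix.of_apply]
    exact Finset.sum_congr rfl fun a _ => mul_comm _ _
  rw [h2, h1]

omit [CompleteSpace H] [FiniteDimensional ℂ V] in
/-- a map with vanishing derivative along a segment -/
lemma const_seg {G : V → H} {a b : V}
    (h : ∀ t ∈ Icc (0 : ℝ) 1, ∃ G' : V →L[ℂ] H, HasFDerivAt G G' (a + (t : ℂ) • (b - a)) ∧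
      G' (b - a) = 0) : G b = G a := by
  have h1 : ∀ t ∈ Icc (0 : ℝ) 1,
      HasDerivWithinAt (fun t : ℝ => G (a + (t : ℂ) • (b - a))) ((fun _ => (0 : H)) t)
        (Icc 0 1) t := by
    intro t ht
    obtain ⟨G', hG, hG0⟩ := h t ht
    have e1 : HasDerivAt (fun t : ℝ => a + (t : ℂ) • (b - a)) (b - a) t := by
      have e2 : HasDerivAt (fun t : ℝ => (t : ℂ)) 1 t := Complex.ofRealCLM.hasDerivAt
      simpa using (e2.smul_const (b - a)).const_add a
    have e3 := (hG.restrictScalars ℝ).comp_hasDerivAt t e1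
    have e4 : (G'.restrictScalars ℝ) (b - a) = 0 := hG0
    rw [e4] at e3
    exact e3.hasDerivWithinAt
  have h2 := Convex.norm_image_sub_le_of_norm_hasDerivWithin_le (C := 0) h1
    (fun t _ => by simp) (convex_Icc 0 1) (left_mem_Icc.2 zero_le_one)
    (right_mem_Icc.2 zero_le_one)
  have h3 : G (a + ((1 : ℝ) : ℂ) • (b - a)) - G (a + ((0 : ℝ) : ℂ) • (b - a)) = 0 := by
    rw [← norm_le_zero_iff]
    simpa using h2
  have h4 : G (a + ((1 : ℝ) : ℂ) • (b - a)) = G b := by simp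
  have h5 : G (a + ((0 : ℝ) : ℂ) • (b - a)) = G a := by simp
  rw [h4, h5] at h3
  exact sub_eq_zero.1 h3

/-- **Local normal form.** -/
theorem exists_nf {R : ℕ} {F : V → H} {z₀ : V} (hF : AnalyticAt ℂ F z₀)
    (hrk : ∀ᶠ z in 𝓝 z₀, Module.finrank ℂ (LinearMap.range (fderiv ℂ F z : V →ₗ[ℂ] H)) ≤ R)
    (h0 : Module.finrank ℂ (LinearMap.range (fderiv ℂ F z₀ : V →ₗ[ℂ] H)) = R) :
    ∃ (b : V → Fin R → ℂ) (F' : (Fin R → ℂ) → H), AnalyticAt ℂ b z₀ ∧
      Function.Surjective (fderiv ℂ b z₀) ∧ AnalyticAt ℂ F' (b z₀) ∧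
      Function.Injective (fderiv ℂ F' (b z₀)) ∧ ∀ᶠ z in 𝓝 z₀, F z = F' (b z) := by
  classical
  have : CompleteSpace V := FiniteDimensional.complete ℂ V
  set A : V →L[ℂ] H := fderiv ℂ F z₀ with hA
  let B := Module.finBasisOfFinrankEq ℂ (LinearMap.range (A : V →ₗ[ℂ] H)) h0
  have hx : LinearIndependent ℂ (fun i => ((B i : LinearMap.range (A : V →ₗ[ℂ] H)) : H)) :=
    B.linearIndependent.map' (LinearMap.range (A : V →ₗ[ℂ] H)).subtype (Submodule.ker_subtype _)
  have hξ0 : ∀ i, ∃ v, A v = B i := fun i => (B i).2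
  choose ξ hξ using hξ0
  obtain ⟨f, hf⟩ := exists_dual hx
  have hfξ : ∀ i j, ⟪f i, A (ξ j)⟫_ℂ = if i = j then 1 else 0 := fun i j => by
    rw [hξ]; exact hf i j
  -- the submersion
  set P : H →L[ℂ] (Fin R → ℂ) := ContinuousLinearMap.pi fun i => innerSL ℂ (f i) with hP
  set b : V → Fin R → ℂ := fun z => P (F z) with hb
  have hban : AnalyticAt ℂ b z₀ := (P.analyticAt _).comp hF
  have hbd : ∀ z, DifferentiableAt ℂ F z → fderiv ℂ b z = P.comp (fderiv ℂ F z) := fun z hz =>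
    (P.hasFDerivAt.comp z hz.hasFDerivAt).fderiv
  have hL : fderiv ℂ b z₀ = P.comp A := hbd z₀ hF.differentiableAt
  set s : (Fin R → ℂ) →L[ℂ] V :=
    LinearMap.toContinuousLinearMap (Fintype.linearCombination ℂ ξ) with hs
  have hs1 : ∀ w, s w = ∑ i, w i • ξ i := fun w => rfl
  have hLs : ∀ w, P (A (s w)) = w := by
    intro w
    rw [hs1, map_sum, map_sum]
    funext i
    rw [Finset.sum_apply]
    simp only [map_smul, Pi.smul_apply, smul_eq_mul]
    rw [Finset.sum_eq_single i]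
    · have : P (A (ξ i)) i = 1 := by
        show ⟪f i, A (ξ i)⟫_ℂ = 1
        rw [hfξ, if_pos rfl]
      rw [this, mul_one]
    · intro j _ hj
      have : P (A (ξ j)) i = 0 := by
        show ⟪f i, A (ξ j)⟫_ℂ = 0
        rw [hfξ, if_neg (Ne.symm hj)]
      rw [this, mul_zero]
    · intro h; exact absurd (Finset.mem_univ _) h
  set L : V →L[ℂ] (Fin R → ℂ) := P.comp A with hLdef
  have hLs' : ∀ w, L (s w) = w := hLs
  have hJ : Jd b z₀ ξ = 1 := by
    unfold Jd
    have : (Matrix.of fun i a => fderiv ℂ b z₀ (ξ a) i) = (1 : Matrix (Fin R) (Fin R) ℂ) := by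
      ext i a
      rw [Matrix.of_apply, hL, Matrix.one_apply]
      exact hfξ i a
    rw [this, Matrix.det_one]
  have hJne : ∀ᶠ z in 𝓝 z₀, Jd b z ξ ≠ 0 :=
    (jd_an hban ξ).continuousAt.eventually_ne (by rw [hJ]; exact one_ne_zero)
  -- the kernels
  have hker : ∀ᶠ z in 𝓝 z₀, ∀ v, fderiv ℂ b z v = 0 → fderiv ℂ F z v = 0 := by
    filter_upwards [hJne, hrk, hF.eventually_analyticAt] with z hz hr hFz v hv
    have e1 : fderiv ℂ b z = P.comp (fderiv ℂ F z) := hbd z hFz.differentiableAt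
    have e2 : LinearMap.ker (fderiv ℂ F z : V →ₗ[ℂ] H) ≤
        LinearMap.ker (fderiv ℂ b z : V →ₗ[ℂ] (Fin R → ℂ)) := by
      intro u hu
      rw [LinearMap.mem_ker] at hu ⊢
      have hu' : fderiv ℂ F z u = 0 := hu
      show fderiv ℂ b z u = 0
      rw [e1, ContinuousLinearMap.comp_apply, hu', map_zero]
    have e3 := LinearMap.finrank_range_add_finrank_ker (fderiv ℂ F z : V →ₗ[ℂ] H)
    have e4 := LinearMap.finrank_range_add_finrank_ker (fderiv ℂ b z : V →ₗ[ℂ] (Fin R → ℂ))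
    have e5 : Module.finrank ℂ (LinearMap.range (fderiv ℂ b z : V →ₗ[ℂ] (Fin R → ℂ))) = R := by
      rw [LinearMap.range_eq_top.2 (surj_of_Jd hz), finrank_top, Module.finrank_fin_fun]
    have e6 : LinearMap.ker (fderiv ℂ F z : V →ₗ[ℂ] H) =
        LinearMap.ker (fderiv ℂ b z : V →ₗ[ℂ] (Fin R → ℂ)) :=
      Submodule.eq_of_le_of_finrank_le e2 (by omega)
    have e7 : v ∈ LinearMap.ker (fderiv ℂ F z : V →ₗ[ℂ] H) := by
      rw [e6]; exact hv
    exact e7
  -- straightening
  set φ : V → V := fun z => (z - z₀) - s (L (z - z₀)) + s (b z - b z₀) with hφ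
  have hφan : AnalyticAt ℂ φ z₀ := by
    have e1 : AnalyticAt ℂ (fun z : V => z - z₀) z₀ := analyticAt_id.sub analyticAt_const
    exact (e1.sub (((s.comp L).analyticAt _).comp e1)).add
      ((s.analyticAt _).comp (hban.sub analyticAt_const))
  have hφd : HasFDerivAt φ (ContinuousLinearMap.id ℂ V) z₀ := by
    have e1 : HasFDerivAt (fun z : V => z - z₀) (ContinuousLinearMap.id ℂ V) z₀ :=
      (hasFDerivAt_id z₀).sub_const z₀
    have e2 : HasFDerivAt b L z₀ := by
      have := hban.differentiableAt.hasFDerivAt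
      rwa [hL] at this
    have e3 := (e1.sub ((s.comp L).hasFDerivAt.comp z₀ e1)).add
      (s.hasFDerivAt.comp z₀ (e2.sub_const (b z₀)))
    refine e3.congr_fderiv ?_
    ext v
    simp
  have hφs : HasStrictFDerivAt φ ((ContinuousLinearEquiv.refl ℂ V : V ≃L[ℂ] V) : V →L[ℂ] V) z₀ := by
    have := hφan.hasStrictFDerivAt
    rw [hφd.fderiv] at this
    exact this
  have hφ0 : φ z₀ = 0 := by simp [hφ]
  have hLφ : ∀ z, L (φ z) = b z - b z₀ := by
    intro z
    simp only [hφ, map_add, map_sub, hLs']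
    abel
  set Φ := hφs.toOpenPartialHomeomorph φ with hΦ
  have hΦc : ∀ z, Φ z = φ z := fun z => rfl
  have hzs : z₀ ∈ Φ.source := hφs.mem_toOpenPartialHomeomorph_source
  have h0t : (0 : V) ∈ Φ.target := by
    have := Φ.map_source hzs
    rwa [hΦc, hφ0] at this
  set χ := Φ.symm with hχ
  have hχan : AnalyticAt ℂ χ 0 := by
    have := Φ.analyticAt_symm' (i := ContinuousLinearEquiv.refl ℂ V) hzs hφan hφd.fderiv
    rwa [hΦc, hφ0] at this
  have hχ0 : χ 0 = z₀ := by
    have := Φ.left_inv hzs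
    rwa [hΦc, hφ0] at this
  have hbχ : ∀ u ∈ Φ.target, b (χ u) = b z₀ + L u := by
    intro u hu
    have e1 := hLφ (χ u)
    have e2 : φ (χ u) = u := Φ.right_inv hu
    rw [e2] at e1
    rw [e1]; abel
  have hgood : ∀ᶠ u in 𝓝 (0 : V), u ∈ Φ.target ∧ AnalyticAt ℂ χ u ∧ AnalyticAt ℂ F (χ u) ∧
      AnalyticAt ℂ b (χ u) ∧ ∀ v, fderiv ℂ b (χ u) v = 0 → fderiv ℂ F (χ u) v = 0 := by
    have hc : Tendsto χ (𝓝 0) (𝓝 z₀) := by
      have := hχan.continuousAt.tendsto
      rwa [hχ0] at this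
    filter_upwards [Φ.open_target.mem_nhds h0t, hχan.eventually_analyticAt,
      hc.eventually hF.eventually_analyticAt, hc.eventually hban.eventually_analyticAt,
      hc.eventually hker] with u h1 h2 h3 h4 h5
    exact ⟨h1, h2, h3, h4, h5⟩
  obtain ⟨δ, hδ, hball⟩ := Metric.eventually_nhds_iff_ball.1 hgood
  -- constancy
  have hconst : ∀ u, u ∈ ball (0 : V) δ → s (L u) ∈ ball (0 : V) δ → F (χ u) = F (χ (s (L u))) := by
    intro u hu hsu
    refine const_seg (G := fun u => F (χ u)) (a := s (L u)) (b := u) fun t ht => ?_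
    set u' := s (L u) + (t : ℂ) • (u - s (L u)) with hu'
    have hu'b : u' ∈ ball (0 : V) δ := by
      have e1 : u' = (1 - t) • s (L u) + t • u := by
        rw [hu', smul_sub, sub_smul, one_smul]
        simp only [Complex.coe_smul]
        abel
      rw [e1]
      exact (convex_ball (0 : V) δ) hsu hu (sub_nonneg.2 ht.2) ht.1 (by ring)
    obtain ⟨g1, g2, g3, g4, g5⟩ := hball u' hu'b
    have e1 : HasFDerivAt (fun u => F (χ u)) ((fderiv ℂ F (χ u')).comp (fderiv ℂ χ u')) u' :=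
      g3.differentiableAt.hasFDerivAt.comp u' g2.differentiableAt.hasFDerivAt
    refine ⟨_, e1, ?_⟩
    rw [ContinuousLinearMap.comp_apply]
    apply g5
    have e2 : HasFDerivAt (fun u => b (χ u)) ((fderiv ℂ b (χ u')).comp (fderiv ℂ χ u')) u' :=
      g4.differentiableAt.hasFDerivAt.comp u' g2.differentiableAt.hasFDerivAt
    have e3 : HasFDerivAt (fun u => b (χ u)) L u' := by
      have e4 : HasFDerivAt (fun u => b z₀ + L u) L u' := L.hasFDerivAt.const_add _
      refine e4.congr_of_eventuallyEq ?_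
      filter_upwards [Φ.open_target.mem_nhds g1] with y hy using hbχ y hy
    have e5 := DFunLike.congr_fun (e2.unique e3) (u - s (L u))
    rw [ContinuousLinearMap.comp_apply] at e5
    rw [e5, map_sub, hLs', sub_self]
  have hF'an : AnalyticAt ℂ (fun β => F (χ (s (β - b z₀)))) (b z₀) := by
    have e0 : s (b z₀ - b z₀) = 0 := by rw [sub_self, map_zero]
    have e1 : AnalyticAt ℂ (fun β => s (β - b z₀)) (b z₀) :=
      (s.analyticAt _).comp (analyticAt_id.sub analyticAt_const)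
    have e2 : AnalyticAt ℂ (fun β => χ (s (β - b z₀))) (b z₀) :=
      AnalyticAt.fun_comp (by rw [e0]; exact hχan) e1
    exact AnalyticAt.fun_comp (by rw [e0, hχ0]; exact hF) e2
  have hev : ∀ᶠ z in 𝓝 z₀, F z = F (χ (s (b z - b z₀))) := by
    have hc1 : Tendsto φ (𝓝 z₀) (𝓝 0) := by
      have := hφan.continuousAt.tendsto
      rwa [hφ0] at this
    have hc2 : Tendsto (fun z => s (L (φ z))) (𝓝 z₀) (𝓝 0) := by
      have h := ((s.comp L).continuous.tendsto 0).comp hc1
      rw [map_zero] at h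
      exact h
    filter_upwards [hc1.eventually (ball_mem_nhds 0 hδ), hc2.eventually (ball_mem_nhds 0 hδ),
      Φ.open_source.mem_nhds hzs] with z h1 h2 h3
    have e1 : χ (φ z) = z := Φ.left_inv h3
    calc F z = F (χ (φ z)) := by rw [e1]
      _ = F (χ (s (L (φ z)))) := hconst _ h1 h2
      _ = F (χ (s (b z - b z₀))) := by rw [hLφ]
  refine ⟨b, fun β => F (χ (s (β - b z₀))), hban, ?_, hF'an, ?_, hev⟩
  · exact surj_of_Jd (ξ := ξ) (by rw [hJ]; exact one_ne_zero)
  · have e1 : A = (fderiv ℂ (fun β => F (χ (s (β - b z₀)))) (b z₀)).comp (fderiv ℂ b z₀) := by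
      rw [hA, Filter.EventuallyEq.fderiv_eq hev]
      exact (hF'an.differentiableAt.hasFDerivAt.comp z₀
        hban.differentiableAt.hasFDerivAt).fderiv
    rw [hL] at e1
    rw [injective_iff_map_eq_zero]
    intro w hw
    have e2 : A (s w) = 0 := by
      rw [e1, ContinuousLinearMap.comp_apply, hLs', hw]
    rw [← hLs w, e2, map_zero]

end Vale.Agent.P284.H619
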