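import Vale.Agent.P284.H619.NS0S
import Vale.Agent.P284.H619.NF
import Mathlib.Analysis.Analytic.Uniqueness

/-!
# P284 (helper619), module NS0: the form on the covering
-/

open scoped Manifold ContDiff Topology InnerProductSpace
open Filter Set Metric

noncomputable section

namespace Vale.Agent.P284.H619

open Vale.Agent.P272.K Vale.Agent.P284.H573 Vale.Agent.P284.H894.G

section
variable {n r : ℕ} {X : Type} [TopologicalSpace X] [ChartedSpace (Cm n) X]
  {E : Type} [TopologicalSpace E] {p : E → X}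

lemma map_ep (hp : IsCoveringMap p) {y : E} {e : Chart n X} (he : At e (p y)) :
    map (fun y' => e (p y')) (𝓝 y) = 𝓝 (e (p y)) := by
  have h1 : map p (𝓝 y) = 𝓝 (p y) := hp.isLocalHomeomorph.map_nhds_eq y
  have h2 : map e (𝓝 (p y)) = 𝓝 (e (p y)) := e.map_nhds_eq he.2
  rw [← h2, ← h1, map_map]
  rfl

lemma at_ev (hp : IsCoveringMap p) {y : E} {e : Chart n X} (he : At e (p y)) :
    ∀ᶠ y' in 𝓝 y, At e (p y') := by
  filter_upwards [hp.continuous.continuousAt.preimage_mem_nhds (e.open_source.mem_nhds he.2)]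
    with y' hy' using ⟨he.1, hy'⟩

lemma tendsto_ep (hp : IsCoveringMap p) {y : E} {e : Chart n X} (he : At e (p y)) :
    Tendsto (fun y' => e (p y')) (𝓝 y) (𝓝 (e (p y))) := (map_ep hp he).le

/-- an eventual property of `e (p y')` is an eventual property in the chart -/
lemma ev_iff (hp : IsCoveringMap p) {y : E} {e : Chart n X} (he : At e (p y)) {Q : Cm n → Prop} :
    (∀ᶠ y' in 𝓝 y, Q (e (p y'))) ↔ ∀ᶠ z in 𝓝 (e (p y)), Q z := by
  rw [← map_ep hp he]
  exact Iff.rfl

variable {W : Type} [NormedAddCommGroup W] [InnerProductSpace ℂ W]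
  {Θ : E → Chart n X → (Cm n →L[ℂ] W)}

open Classical in
/-- the local primitive -/
def pr (p : E → X) (Θ : E → Chart n X → (Cm n →L[ℂ] W)) (y : E) (e : Chart n X) : Cm n → W :=
  if h : ∃ F : Cm n → W, AnalyticAt ℂ F (e (p y)) ∧ ∀ᶠ y' in 𝓝 y, Θ y' e = fderiv ℂ F (e (p y'))
  then h.choose else fun _ => 0

lemma pr_an (hΘ : CForm n p W Θ) {y : E} {e : Chart n X} (he : At e (p y)) :
    AnalyticAt ℂ (pr p Θ y e) (e (p y)) := by
  have h := hΘ.loc y e he
  unfold pr
  rw [dif_pos h]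
  exact h.choose_spec.1

lemma pr_ev (hΘ : CForm n p W Θ) {y : E} {e : Chart n X} (he : At e (p y)) :
    ∀ᶠ y' in 𝓝 y, Θ y' e = fderiv ℂ (pr p Θ y e) (e (p y')) := by
  have h := hΘ.loc y e he
  unfold pr
  rw [dif_pos h]
  exact h.choose_spec.2

variable {H : Type} [NormedAddCommGroup H] [InnerProductSpace ℂ H] [CompleteSpace H] (S : TH H)
  (J : W →ₗᵢ[ℂ] H)

/-- the local primitive, with values in `H` -/
def prH (p : E → X) (Θ : E → Chart n X → (Cm n →L[ℂ] W)) (y : E) (e : Chart n X) : Cm n → H :=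
  fun z => J (pr p Θ y e z)

/-- the local expression of the form -/
def lo (p : E → X) (Θ : E → Chart n X → (Cm n →L[ℂ] W)) (y : E) (e : Chart n X) :
    Cm n → (Cm n →L[ℂ] H) := fun z => fderiv ℂ (prH J p Θ y e) z

omit [CompleteSpace H] in
lemma prH_an (hΘ : CForm n p W Θ) {y : E} {e : Chart n X} (he : At e (p y)) :
    AnalyticAt ℂ (prH J p Θ y e) (e (p y)) :=
  (J.toContinuousLinearMap.analyticAt _).comp (pr_an hΘ he)

lemma lo_an (hΘ : CForm n p W Θ) {y : E} {e : Chart n X} (he : At e (p y)) :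
    AnalyticAt ℂ (lo J p Θ y e) (e (p y)) := (prH_an J hΘ he).fderiv

variable [CompleteSpace W]

omit [CompleteSpace H] in
lemma lo_apply (hΘ : CForm n p W Θ) {y : E} {e : Chart n X} (he : At e (p y)) :
    ∀ᶠ z in 𝓝 (e (p y)), lo J p Θ y e z =
      J.toContinuousLinearMap.comp (fderiv ℂ (pr p Θ y e) z) := by
  filter_upwards [(pr_an hΘ he).eventually_analyticAt] with z hz
  exact (J.toContinuousLinearMap.hasFDerivAt.comp z hz.differentiableAt.hasFDerivAt).fderiv

omit [CompleteSpace H] in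
lemma lo_ev (hp : IsCoveringMap p) (hΘ : CForm n p W Θ) {y : E} {e : Chart n X}
    (he : At e (p y)) :
    ∀ᶠ y' in 𝓝 y, J.toContinuousLinearMap.comp (Θ y' e) = lo J p Θ y e (e (p y')) := by
  filter_upwards [pr_ev hΘ he, (ev_iff hp he).2 (lo_apply J hΘ he)] with y' h1 h2
  rw [h1, h2]

omit [CompleteSpace H] in
/-- uniqueness of the local expression -/
lemma lo_unique (hp : IsCoveringMap p) (hΘ : CForm n p W Θ) {y : E} {e : Chart n X}
    (he : At e (p y)) {A : Cm n → (Cm n →L[ℂ] H)}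
    (hA : ∀ᶠ y' in 𝓝 y, J.toContinuousLinearMap.comp (Θ y' e) = A (e (p y'))) :
    lo J p Θ y e =ᶠ[𝓝 (e (p y))] A := by
  rw [Filter.EventuallyEq, ← ev_iff hp he]
  filter_upwards [hA, lo_ev J hp hΘ he] with y' h1 h2
  rw [← h1, h2]

omit [CompleteSpace H] in
lemma lo_near (hp : IsCoveringMap p) (hΘ : CForm n p W Θ) {y : E} {e : Chart n X}
    (he : At e (p y)) :
    ∀ᶠ y' in 𝓝 y, lo J p Θ y' e =ᶠ[𝓝 (e (p y'))] lo J p Θ y e := by
  filter_upwards [(lo_ev J hp hΘ he).eventually_nhds, at_ev hp he] with y' h1 h2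
  exact lo_unique J hp hΘ h2 h1

open Classical in
/-- the natural form -/
def vf (p : E → X) (Θ : E → Chart n X → (Cm n →L[ℂ] W)) (k : ℕ) (y : E) (e : Chart n X)
    (ξ : Fin (r + 1) → Cm n) : H :=
  if At e (p y) then S.G (lo J p Θ y e) k (e (p y)) ξ else 0

omit [CompleteSpace H] in
lemma vf_near (hp : IsCoveringMap p) (hΘ : CForm n p W Θ) (k : ℕ) {y : E} {e : Chart n X}
    (he : At e (p y)) :
    ∀ᶠ y' in 𝓝 y, ∀ ξ : Fin (r + 1) → Cm n,
      vf S J p Θ k y' e ξ = S.G (lo J p Θ y e) k (e (p y')) ξ := by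
  filter_upwards [lo_near J hp hΘ he, at_ev hp he] with y' h1 h2 ξ
  unfold vf
  rw [if_pos h2]
  exact (S.G_congr h1 k).self_of_nhds ξ

end

end Vale.Agent.P284.H619
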