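import Vale.Agent.P284.H619.Fib
import Vale.Agent.P284.H213.Grp.AsmS

/-!
# P284 (helper619), module NUL: statement

`E_t` is a connected regular fibre of `F : E → ℂ^q`, on which `K` acts cocompactly; `Θ` is a relative
1-form along `E_t` with values in a Hilbert space `W`, equivariant under a unitary representation of `K`,
with a potential `u : E_t → W` (`⟪c, u⟫` is pluriharmonic, with `(1,0)` differential `⟪c, Θ⟫`). If `K` is
finitely generated, amenable and not virtually indicable, no nonzero vector of `W` lies in the image of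
`Θ y` for all `y` in a nonempty open subset of `E_t`.
-/

open scoped Manifold ContDiff Topology InnerProductSpace ComplexConjugate
open Filter Set Metric

noncomputable section

namespace Vale.Agent.P284.H619

open Vale.Agent.P272.K Vale.Agent.P284.H894.G Vale.Agent.P284.H894.V Vale.Agent.P284.H894.W
  Vale.Agent.P284.H213.Grp

/-- `Θ` is a holomorphic relative 1-form along the fibre `F = t` (only the values of `Θ y e` on the
vertical vectors `VS p F y e` matter), with the potential `u`: `⟪c, u⟫` is pluriharmonic along the fibre and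
its `(1,0)` differential is `⟪c, Θ⟫`. -/
structure VPot {n q : ℕ} {X E : Type} [TopologicalSpace X] [ChartedSpace (Cm n) X]
    [TopologicalSpace E] (p : E → X) (F : E → Cm q) (t : Cm q) (W : Type) [NormedAddCommGroup W]
    [InnerProductSpace ℂ W] (Θ : E → Chart n X → (Cm n →L[ℂ] W)) (u : E → W) : Prop where
  hol : ∀ y e, F y = t → At e (p y) → ∃ A : Cm n → (Cm n →L[ℂ] W), AnalyticAt ℂ A (e (p y)) ∧
    ∀ᶠ y' in 𝓝 y, F y' = t → ∀ ξ ∈ VS p F y' e, Θ y' e ξ = A (e (p y')) ξ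
  change : ∀ y e e', F y = t → At e (p y) → At e' (p y) → ∀ ξ ∈ VS p F y e,
    Θ y e ξ = Θ y e' (fderiv ℂ (fun z => e' (e.symm z)) (e (p y)) ξ)
  pot : ∀ y e, F y = t → At e (p y) → ∀ c : W, ∃ g h : Cm n → ℂ, AnalyticAt ℂ g (e (p y)) ∧
    AnalyticAt ℂ h (e (p y)) ∧ ∀ᶠ y' in 𝓝 y, F y' = t →
      ⟪c, u y'⟫_ℂ = g (e (p y')) + conj (h (e (p y'))) ∧
      ∀ ξ ∈ VS p F y' e, fderiv ℂ g (e (p y')) ξ = ⟪c, Θ y' e ξ⟫_ℂ

/-- equivariance along the fibre `F = t` -/
structure VEqui {n q : ℕ} {X E : Type} [TopologicalSpace X] [ChartedSpace (Cm n) X]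
    [TopologicalSpace E] {Γ : Type} [Group Γ] [MulAction Γ E] (p : E → X) (F : E → Cm q) (t : Cm q)
    (K : Subgroup Γ) {W : Type} [NormedAddCommGroup W] [InnerProductSpace ℂ W]
    (π : Γ →* (W ≃ₗᵢ[ℂ] W)) (Θ : E → Chart n X → (Cm n →L[ℂ] W)) (u : E → W) : Prop where
  form : ∀ k ∈ K, ∀ y e, F y = t → At e (p y) → ∀ ξ ∈ VS p F y e, Θ (k • y) e ξ = π k (Θ y e ξ)
  pot : ∀ k ∈ K, ∃ b : W, ∀ y, F y = t → u (k • y) = π k (u y) + b

/-- **Module NUL.** -/
def NulStmt : Prop :=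
  ∀ (n q : ℕ) (X : Type) [TopologicalSpace X] [T2Space X] [CompactSpace X]
    [ChartedSpace (Cm n) X] [IsManifold 𝓘(ℂ, Cm n) ω X] (E Γ : Type) [TopologicalSpace E]
    [Group Γ] [MulAction Γ E] (p : E → X), IsGalois Γ p → Folner Γ →
    ∀ (F : E → Cm q) (c : Γ → Cm q) (K : Subgroup Γ), HolE n p F →
      (∀ g y, F (g • y) = F y + c g) → NPkg Γ q c K →
    ∀ t : Cm q, IsConnected (F ⁻¹' {t}) → (∀ y, F y = t → Reg (n := n) p F y) →
    ∀ (W : Type) [NormedAddCommGroup W] [InnerProductSpace ℂ W] [CompleteSpace W]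
      (π : Γ →* (W ≃ₗᵢ[ℂ] W)) (Θ : E → Chart n X → (Cm n →L[ℂ] W)) (u : E → W),
      VPot p F t W Θ u → VEqui p F t K π Θ u →
    ∀ (y₀ : E), F y₀ = t → ∀ v : W,
      (∀ᶠ y in 𝓝 y₀, F y = t → ∃ e, At e (p y) ∧ ∃ ξ ∈ VS p F y e, Θ y e ξ = v) → v = 0

end Vale.Agent.P284.H619
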