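import Vale.Agent.P284.H619.Nat2
import Vale.Agent.P284.H573.HForm
import Vale.Agent.P284.H894.G.Defs

/-!
# P284 (helper619), module NS0: natural sections of an equivariant closed 1-form, statements

`Θ` is a closed holomorphic 1-form on the Galois covering `E` of `X`, with values in a Hilbert space
`W` with an isometric action `π` of the group of the covering. If the generic rank of `Θ` is `R` and no
nonzero vector of `W` lies in the image of `Θ` at all points of rank `R`, there is a natural form of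
type `(Λ^R T^*)^m` with a good point.
-/

open scoped Manifold ContDiff Topology InnerProductSpace
open Filter

noncomputable section

namespace Vale.Agent.P284.H619

open Vale.Agent.P272.K Vale.Agent.P284.H573 Vale.Agent.P284.H894.G

/-- `Θ` is a closed holomorphic 1-form on the covering `p : E → X` with values in `W`: `Θ y e` is its
value at `y`, in the coordinates of the chart `e` at `p y`. -/
structure CForm (n : ℕ) {X E : Type} [TopologicalSpace X] [ChartedSpace (Cm n) X]
    [TopologicalSpace E] (p : E → X) (W : Type) [NormedAddCommGroup W] [InnerProductSpace ℂ W]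
    (Θ : E → Chart n X → (Cm n →L[ℂ] W)) : Prop where
  loc : ∀ y e, At e (p y) → ∃ F : Cm n → W, AnalyticAt ℂ F (e (p y)) ∧
    ∀ᶠ y' in 𝓝 y, Θ y' e = fderiv ℂ F (e (p y'))
  change : ∀ y e e', At e (p y) → At e' (p y) →
    Θ y e = (Θ y e').comp (fderiv ℂ (fun z => e' (e.symm z)) (e (p y)))

/-- `Θ` is equivariant. -/
def Equi {n : ℕ} {X E : Type} [TopologicalSpace X] [ChartedSpace (Cm n) X] [TopologicalSpace E]
    {Γ : Type} [Group Γ] [MulAction Γ E] (p : E → X) {W : Type} [NormedAddCommGroup W]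
    [InnerProductSpace ℂ W] (π : Γ →* (W ≃ₗᵢ[ℂ] W)) (Θ : E → Chart n X → (Cm n →L[ℂ] W)) : Prop :=
  ∀ (g : Γ) (y : E) (e : Chart n X), At e (p y) →
    Θ (g • y) e = ((π g).toContinuousLinearEquiv : W →L[ℂ] W).comp (Θ y e)

/-- the rank of `Θ` at `y` -/
def rk {n : ℕ} {X E : Type} [TopologicalSpace X] [ChartedSpace (Cm n) X]
    {W : Type} [NormedAddCommGroup W] [InnerProductSpace ℂ W]
    (Θ : E → Chart n X → (Cm n →L[ℂ] W)) (y : E) (e : Chart n X) : ℕ :=
  Module.finrank ℂ (LinearMap.range (Θ y e : Cm n →ₗ[ℂ] W))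

/-- **Module NS0.** -/
def NS0Stmt : Prop :=
  ∀ (n r : ℕ) (X : Type) [TopologicalSpace X] [T2Space X] [ChartedSpace (Cm n) X]
    [IsManifold 𝓘(ℂ, Cm n) ω X] (E Γ : Type) [TopologicalSpace E] [ConnectedSpace E] [Group Γ]
    [MulAction Γ E] (p : E → X), IsGalois Γ p →
    ∀ (W : Type) [NormedAddCommGroup W] [InnerProductSpace ℂ W] [CompleteSpace W]
      (π : Γ →* (W ≃ₗᵢ[ℂ] W)) (Θ : E → Chart n X → (Cm n →L[ℂ] W)), CForm n p W Θ → Equi p π Θ →
    (∀ y e, At e (p y) → rk Θ y e ≤ r + 1) →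
    (∀ c : W, (∀ y e, At e (p y) → rk Θ y e = r + 1 → ∃ ξ, Θ y e ξ = c) → c = 0) →
    ∀ (y₀ : E) (e₀ : Chart n X), At e₀ (p y₀) → rk Θ y₀ e₀ = r + 1 →
    ∃ (m : ℕ) (_ : 1 ≤ m) (H : Type) (_ : NormedAddCommGroup H) (_ : InnerProductSpace ℂ H)
      (_ : CompleteSpace H) (v : E → Chart n X → (Fin (r + 1) → Cm n) → H),
      HForm n (r + 1) m p H v ∧ GoodAt p (r + 1) m v y₀

/-- **Local immersion theorem**: `F : ℂᴿ → H` a holomorphic immersion germ at `z₀`, `R = r + 1`, such
that no nonzero vector lies in the image of `dF z` for all `z` near `z₀`. Then some natural section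
`G k` of `dF` is projectively immersive at `z₀`. Proof: WLOG (`natural`) `⟪f a, F z⟫ = z a` for vectors
`f a`; then ratios of components of `G k` contain all `⟪h, ∂^α F⟫`, `1 ≤ |α| ≤ k + 1`. -/
def ImmStmt : Prop :=
  ∀ (H : Type) [NormedAddCommGroup H] [InnerProductSpace ℂ H] [CompleteSpace H] (S : TH H)
    (r : ℕ) (F : Cm (r + 1) → H) (z₀ : Cm (r + 1)), AnalyticAt ℂ F z₀ →
    Function.Injective (fderiv ℂ F z₀) →
    (∀ c : H, (∀ᶠ z in 𝓝 z₀, ∃ ξ, fderiv ℂ F z ξ = c) → c = 0) →
    ∃ k : ℕ, ImmAt (fun z => S.G (fun y => fderiv ℂ F y) k z (fr (r + 1))) z₀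

end Vale.Agent.P284.H619
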