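import Vale.Agent.P284.H619.Nul3

/-!
# P284 (helper619), module NUL: proof
-/

open scoped Manifold ContDiff Topology InnerProductSpace ComplexConjugate Pointwise
open Filter Set Metric

noncomputable section

namespace Vale.Agent.P284.H619

open Vale.Agent.P272.K Vale.Agent.P284.H894.G Vale.Agent.P284.H894.V Vale.Agent.P284.H894.W
  Vale.Agent.P284.H213.Grp

section
variable {n q : ℕ} {X : Type} [TopologicalSpace X] [ChartedSpace (Cm n) X]
  {E : Type} [TopologicalSpace E] {p : E → X} {F : E → Cm q} {t : Cm q}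

/-- maximum principle on a connected regular fibre -/
theorem re_const (hp : IsCoveringMap p) (hF : HolE n p F) (hc : IsConnected (F ⁻¹' {t}))
    (hreg : ∀ y, F y = t → Reg (n := n) p F y) {m : E → ℝ}
    (hm : ∀ (y : E) (e : Chart n X), F y = t → At e (p y) → ∃ G : Cm n → ℂ,
      AnalyticAt ℂ G (e (p y)) ∧ ∀ᶠ y' in 𝓝 y, F y' = t → m y' = (G (e (p y'))).re)
    {D : Set E} (hD : IsCompact D)
    (hcov : ∀ y, F y = t → ∃ y' ∈ D, F y' = t ∧ m y' = m y) :
    ∃ M, ∀ y, F y = t → m y = M := by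
  have hch : ∀ y : E, At (chartAt (Cm n) (p y)) (p y) := fun y =>
    ⟨chart_mem_atlas _ _, mem_chart_source _ _⟩
  have hclosed : IsClosed (F ⁻¹' {t}) := isClosed_singleton.preimage (hF.continuous hp)
  have hDc : IsCompact (D ∩ F ⁻¹' {t}) := hD.inter_right hclosed
  have hcont : ContinuousOn m (D ∩ F ⁻¹' {t}) := by
    intro y hy
    obtain ⟨G, hG, hev⟩ := hm y _ hy.2 (hch y)
    have h1 : ContinuousAt (fun y' => (G (chartAt (Cm n) (p y) (p y'))).re) y :=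
      Complex.continuous_re.continuousAt.comp
        (ContinuousAt.comp (f := fun y' => chartAt (Cm n) (p y) (p y')) hG.continuousAt
          (tendsto_ep hp (hch y)))
    refine (h1.continuousWithinAt (s := D ∩ F ⁻¹' {t})).congr_of_eventuallyEq ?_ ?_
    · rw [Filter.EventuallyEq, eventually_nhdsWithin_iff]
      filter_upwards [hev] with y' h2 h3 using h2 h3.2
    · exact hev.self_of_nhds hy.2
  obtain ⟨y₀, hy₀⟩ := hc.nonempty
  obtain ⟨y₀', hy₀D, hy₀t, -⟩ := hcov y₀ hy₀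
  obtain ⟨yM, hyM, hmax⟩ := hDc.exists_isMaxOn ⟨y₀', hy₀D, hy₀t⟩ hcont
  have hle : ∀ y, F y = t → m y ≤ m yM := by
    intro y hy
    obtain ⟨y', h1, h2, h3⟩ := hcov y hy
    rw [← h3]
    exact hmax ⟨h1, h2⟩
  refine ⟨m yM, fib_ind (P := fun y => m y = m yM) hc.isPreconnected ?_ hyM.2 rfl⟩
  intro y₁ hy₁
  have he := hch y₁
  set e := chartAt (Cm n) (p y₁) with he_def
  obtain ⟨G, hG, hev⟩ := hm y₁ e hy₁ he
  by_cases h1 : m y₁ = m yM
  · obtain ⟨f, ψ, φ, ε, hpar⟩ := exists_Par hp hF hy₁ he (hreg y₁ hy₁)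
    have h0 : AnalyticAt ℂ ψ 0 := hpar.an 0 (mem_ball_self hpar.pos)
    have hψt : Tendsto ψ (𝓝 0) (𝓝 (e (p y₁))) := by
      have := h0.continuousAt.tendsto
      rwa [hpar.ψ0] at this
    have h2 : ∀ᶠ u in 𝓝 (0 : Cm n), (G (ψ u)).re ≤ m yM := by
      refine hpar.germ0 hp hy₁ (Q := fun z => (G z).re ≤ m yM) ?_
      filter_upwards [hev] with y' k1 k2
      rw [← k1 k2]
      exact hle y' k2
    have h3 : (G (ψ 0)).re = m yM := by
      rw [hpar.ψ0, ← hev.self_of_nhds hy₁, h1]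
    have hGψ : AnalyticAt ℂ (fun u => G (ψ u)) 0 :=
      AnalyticAt.fun_comp (by rw [hpar.ψ0]; exact hG) h0
    have h4 : ∀ᶠ u in 𝓝 (0 : Cm n), Complex.exp (G (ψ u)) = Complex.exp (G (ψ 0)) := by
      refine Complex.eventually_eq_of_isLocalMax_norm (f := fun u => Complex.exp (G (ψ u))) ?_ ?_
      · filter_upwards [hGψ.eventually_analyticAt] with u hu
        exact hu.differentiableAt.cexp
      · filter_upwards [h2] with u hu
        show ‖Complex.exp (G (ψ u))‖ ≤ ‖Complex.exp (G (ψ 0))‖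
        rw [Complex.norm_exp, Complex.norm_exp, h3]
        exact Real.exp_le_exp.2 hu
    have h5 : ∀ᶠ u in 𝓝 (0 : Cm n), (G (ψ u)).re = m yM := by
      filter_upwards [h4] with u hu
      have := congrArg (fun z : ℂ => ‖z‖) hu
      simp only [Complex.norm_exp, h3] at this
      exact Real.exp_injective this
    filter_upwards [hpar.back hp (Q := fun z => (G z).re = m yM) h5, hev] with y k1 k2 k3
    exact ⟨fun _ => by rw [k2 k3, k1 k3], fun _ => h1⟩
  · have h2 : (G (e (p y₁))).re < m yM := by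
      rw [← hev.self_of_nhds hy₁]
      exact lt_of_le_of_ne (hle y₁ hy₁) h1
    have h3 : ContinuousAt (fun y' => (G (e (p y'))).re) y₁ :=
      Complex.continuous_re.continuousAt.comp
        (ContinuousAt.comp (f := fun y' => e (p y')) hG.continuousAt (tendsto_ep hp he))
    filter_upwards [hev, h3.eventually_lt_const h2] with y k1 k2 k3
    refine ⟨fun h => absurd h h1, fun h => ?_⟩
    rw [k1 k3] at h
    exact absurd h k2.ne

end

/-- **Module NUL.** -/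
theorem nulStmt : NulStmt := by
  intro n q X _ _ _ _ _ E Γ _ _ _ p hG hFol F c K hF hc hN t hcon hreg W _ _ _ π Θ u hΘ hE y₀ hy₀ v hv
  have hp := hG.cov
  have hF0 : ∀ k ∈ K, ∀ y, F (k • y) = F y := fun k hk y => by rw [hc, hN.sub k hk, add_zero]
  obtain ⟨r, hr, y₁, e₁, hy₁, he₁, hrk₁⟩ := exists_max (p := p) (F := F) (Θ := Θ) hy₀
  have hvN : v ∈ NN p F Θ t r :=
    mem_NN_of hp hF hcon.isPreconnected hreg hΘ hr hy₀ hv
  have hNle : NN p F Θ t r ≤ imV p F Θ y₁ e₁ := fun w hw => mem_NN.1 hw y₁ e₁ hy₁ he₁ hrk₁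
  have hfdC : FiniteDimensional ℂ (NN p F Θ t r) := Submodule.finiteDimensional_of_le hNle
  have hfd : FiniteDimensional ℝ ((NN p F Θ t r).restrictScalars ℝ) :=
    inferInstanceAs (FiniteDimensional ℝ (NN p F Θ t r))
  have hKfg := hN.fg
  obtain ⟨K', hK'K, hfi, htriv⟩ := Vale.Agent.P284.H221.exists_trivial_sub hFol (K := K) hN.fg
    hN.nvi (fun g w => π g w) ((NN p F Θ t r).restrictScalars ℝ) hfd
    (fun k hk w hw => NN_smul hG hF0 hE hk hw)
    (fun k _ w _ w' _ => map_add _ _ _)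
    (fun k _ a w _ => by
      have := (π k).map_smul (a : ℂ) w
      simpa using this)
    (fun w _ => by rw [map_one]; rfl)
    (fun k _ k' _ w _ => by rw [map_mul]; rfl)
  obtain ⟨D, hD, hDcov⟩ := exists_compact_fib hG hF hc hN hfi t
  -- the periods vanish
  have hper : ∀ w ∈ NN p F Θ t r, ∀ k ∈ K', ∀ y, F y = t → ⟪w, u (k • y)⟫_ℂ = ⟪w, u y⟫_ℂ := by
    intro w hw
    have hb : ∀ k : Γ, ∃ b : W, k ∈ K → ∀ y, F y = t → u (k • y) = π k (u y) + b := by
      intro k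
      by_cases hk : k ∈ K
      · obtain ⟨b, hb⟩ := hE.pot k hk
        exact ⟨b, fun _ => hb⟩
      · exact ⟨0, fun h => absurd h hk⟩
    choose b hb using hb
    have h1 : ∀ k ∈ K', ∀ y, F y = t → ⟪w, u (k • y)⟫_ℂ = ⟪w, u y⟫_ℂ + ⟪w, b k⟫_ℂ := by
      intro k hk y hy
      rw [hb k (hK'K hk) y hy, inner_add_right]
      congr 1
      have h2 : π k w = w := htriv k hk w hw
      calc ⟪w, π k (u y)⟫_ℂ = ⟪π k w, π k (u y)⟫_ℂ := by rw [h2]
        _ = ⟪w, u y⟫_ℂ := (π k).inner_map_map _ _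
    have h2 : ∀ k ∈ K', ∀ k' ∈ K', ⟪w, b (k * k')⟫_ℂ = ⟪w, b k⟫_ℂ + ⟪w, b k'⟫_ℂ := by
      intro k hk k' hk'
      have e1 := h1 (k * k') (K'.mul_mem hk hk') y₀ hy₀
      have e2 := h1 k hk (k' • y₀) (by rw [hF0 k' (hK'K hk'), hy₀])
      have e3 := h1 k' hk' y₀ hy₀
      rw [mul_smul, e2, e3] at e1
      have e4 : ⟪w, b k'⟫_ℂ + ⟪w, b k⟫_ℂ = ⟪w, b (k * k')⟫_ℂ := by
        rw [add_assoc] at e1
        exact add_left_cancel e1
      rw [← e4, add_comm]
    have h3 := Vale.Agent.P284.H221.hom_zero_sub (K := K) hN.fg hN.nvi hK'K hfi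
      (fun k => ⟪w, b k⟫_ℂ) h2
    intro k hk y hy
    rw [h1 k hk y hy, h3 k hk, add_zero]
  -- `Re ⟪w, u⟫` is constant on the fibre
  have hre : ∀ w ∈ NN p F Θ t r, ∃ M : ℝ, ∀ y, F y = t → (⟪w, u y⟫_ℂ).re = M := by
    intro w hw
    refine re_const hp hF hcon hreg (fun y e hy he => ?_) hD (fun y hy => ?_)
    · obtain ⟨g, h, hg, hh, hev⟩ := hΘ.pot y e hy he w
      refine ⟨fun z => g z + h z, hg.add hh, ?_⟩
      filter_upwards [hev] with y' k1 k2
      rw [(k1 k2).1, Complex.add_re, Complex.add_re, Complex.conj_re]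
    · obtain ⟨k, hk, hkD⟩ := hDcov y hy
      exact ⟨k • y, hkD, by rw [hF0 k (hK'K hk), hy], by rw [hper w hw k hk y hy]⟩
  -- hence `⟪w, u⟫` is constant
  have hco : ∃ M : ℂ, ∀ y, F y = t → ⟪v, u y⟫_ℂ = M := by
    obtain ⟨M₁, h1⟩ := hre v hvN
    obtain ⟨M₂, h2⟩ := hre ((Complex.I : ℂ) • v) (Submodule.smul_mem _ _ hvN)
    refine ⟨⟨M₁, M₂⟩, fun y hy => Complex.ext (h1 y hy) ?_⟩
    have h3 := h2 y hy
    rw [inner_smul_left, Complex.conj_I] at h3
    simpa using h3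
  obtain ⟨M, hM⟩ := hco
  -- the derivative at `y₁`
  obtain ⟨ξ, hξ, hξv⟩ := hNle hvN
  obtain ⟨g, h, hg, hh, hev⟩ := hΘ.pot y₁ e₁ hy₁ he₁ v
  obtain ⟨f, ψ, φ, ε, hpar⟩ := exists_Par hp hF hy₁ he₁ (hreg y₁ hy₁)
  have h0 : AnalyticAt ℂ ψ 0 := hpar.an 0 (mem_ball_self hpar.pos)
  have h1 : ∀ᶠ z in 𝓝 (0 : Cm n), g (ψ z) + conj (h (ψ z)) = M := by
    refine hpar.germ0 hp hy₁ (Q := fun z => g z + conj (h z) = M) ?_
    filter_upwards [hev] with y' k1 k2
    rw [← (k1 k2).1, hM y' k2]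
  have hgψ : AnalyticAt ℂ (fun z => g (ψ z)) 0 :=
    AnalyticAt.fun_comp (by rw [hpar.ψ0]; exact hg) h0
  have hhψ : AnalyticAt ℂ (fun z => h (ψ z)) 0 :=
    AnalyticAt.fun_comp (by rw [hpar.ψ0]; exact hh) h0
  have h2 : ∀ η, fderiv ℂ (fun z => g (ψ z)) 0 η = 0 := by
    have d1 := hgψ.differentiableAt.hasFDerivAt.restrictScalars ℝ
    have d2 := hhψ.differentiableAt.hasFDerivAt.restrictScalars ℝ
    have d3 : HasFDerivAt (fun z => g (ψ z) + conj (h (ψ z)))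
        ((fderiv ℂ (fun z => g (ψ z)) 0).restrictScalars ℝ +
          (Complex.conjCLE : ℂ →L[ℝ] ℂ).comp ((fderiv ℂ (fun z => h (ψ z)) 0).restrictScalars ℝ))
        0 := d1.add ((Complex.conjCLE : ℂ →L[ℝ] ℂ).hasFDerivAt.comp (0 : Cm n) d2)
    have d4 : HasFDerivAt (fun z => g (ψ z) + conj (h (ψ z))) (0 : Cm n →L[ℝ] ℂ) 0 :=
      (hasFDerivAt_const M (0 : Cm n)).congr_of_eventuallyEq h1
    have d5 := d3.unique d4
    intro η
    have e1 := DFunLike.congr_fun d5 η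
    have e2 := DFunLike.congr_fun d5 (Complex.I • η)
    have e1' : fderiv ℂ (fun z => g (ψ z)) 0 η + conj (fderiv ℂ (fun z => h (ψ z)) 0 η) = 0 := e1
    have e2' : fderiv ℂ (fun z => g (ψ z)) 0 (Complex.I • η) +
        conj (fderiv ℂ (fun z => h (ψ z)) 0 (Complex.I • η)) = 0 := e2
    rw [map_smul, map_smul, smul_eq_mul, smul_eq_mul, map_mul, Complex.conj_I] at e2'
    have e3 : Complex.I * (fderiv ℂ (fun z => g (ψ z)) 0 η -
        conj (fderiv ℂ (fun z => h (ψ z)) 0 η)) = 0 := by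
      rw [mul_sub, ← e2']; ring
    have e4 := (mul_eq_zero.1 e3).resolve_left Complex.I_ne_zero
    have e5 : 2 * fderiv ℂ (fun z => g (ψ z)) 0 η = 0 := by
      linear_combination e1' + e4
    exact (mul_eq_zero.1 e5).resolve_left two_ne_zero
  -- conclusion
  obtain ⟨-, -, hv3⟩ := hpar.near.self_of_nhds hy₁
  rw [hpar.φ0] at hv3
  have h3 := (hev.self_of_nhds hy₁).2 ξ hξ
  have h4 : fderiv ℂ g (e₁ (p y₁)) ξ = 0 := by
    have h5 : HasFDerivAt (fun z => g (ψ z)) ((fderiv ℂ g (e₁ (p y₁))).comp (fderiv ℂ ψ 0)) 0 := by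
      refine HasFDerivAt.comp (0 : Cm n) (g := g) (f := ψ) ?_ h0.differentiableAt.hasFDerivAt
      rw [hpar.ψ0]
      exact hg.differentiableAt.hasFDerivAt
    have h6 := h2 (fderiv ℂ φ (e₁ (p y₁)) ξ)
    rw [h5.fderiv, ContinuousLinearMap.comp_apply, hv3 ξ hξ] at h6
    exact h6
  have h5 : Θ y₁ e₁ ξ = v := hξv
  rw [h4, h5] at h3
  exact inner_self_eq_zero.1 h3.symm

end Vale.Agent.P284.H619
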