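import Vale.Agent.P284.H619.NS0
import Vale.Agent.P284.H812.Imm

/-!
# P284 (helper619), module NS0: final form
-/

namespace Vale.Agent.P284.H619

/-- **Module NS0**: natural sections of an equivariant closed 1-form. -/
theorem ns0Stmt : NS0Stmt := ns0_of Vale.Agent.P284.H812.Imm.immStmt

end Vale.Agent.P284.H619
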