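import Vale.Agent.P284.H619.NulS

/-!
# P284 (helper619), module NUL: continuation along a connected regular fibre
-/

open scoped Manifold ContDiff Topology InnerProductSpace ComplexConjugate
open Filter Set Metric

noncomputable section

namespace Vale.Agent.P284.H619

open Vale.Agent.P272.K Vale.Agent.P284.H894.G Vale.Agent.P284.H894.V Vale.Agent.P284.H894.W
  Vale.Agent.P284.H213.Grp

section
variable {n q : ℕ} {X : Type} [TopologicalSpace X] [ChartedSpace (Cm n) X]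
  {E : Type} [TopologicalSpace E] {p : E → X} {F : E → Cm q}

/-- Local parametrisation of the fibre `F = t` near the regular point `y₁`, with transport of germs. -/
structure Par (p : E → X) (F : E → Cm q) (t : Cm q) (y₁ : E) (e : Chart n X)
    (f : Cm n → Cm q) (ψ φ : Cm n → Cm n) (ε : ℝ) : Prop where
  mem : At e (p y₁)
  pos : 0 < ε
  fan : AnalyticAt ℂ f (e (p y₁))
  fev : ∀ᶠ y' in 𝓝 y₁, F y' = f (e (p y'))
  an : AnalyticOnNhd ℂ ψ (ball 0 ε)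
  φan : AnalyticAt ℂ φ (e (p y₁))
  ψ0 : ψ 0 = e (p y₁)
  φ0 : φ (e (p y₁)) = 0
  fψ : ∀ u ∈ ball (0 : Cm n) ε, f (ψ u) = t
  vert : ∀ u ∈ ball (0 : Cm n) ε, ∀ η, fderiv ℂ f (ψ u) (fderiv ℂ ψ u η) = 0
  near : ∀ᶠ y in 𝓝 y₁, F y = t → φ (e (p y)) ∈ ball (0 : Cm n) ε ∧ ψ (φ (e (p y))) = e (p y) ∧
    ∀ ξ ∈ VS p F y e, fderiv ℂ ψ (φ (e (p y))) (fderiv ℂ φ (e (p y)) ξ) = ξ

theorem exists_Par (hp : IsCoveringMap p) (hF : HolE n p F) {t : Cm q} {y₁ : E} (hy₁ : F y₁ = t)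
    {e : Chart n X} (he : At e (p y₁)) (hreg : Reg (n := n) p F y₁) :
    ∃ f ψ φ ε, Par p F t y₁ e f ψ φ ε := by
  obtain ⟨f, ψ, φ, h1, h2, h3, h4, h5, h6, h7, h8⟩ := exists_fib hp hF he hreg
  have hev : ∀ᶠ u in 𝓝 (0 : Cm n), AnalyticAt ℂ ψ u ∧ f (ψ u) = F y₁ ∧
      ∀ η, fderiv ℂ f (ψ u) (fderiv ℂ ψ u η) = 0 := by
    have hc : Tendsto ψ (𝓝 0) (𝓝 (e (p y₁))) := by
      have := h3.continuousAt.tendsto
      rwa [h5] at this
    filter_upwards [h3.eventually_analyticAt, h7, h7.eventually_nhds,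
      hc.eventually h2.eventually_analyticAt] with u g1 g2 g3 g4
    refine ⟨g1, g2, fun η => ?_⟩
    have k1 : HasFDerivAt (fun u => f (ψ u)) ((fderiv ℂ f (ψ u)).comp (fderiv ℂ ψ u)) u :=
      g4.differentiableAt.hasFDerivAt.comp u g1.differentiableAt.hasFDerivAt
    have k2 : HasFDerivAt (fun u => f (ψ u)) (0 : Cm n →L[ℂ] Cm q) u :=
      (hasFDerivAt_const (F y₁) u).congr_of_eventuallyEq g3
    exact DFunLike.congr_fun (k1.unique k2) η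
  obtain ⟨ε, hε, hball⟩ := Metric.eventually_nhds_iff_ball.1 hev
  refine ⟨f, ψ, φ, ε, he, hε, h2, h1, fun u hu => (hball u hu).1, h4, h5, h6,
    fun u hu => by rw [← hy₁]; exact (hball u hu).2.1, fun u hu => (hball u hu).2.2, ?_⟩
  have hφc : Tendsto (fun y => φ (e (p y))) (𝓝 y₁) (𝓝 0) := by
    have := h4.continuousAt.tendsto.comp (tendsto_ep hp he)
    rwa [h6] at this
  filter_upwards [h8, hφc.eventually (ball_mem_nhds 0 hε)] with y g1 g2 g3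
  obtain ⟨k1, k2⟩ := g1 (by rw [g3, hy₁])
  exact ⟨g2, k1, k2⟩

/-- transport of germs at `y₁` -/
lemma Par.germ {t : Cm q} {y₁ : E} {e : Chart n X} {f : Cm n → Cm q} {ψ φ : Cm n → Cm n} {ε : ℝ}
    (h : Par p F t y₁ e f ψ φ ε) (hp : IsCoveringMap p) :
    ∀ᶠ y in 𝓝 y₁, F y = t → ∀ Q : Cm n → Prop, (∀ᶠ y' in 𝓝 y, F y' = t → Q (e (p y'))) →
      ∀ᶠ u in 𝓝 (φ (e (p y))), Q (ψ u) := by
  filter_upwards [h.near, h.fev.eventually_nhds, at_ev hp h.mem] with y h1 h2 h3 h4 Q hQ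
  obtain ⟨g1, g2, -⟩ := h1 h4
  have hc : Tendsto ψ (𝓝 (φ (e (p y)))) (𝓝 (e (p y))) := by
    have := (h.an _ g1).continuousAt.tendsto
    rwa [g2] at this
  have k1 : ∀ᶠ z in 𝓝 (e (p y)), f z = t → Q z := by
    rw [← ev_iff hp h3]
    filter_upwards [h2, hQ] with y' m1 m2 m3
    exact m2 (by rw [m1, m3])
  filter_upwards [hc.eventually k1, isOpen_ball.mem_nhds g1] with u m1 m2
  exact m1 (h.fψ u m2)

lemma Par.germ0 {t : Cm q} {y₁ : E} {e : Chart n X} {f : Cm n → Cm q} {ψ φ : Cm n → Cm n} {ε : ℝ}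
    (h : Par p F t y₁ e f ψ φ ε) (hp : IsCoveringMap p) (hy₁ : F y₁ = t) {Q : Cm n → Prop}
    (hQ : ∀ᶠ y' in 𝓝 y₁, F y' = t → Q (e (p y'))) : ∀ᶠ u in 𝓝 (0 : Cm n), Q (ψ u) := by
  have := (h.germ hp).self_of_nhds hy₁ Q hQ
  rwa [h.φ0] at this

lemma Par.back {t : Cm q} {y₁ : E} {e : Chart n X} {f : Cm n → Cm q} {ψ φ : Cm n → Cm n} {ε : ℝ}
    (h : Par p F t y₁ e f ψ φ ε) (hp : IsCoveringMap p) {Q : Cm n → Prop}
    (hQ : ∀ᶠ u in 𝓝 (0 : Cm n), Q (ψ u)) : ∀ᶠ y in 𝓝 y₁, F y = t → Q (e (p y)) := by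
  have hφc : Tendsto (fun y => φ (e (p y))) (𝓝 y₁) (𝓝 0) := by
    have := h.φan.continuousAt.tendsto.comp (tendsto_ep hp h.mem)
    rwa [h.φ0] at this
  filter_upwards [h.near, hφc.eventually hQ] with y h1 h2 h3
  rw [← (h1 h3).2.1]
  exact h2

/-- induction along a connected fibre -/
theorem fib_ind {t : Cm q} (hc : IsPreconnected (F ⁻¹' {t})) {P : E → Prop}
    (hloc : ∀ y₁, F y₁ = t → ∀ᶠ y in 𝓝 y₁, F y = t → (P y₁ ↔ P y)) {y₀ : E} (hy₀ : F y₀ = t)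
    (h0 : P y₀) : ∀ y, F y = t → P y := by
  intro y hy
  have := hc.induction₂ (fun a b => P a ↔ P b)
    (fun x hx => by
      exact eventually_nhdsWithin_iff.2 (hloc x hx))
    (fun a b c _ _ _ h1 h2 => h1.trans h2) (fun a b _ _ h => h.symm) (x := y₀) (y := y) hy₀ hy
  exact this.1 h0

end

end Vale.Agent.P284.H619
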