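import Vale.Agent.P284.H619.PieceV
import Vale.Agent.P284.H366.V.Rel

/-!
# P284 (helper619), module POT: potentials of limits of Hilbert valued maps (`PotVStmt`)
-/

open scoped Manifold ContDiff Topology InnerProductSpace ComplexConjugate ENNReal Matrix
open Filter Set MeasureTheory Metric

noncomputable section

set_option linter.unusedSectionVars false

namespace Vale.Agent.P284.H619.Pot

open Vale.Agent.P272.K Vale.Agent.P284.H894 Vale.Agent.P284.H894.G Vale.Agent.P284.H894.V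
  Vale.Agent.P284.H894.W Vale.Agent.P284.H501 Vale.Agent.P284.H501.Core
  Vale.Agent.P284.H402.A Vale.Agent.P284.H551 Vale.Agent.P284.H366

/-! ### The values on vertical vectors -/

section alg
variable {n q : ℕ}

/-- `(θ_1 ∧ … ∧ θ_q ∧ α)(u, v)` for a vertical vector `v` -/
lemma wd_bm_snoc {M : Matrix (Fin n) (Fin q) ℂ} {L : Cm n →L[ℂ] Cm q}
    (hL : ∀ v i, L v i = ∑ j, M j i * v j) (α : Fin n → ℂ) (u : Fin q → Cm n) {v : Cm n}
    (hv : L v = 0) :
    wd (bm M α) (Fin.snoc (α := fun _ => Cm n) u v) = dL L u * ∑ j, v j * α j := by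
  set ξ : Fin (q + 1) → Cm n := Fin.snoc (α := fun _ => Cm n) u v with hξ
  have e1 : ∀ i (j : Fin q), vm (bm M α) ξ i j.castSucc = L (ξ i) j := by
    intro i j
    rw [hL]
    show ∑ l, ξ i l * bm M α l j.castSucc = _
    simp only [bm_castSucc]
    exact Finset.sum_congr rfl fun l _ => mul_comm _ _
  have e2 : ∀ i, vm (bm M α) ξ i (Fin.last q) = ∑ l, ξ i l * α l := by
    intro i
    show ∑ l, ξ i l * bm M α l (Fin.last q) = _
    simp only [bm_last]
  have hl : ξ (Fin.last q) = v := Fin.snoc_last _ _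
  have hc : ∀ i : Fin q, ξ i.castSucc = u i := fun i => Fin.snoc_castSucc _ _ _
  rw [wd_apply, Matrix.det_succ_row _ (Fin.last q), Fin.sum_univ_castSucc]
  have e3 : ∀ j : Fin q, (-1 : ℂ) ^ ((Fin.last q : ℕ) + (j.castSucc : ℕ)) *
      vm (bm M α) ξ (Fin.last q) j.castSucc *
      ((vm (bm M α) ξ).submatrix (Fin.last q).succAbove j.castSucc.succAbove).det = 0 := by
    intro j
    rw [e1, hl, hv]
    simp
  rw [Finset.sum_eq_zero fun j _ => e3 j, zero_add, e2, hl]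
  have e4 : (vm (bm M α) ξ).submatrix (Fin.last q).succAbove (Fin.last q).succAbove =
      Matrix.of fun i j : Fin q => L (u i) j := by
    ext i j
    rw [Matrix.submatrix_apply, Fin.succAbove_last, Matrix.of_apply, e1, hc]
  rw [e4, dL_eq, ← two_mul, pow_mul]
  simp [mul_comm]

variable {Γ : Type} [Group Γ] {C : Coc n Γ} {H : Type} [NormedAddCommGroup H]
  [InnerProductSpace ℂ H] {π : Γ →* (H ≃ₗᵢ[ℂ] H)} {u : Γ → C.I → Cm n → H}

lemma vtf_snoc (θ : HF C q) (h : VMap C π u) (γ : Γ) (a : C.I) {z : Cm n} (hz : z ∈ C.Ω a)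
    {L : Cm n →L[ℂ] Cm q} (hL : ∀ v i, L v i = ∑ j, θ.th a z j i * v j) (w : Fin q → Cm n)
    {v : Cm n} (hv : L v = 0) :
    vtf θ u γ a z (Fin.snoc (α := fun _ => Cm n) w v) = dL L w • DH (u γ a) z v := by
  refine ext_inner_left ℂ fun x => ?_
  rw [inner_vtf θ h γ a hz, wd_bm_snoc hL _ w hv, inner_smul_right, inner_DH (h.diff γ a hz),
    DH_complex]

end alg

/-- **Potentials of limits of Hilbert valued maps** -/
theorem potV : PotVStmt := by
  classical
  intro n X _ _ _ _ _ _ w hw E Γ _ _ _ _ p hG C D K hKw q F c B hF hc hreg H _ _ _ U π cj hcj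
    hcji hcjπ u hu hur hV Dm t hcon hregt
  have hp := hG.cov
  have hVΩ : ∀ a, Dm.Q a ⊆ C.Ω a := fun a => (Dm.Q_sub a).trans (V_sub_Ω C a)
  have han : ∀ γ a, ∀ z ∈ C.Ω a, AnalyticAt ℂ (Fc D F γ a) z := fun γ a z hz =>
    Fc_an hG D hF γ hz
  have hsurj : ∀ γ a z, z ∈ Dm.Q a → F (γ • D.σ a z) = t →
      Function.Surjective (fderiv ℂ (Fc D F γ a) z) := fun γ a z hz hzt =>
    (reg_iff hG D hF γ (hVΩ a hz)).1 (hregt _ hzt)
  have hHol : HolE n p F := fun y e he => by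
    obtain ⟨f, hf⟩ := rep_of_holB hG D hF y e he
    exact ⟨f, hf.2, hf.1⟩
  have hJ : ∀ (k : ℕ) (x : H k), ‖cj k x‖ ≤ ‖x‖ := fun k x => (hcj.norm k x).le
  set θ := hfF hG D K hKw hF hc hreg with hθ
  set s := LimV Dm U (fun k => vtf θ (u k)) with hs
  have hcf : H551.CForm C Dm.Q s := cform_limV Dm hV
  have hrel : ∀ γ a, ∀ z ∈ Dm.Q a, Function.Surjective (fderiv ℂ (Fc D F γ a) z) →
      ∀ (ξ : Fin (q + 1) → Cm n) (i j : Fin (q + 1)), i ≠ j →
        fderiv ℂ (Fc D F γ a) z (ξ i) = 0 → fderiv ℂ (Fc D F γ a) z (ξ j) = 0 →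
        s γ a z ξ = 0 := by
    intro γ a z hz hsur ξ i j hij hi hj
    exact LimV_rel Dm θ hV γ a hz (inj_of_surj (thF_apply D hc γ a z) hsur) hij
      ((vert_iff hc γ a z (ξ i)).1 hi) ((vert_iff hc γ a z (ξ j)).1 hj)
  have hrelE : RelE p F (SE hG D s) := relE_of hG.cov hHol
    fun y e f he hf hsur ξ i j hij hi hj =>
      SE_rel hG D hcf (fun y _ he => rep_of_holB hG D hF y _ he) (i := i) (j := j)
        (fun γ a z hz hsur ξ hi hj => hrel γ a z hz hsur ξ i j hij hi hj) he hf hsur hi hj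
  have hform : FormE p (SE hG D s) := SE_form hG D hcf
  -- the maps on the covering
  have hpt : ∀ y : E, ∃ (γ : Γ) (a : C.I) (z : Cm n), z ∈ Dm.Q a ∧ γ • D.σ a z = y := by
    intro y
    obtain ⟨γ, a, -, h2, h3⟩ := D.exists_sheet hG y
    exact ⟨γ, a, _, Dm.W_sub a h2, h3⟩
  choose γs as zs hzs hys using hpt
  set Φ : ∀ k, E → H k := fun k y => u k (γs y) (as y) (zs y) with hΦ
  have hΦe : ∀ γ a z, z ∈ Dm.Q a → ∀ k, Φ k (γ • D.σ a z) = u k γ a z := by
    intro γ a z hz k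
    obtain ⟨hO, hT, hκ⟩ := D.eq_imp hG (hVΩ _ (hzs (γ • D.σ a z))) (hVΩ a hz) (hys _)
    have e := (hu k).compat (γs (γ • D.σ a z)) _ _ _ hO
    rw [hT, ← hκ] at e
    exact e
  have hΦeq : ∀ k g y, Φ k (g • y) = π k g (Φ k y) := by
    intro k g y
    have h1 := hΦe (g * γs y) (as y) (zs y) (hzs y) k
    rw [mul_smul, hys] at h1
    rw [h1, (hu k).equi g (γs y) (as y) (zs y) (hVΩ _ (hzs y))]
  -- the local data
  have hnear : ∀ (γ : Γ) a z, z ∈ Dm.Q a → ∀ᶠ y in 𝓝 (γ • D.σ a z),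
      D.e a (p y) ∈ Dm.Q a ∧ γ • D.σ a (D.e a (p y)) = y ∧ p y ∈ (D.e a).source := by
    intro γ a z hz
    have hzΩ := hVΩ a hz
    have hcπ : ContinuousAt p (γ • D.σ a z) := hG.cov.continuous.continuousAt
    have hpy : p (γ • D.σ a z) = (D.e a).symm z := D.proj' hG γ hzΩ
    have he : ContinuousAt (fun y => D.e a (p y)) (γ • D.σ a z) := by
      refine ContinuousAt.comp ?_ hcπ
      rw [hpy]
      exact (D.e a).continuousAt (D.source hzΩ)
    have hval : D.e a (p (γ • D.σ a z)) = z := D.e_proj hG γ hzΩ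
    have h1 : ∀ᶠ y in 𝓝 (γ • D.σ a z), D.e a (p y) ∈ Dm.Q a := by
      refine he.eventually (p := fun z' => z' ∈ Dm.Q a) ?_
      show ∀ᶠ z' in 𝓝 (D.e a (p (γ • D.σ a z))), z' ∈ Dm.Q a
      rw [hval]
      exact (Dm.Q_open a).mem_nhds hz
    filter_upwards [h1, D.ev hG γ hzΩ] with y g1 g2
    exact ⟨g1, g2.2.2, g2.1⟩
  have hloc : ∀ γ a z, z ∈ Dm.Q a → F (γ • D.σ a z) = t → ∃ G : Cm n → UP H U,
      LocD U p F Φ cj (γ • D.σ a z) (D.e a) (Fc D F γ a) (fun k => u k γ a) G ∧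
      ∀ᶠ z' in 𝓝 z, IsW (fderiv ℂ (Fc D F γ a) z') (s γ a z') (fderiv ℂ G z') := by
    intro γ a z hz hzt
    have hzΩ := hVΩ a hz
    have hez : D.e a (p (γ • D.σ a z)) = z := D.e_proj hG γ hzΩ
    have hQ : ∀ᶠ z' in 𝓝 z, z' ∈ Dm.Q a := (Dm.Q_open a).mem_nhds hz
    obtain ⟨G, hG1, hG2, hG3⟩ := pieceV (s := s γ a) (φ := fun k => u k γ a) (hV.fseq Dm γ a)
      Dm.mol Dm.pos.le le_rfl (z₀ := z) hz (EventuallyEq.refl _ _)
      (by
        filter_upwards [hQ] with z' g1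
        exact LimV_closed Dm hV (fun k => vtf_closed θ (hu k)) γ a g1)
      (han γ a z hzΩ) (hsurj γ a z hz hzt)
      (by
        have hs0 := hsurj γ a z hz hzt
        obtain ⟨I, hI⟩ := dL_ne hs0
        have han₁ : AnalyticAt ℂ (fun z => dL (fderiv ℂ (Fc D F γ a) z)
            (fun i => Pi.single (I i) 1)) z := an_dL (han γ a z hzΩ).fderiv _
        filter_upwards [hQ, han₁.continuousAt.eventually_ne hI] with z' g1 g2 ξ i j hij hi hj
        refine hrel γ a z' g1 ?_ ξ i j hij hi hj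
        by_contra hcon
        exact g2 (dL_not_surj hcon _))
      (by
        filter_upwards [hQ] with z' g1 k w' v' hv'
        exact vtf_snoc θ (hu k) γ a (hVΩ a g1) (fun v i => thF_apply D hc γ a z' v i) w' hv')
    refine ⟨G, ⟨D.at_sheet hG γ hzΩ, by rw [hez]; exact han γ a z hzΩ, Fc_rep hG D F γ hzΩ, ?_, ?_,
      ?_, by rw [hez]; exact hG1, by rw [hez]; exact hG3⟩, hG2⟩
    · filter_upwards [hnear γ a z hz] with y' g1 k
      have := hΦe γ a _ g1.1 k
      rwa [g1.2.1] at this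
    · rw [hez]
      filter_upwards [(Ω_open a).mem_nhds hzΩ] with z' g1 k
      exact ((hu k).smooth γ a z' g1).of_le (by norm_cast)
    · exact Eventually.of_forall fun z' k => hur k γ a z'
  refine potE (Φ := Φ) (J := cj) (ρ := π) hG hHol hc hcon hregt hJ hcji
    (fun k g x => (hcjπ k g x).symm) hΦeq hrelE hform fun y hy => ?_
  obtain ⟨G, hLD, hG2⟩ := hloc (γs y) (as y) (zs y) (hzs y) (by rw [hys]; exact hy)
  have hys' := hys y
  have hez : D.e (as y) (p (γs y • D.σ (as y) (zs y))) = zs y :=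
    D.e_proj hG (γs y) (hVΩ _ (hzs y))
  have hn := hnear (γs y) (as y) (zs y) (hzs y)
  rw [hys'] at hLD hez hn
  refine ⟨_, _, _, G, hLD, ?_⟩
  have hev1 : ∀ᶠ y' in 𝓝 y, IsW (fderiv ℂ (Fc D F (γs y) (as y)) (D.e (as y) (p y')))
      (s (γs y) (as y) (D.e (as y) (p y'))) (fderiv ℂ G (D.e (as y) (p y'))) := by
    refine (ev_iff hp hLD.mem (Q := fun z => IsW (fderiv ℂ (Fc D F (γs y) (as y)) z)
      (s (γs y) (as y) z) (fderiv ℂ G z))).2 ?_
    rw [hez]
    exact hG2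
  filter_upwards [hev1, hn] with y' g1 g2
  have h5 := SE_eq hG D hcf (γs y) g2.1 (e := D.e (as y)) (by
    rw [g2.2.1]
    exact ⟨D.mem _, g2.2.2⟩)
  rw [g2.2.1] at h5
  have h6 : fderiv ℂ (fun z => D.e (as y) ((D.e (as y)).symm z)) (D.e (as y) (p y')) =
      ContinuousLinearMap.id ℂ (Cm n) := by
    have h7 : (fun z => D.e (as y) ((D.e (as y)).symm z)) =ᶠ[𝓝 (D.e (as y) (p y'))] id := by
      filter_upwards [(D.e (as y)).open_target.mem_nhds ((D.e (as y)).map_source g2.2.2)] with z hz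
      exact (D.e (as y)).right_inv hz
    rw [h7.fderiv_eq, fderiv_id]
  rw [h5, h6]
  exact g1

end Vale.Agent.P284.H619.Pot
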