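import Vale.Agent.P284.H619.NS0B
import Vale.Agent.P272.K.Inv.Chart

/-!
# P284 (helper619), module NS0: change of charts, identity theorem
-/

open scoped Manifold ContDiff Topology InnerProductSpace
open Filter Set Metric

noncomputable section

namespace Vale.Agent.P284.H619

open Vale.Agent.P272.K Vale.Agent.P284.H573 Vale.Agent.P284.H894.G

section
variable {n r : ℕ} {X : Type} [TopologicalSpace X] [ChartedSpace (Cm n) X]
  {E : Type} [TopologicalSpace E] {p : E → X}
  {W : Type} [NormedAddCommGroup W] [InnerProductSpace ℂ W] [CompleteSpace W]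
  {Θ : E → Chart n X → (Cm n →L[ℂ] W)}
  {H : Type} [NormedAddCommGroup H] [InnerProductSpace ℂ H] [CompleteSpace H] (S : TH H)
  (J : W →ₗᵢ[ℂ] H)

omit [CompleteSpace W] [CompleteSpace H] in
lemma rk_J {A : Cm n →L[ℂ] W} : Module.finrank ℂ
    (LinearMap.range ((J.toContinuousLinearMap.comp A : Cm n →L[ℂ] H) : Cm n →ₗ[ℂ] H)) =
    Module.finrank ℂ (LinearMap.range (A : Cm n →ₗ[ℂ] W)) := by
  have h : LinearMap.range ((J.toContinuousLinearMap.comp A : Cm n →L[ℂ] H) : Cm n →ₗ[ℂ] H) =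
      (LinearMap.range (A : Cm n →ₗ[ℂ] W)).map J.toLinearMap := by
    rw [← LinearMap.range_comp]
    rfl
  rw [h]
  exact (LinearEquiv.finrank_eq (Submodule.equivMapOfInjective J.toLinearMap J.injective _)).symm

lemma vf_change [IsManifold 𝓘(ℂ, Cm n) ω X] (hp : IsCoveringMap p) (hΘ : CForm n p W Θ)
    (hR : ∀ y e, At e (p y) → rk Θ y e ≤ r + 1) (k : ℕ) (y : E) (e e' : Chart n X)
    (he : At e (p y)) (he' : At e' (p y)) (ξ : Fin (r + 1) → Cm n) :
    vf S J p Θ k y e ξ =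
      vf S J p Θ k y e' (fun i => fderiv ℂ (fun z => e' (e.symm z)) (e (p y)) (ξ i)) := by
  have hφ0 : e' (e.symm (e (p y))) = e' (p y) := by rw [e.left_inv he.2]
  have hφ : AnalyticAt ℂ (fun z => e' (e.symm z)) (e (p y)) :=
    (transition he he').analyticAt
  rw [vf_eq S J he, vf_eq S J he']
  have h := G_change S (r := r) (F₁ := prH J p Θ y e) (F₂ := prH J p Θ y e')
    (φ := fun z => e' (e.symm z)) (z₀ := e (p y)) (prH_an J hΘ he) hφ
    (by rw [hφ0]; exact prH_an J hΘ he') (by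
      rw [hφ0, ← map_ep hp he, ← map_ep hp he', map_map]
      refine Filter.map_congr ?_
      filter_upwards [at_ev hp he] with y' h1
      show e' (e.symm (e (p y'))) = e' (p y')
      rw [e.left_inv h1.2]) (by
      rw [← ev_iff hp he]
      filter_upwards [lo_ev J hp hΘ he, lo_ev J hp hΘ he', at_ev hp he, at_ev hp he'] with
        y' h1 h2 h3 h4
      have h5 : e' (e.symm (e (p y'))) = e' (p y') := by rw [e.left_inv h3.2]
      rw [h5]
      show lo J p Θ y e (e (p y')) = (lo J p Θ y e' (e' (p y'))).comp _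
      rw [← h1, ← h2, hΘ.change y' e e' h3 h4]
      rfl) (by
      rw [hφ0, ← ev_iff hp he']
      filter_upwards [lo_ev J hp hΘ he', at_ev hp he'] with y' h2 h4
      have h6 : fderiv ℂ (prH J p Θ y e') (e' (p y')) = J.toContinuousLinearMap.comp (Θ y' e') :=
        h2.symm
      rw [h6, rk_J]
      exact hR y' e' h4) k ξ
  rw [hφ0] at h
  exact h

/-- the `HForm` -/
lemma vf_hform [IsManifold 𝓘(ℂ, Cm n) ω X] {Γ : Type} [Group Γ] [MulAction Γ E]
    (hG : IsGalois Γ p) (hΘ : CForm n p W Θ) {π : Γ →* (W ≃ₗᵢ[ℂ] W)} (hπ : Equi p π Θ)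
    (hR : ∀ y e, At e (p y) → rk Θ y e ≤ r + 1) (k : ℕ) :
    HForm n (r + 1) (mu k) p H (vf S J p Θ k) where
  hol := vf_hol S J hG.cov hΘ k
  change := vf_change S J hG.cov hΘ hR k
  det := fun y e he A ξ => vf_det S J k y e he A ξ
  inv := vf_inv S J hG hΘ hπ k

/-- `c` depends on the image of `Θ y` (or the rank is not maximal) -/
def Bad (p : E → X) (Θ : E → Chart n X → (Cm n →L[ℂ] W)) (r : ℕ) (c : W) (y : E) : Prop :=
  ∀ e, At e (p y) → ∀ ξ : Fin (r + 1) → Cm n,
    S.vw (r + 2) (Fin.cons (J c) (fun i => J (Θ y e (ξ i)))) = 0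

omit [CompleteSpace W] [CompleteSpace H] in
lemma bad_of (hΘ : CForm n p W Θ) {c : W} {y : E} {e : Chart n X} (he : At e (p y))
    (h : ∀ ξ : Fin (r + 1) → Cm n,
      S.vw (r + 2) (Fin.cons (J c) (fun i => J (Θ y e (ξ i)))) = 0) : Bad S J p Θ r c y := by
  intro e' he' ξ
  rw [hΘ.change y e' e he' he]
  exact h fun i => fderiv ℂ (fun z => e (e'.symm z)) (e' (p y)) (ξ i)

/-- **identity theorem** -/
lemma bad_all [PreconnectedSpace E] (hp : IsCoveringMap p) (hΘ : CForm n p W Θ) {c : W} {y₀ : E}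
    (h0 : ∀ᶠ y in 𝓝 y₀, Bad S J p Θ r c y) : ∀ y, Bad S J p Θ r c y := by
  set Q : Set E := {y | ∀ᶠ y' in 𝓝 y, Bad S J p Θ r c y'} with hQ
  have hQo : IsOpen Q := isOpen_iff_mem_nhds.2 fun y hy => hy.eventually_nhds
  have hQc : IsClosed Q := by
    rw [← closure_subset_iff_isClosed]
    intro y₁ hy₁
    set e := chartAt (Cm n) (p y₁) with he_def
    have he : At e (p y₁) := ⟨chart_mem_atlas _ _, mem_chart_source _ _⟩
    -- a good ball
    obtain ⟨ε, hε, hball⟩ := Metric.eventually_nhds_iff_ball.1 (lo_an J hΘ he).eventually_analyticAt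
    set B := ball (e (p y₁)) ε with hB
    have hBc : IsPreconnected B := (convex_ball _ _).isPreconnected
    set f : (Fin (r + 1) → Cm n) → Cm n → H := fun ξ z =>
      S.vw (r + 2) (Fin.cons (J c) (fun i => lo J p Θ y₁ e z (ξ i))) with hf
    have hfan : ∀ ξ, AnalyticOnNhd ℂ (f ξ) B := by
      intro ξ z hz
      have h1 := an_wdg S (V := H) (R := r + 2) (E := Cm n)
        (fun _ _ => ContinuousLinearMap.id ℂ H)
        (fun z => (Fin.cons (J c) (fun i => lo J p Θ y₁ e z (ξ i)) : Fin (r + 2) → H)) (x := z)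
        (fun _ => analyticAt_const) (by
          rw [analyticAt_pi_iff]
          intro i
          refine Fin.cases ?_ (fun i => ?_) i
          · exact analyticAt_const
          · exact an_apply (hball z hz) analyticAt_const)
      exact h1
    have hU : ∀ᶠ y' in 𝓝 y₁, e (p y') ∈ B ∧ At e (p y') ∧
        J.toContinuousLinearMap.comp (Θ y' e) = lo J p Θ y₁ e (e (p y')) :=
      ((tendsto_ep hp he).eventually (ball_mem_nhds _ hε)).and
        ((at_ev hp he).and (lo_ev J hp hΘ he))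
    obtain ⟨y₂, hy₂, hy₂Q⟩ := (mem_closure_iff_frequently.1 hy₁).and_eventually
      hU.eventually_nhds |>.exists
    have hz : ∀ ξ, f ξ =ᶠ[𝓝 (e (p y₂))] 0 := by
      intro ξ
      rw [Filter.EventuallyEq, ← ev_iff hp hy₂Q.self_of_nhds.2.1]
      filter_upwards [hy₂, hy₂Q] with y' h1 h2
      have h3 := h1 e h2.2.1 ξ
      have h4 : ∀ v, lo J p Θ y₁ e (e (p y')) v = J (Θ y' e v) := fun v => by
        rw [← h2.2.2]; rfl
      simp only [hf, h4]
      exact h3
    have hall : ∀ ξ, EqOn (f ξ) 0 B := fun ξ =>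
      (hfan ξ).eqOn_zero_of_preconnected_of_eventuallyEq_zero hBc hy₂Q.self_of_nhds.1 (hz ξ)
    show ∀ᶠ y' in 𝓝 y₁, Bad S J p Θ r c y'
    filter_upwards [hU] with y' h2
    refine bad_of S J hΘ h2.2.1 fun ξ => ?_
    have h4 : ∀ v, lo J p Θ y₁ e (e (p y')) v = J (Θ y' e v) := fun v => by
      rw [← h2.2.2]; rfl
    have h5 := hall ξ h2.1
    simp only [hf, h4] at h5
    exact h5
  have hQu : Q = univ := IsClopen.eq_univ ⟨hQc, hQo⟩ ⟨y₀, h0⟩
  intro y
  have : y ∈ Q := hQu ▸ mem_univ y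
  exact this.self_of_nhds

omit [TopologicalSpace E] [CompleteSpace W] [CompleteSpace H] in
lemma bad_mem (hR : ∀ y e, At e (p y) → rk Θ y e ≤ r + 1) {c : W}
    (h : ∀ y, Bad S J p Θ r c y) (y : E) (e : Chart n X) (he : At e (p y))
    (hrk : rk Θ y e = r + 1) : ∃ ξ, Θ y e ξ = c := by
  have h1 := (S.mem_range_iff (R := r + 1)
    ((J.toContinuousLinearMap.comp (Θ y e) : Cm n →L[ℂ] H) : Cm n →ₗ[ℂ] H) (J c)
    (by rw [rk_J]; exact hR y e he)).1 (h y e he) (by rw [rk_J]; exact hrk)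
  obtain ⟨v, hv⟩ := h1
  exact ⟨v, J.injective hv⟩

end

end Vale.Agent.P284.H619
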