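import Vale.Agent.P284.H619.Fib2
import Vale.Agent.P284.H619.NS0C

/-!
# P284 (helper619), module NUL: identity theorem along the fibre
-/

open scoped Manifold ContDiff Topology InnerProductSpace ComplexConjugate
open Filter Set Metric

noncomputable section

namespace Vale.Agent.P284.H619

open Vale.Agent.P272.K Vale.Agent.P284.H894.G Vale.Agent.P284.H894.V Vale.Agent.P284.H894.W
  Vale.Agent.P284.H213.Grp

section
variable {n q : ℕ} {X : Type} [TopologicalSpace X] [ChartedSpace (Cm n) X]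
  {E : Type} [TopologicalSpace E] {p : E → X} {F : E → Cm q}

lemma VS_change [IsManifold 𝓘(ℂ, Cm n) ω X] (hp : IsCoveringMap p) (hF : HolE n p F) {y : E}
    {e e' : Chart n X} (he : At e (p y)) (he' : At e' (p y)) {ξ : Cm n} (hξ : ξ ∈ VS p F y e') :
    fderiv ℂ (fun z => e (e'.symm z)) (e' (p y)) ξ ∈ VS p F y e := by
  obtain ⟨f, hf, hfan⟩ := hF y e he
  rw [mem_VS hp he hf]
  have h1 : ∀ᶠ y' in 𝓝 y, F y' = f (e (e'.symm (e' (p y')))) := by
    filter_upwards [hf, at_ev hp he'] with y' h2 h3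
    rw [e'.left_inv h3.2, h2]
  have h2 := hξ (fun z => f (e (e'.symm z))) h1
  have h3 : e (e'.symm (e' (p y))) = e (p y) := by rw [e'.left_inv he'.2]
  have h4 : HasFDerivAt (fun z => f (e (e'.symm z)))
      ((fderiv ℂ f (e (p y))).comp (fderiv ℂ (fun z => e (e'.symm z)) (e' (p y)))) (e' (p y)) := by
    refine HasFDerivAt.comp (e' (p y)) (g := f) (f := fun z => e (e'.symm z)) ?_
      (transition_differentiableAt he' he).hasFDerivAt
    rw [h3]
    exact hfan.differentiableAt.hasFDerivAt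
  rw [h4.fderiv] at h2
  exact h2

lemma Par.shrink (hp : IsCoveringMap p) {t : Cm q} {y₁ : E} {e : Chart n X} {f : Cm n → Cm q}
    {ψ φ : Cm n → Cm n} {ε ε' : ℝ} (h : Par p F t y₁ e f ψ φ ε) (h0 : 0 < ε') (hle : ε' ≤ ε) :
    Par p F t y₁ e f ψ φ ε' := by
  have hb : ball (0 : Cm n) ε' ⊆ ball 0 ε := ball_subset_ball hle
  refine ⟨h.mem, h0, h.fan, h.fev, h.an.mono hb, h.φan, h.ψ0, h.φ0, fun u hu => h.fψ u (hb hu),
    fun u hu => h.vert u (hb hu), ?_⟩
  have hφc : Tendsto (fun y => φ (e (p y))) (𝓝 y₁) (𝓝 0) := by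
    have := h.φan.continuousAt.tendsto.comp (tendsto_ep hp h.mem)
    rwa [h.φ0] at this
  filter_upwards [h.near, hφc.eventually (ball_mem_nhds 0 h0)] with y g1 g2 g3
  exact ⟨g2, (g1 g3).2⟩

variable {t : Cm q} {W : Type} [NormedAddCommGroup W] [InnerProductSpace ℂ W]
  {Θ : E → Chart n X → (Cm n →L[ℂ] W)} {u : E → W}
  {H : Type} [NormedAddCommGroup H] [InnerProductSpace ℂ H] [CompleteSpace H] (S : TH H)
  (J : W →ₗᵢ[ℂ] H)

/-- `c` depends on the image of the vertical vectors under `Θ y`, or the rank is not maximal -/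
def VBad (p : E → X) (F : E → Cm q) (Θ : E → Chart n X → (Cm n →L[ℂ] W)) (r : ℕ) (c : W) (y : E) :
    Prop :=
  ∀ e, At e (p y) → ∀ ξ : Fin r → Cm n, (∀ i, ξ i ∈ VS p F y e) →
    S.vw (r + 1) (Fin.cons (J c) (fun i => J (Θ y e (ξ i)))) = 0

omit [CompleteSpace H] in
lemma vbad_of [IsManifold 𝓘(ℂ, Cm n) ω X] (hp : IsCoveringMap p) (hF : HolE n p F)
    (hΘ : VPot p F t W Θ u) {r : ℕ} {c : W} {y : E} (hy : F y = t) {e : Chart n X}
    (he : At e (p y)) (h : ∀ ξ : Fin r → Cm n, (∀ i, ξ i ∈ VS p F y e) →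
      S.vw (r + 1) (Fin.cons (J c) (fun i => J (Θ y e (ξ i)))) = 0) : VBad S J p F Θ r c y := by
  intro e' he' ξ hξ
  have h1 := h (fun i => fderiv ℂ (fun z => e (e'.symm z)) (e' (p y)) (ξ i))
    fun i => VS_change hp hF he he' (hξ i)
  have h2 : (fun i => J (Θ y e' (ξ i))) =
      fun i => J (Θ y e (fderiv ℂ (fun z => e (e'.symm z)) (e' (p y)) (ξ i))) := by
    funext i
    rw [hΘ.change y e' e hy he' he (ξ i) (hξ i)]
  rw [h2]
  exact h1

omit [CompleteSpace H] in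
/-- **identity theorem along the fibre** -/
theorem vbad_all [CompleteSpace W] [IsManifold 𝓘(ℂ, Cm n) ω X] (hp : IsCoveringMap p) (hF : HolE n p F)
    (hc : IsPreconnected (F ⁻¹' {t})) (hreg : ∀ y, F y = t → Reg (n := n) p F y)
    (hΘ : VPot p F t W Θ u) {r : ℕ} {c : W} {y₀ : E} (hy₀ : F y₀ = t)
    (h0 : ∀ᶠ y in 𝓝 y₀, F y = t → VBad S J p F Θ r c y) :
    ∀ y, F y = t → VBad S J p F Θ r c y := by
  have key := fib_ind (F := F) (t := t) hc
    (P := fun y => ∀ᶠ y' in 𝓝 y, F y' = t → VBad S J p F Θ r c y') ?_ hy₀ h0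
  · intro y hy
    exact (key y hy).self_of_nhds hy
  intro y₁ hy₁
  by_cases hP : ∀ᶠ y' in 𝓝 y₁, F y' = t → VBad S J p F Θ r c y'
  · filter_upwards [hP.eventually_nhds] with y hy _
    exact ⟨fun _ => hy, fun _ => hP⟩
  set e := chartAt (Cm n) (p y₁) with he_def
  have he : At e (p y₁) := ⟨chart_mem_atlas _ _, mem_chart_source _ _⟩
  obtain ⟨f, ψ, φ, ε₀, hpar₀⟩ := exists_Par hp hF hy₁ he (hreg y₁ hy₁)
  obtain ⟨A, hA, hAev⟩ := hΘ.hol y₁ e hy₁ he
  -- a smaller ball on which `A ∘ ψ` is analytic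
  obtain ⟨ε, hε, hle, hAψ⟩ : ∃ ε > 0, ε ≤ ε₀ ∧ ∀ u ∈ ball (0 : Cm n) ε, AnalyticAt ℂ A (ψ u) := by
    have hc1 : Tendsto ψ (𝓝 0) (𝓝 (e (p y₁))) := by
      have := (hpar₀.an 0 (mem_ball_self hpar₀.pos)).continuousAt.tendsto
      rwa [hpar₀.ψ0] at this
    obtain ⟨ε, hε, hb⟩ := Metric.eventually_nhds_iff_ball.1
      (hc1.eventually hA.eventually_analyticAt)
    exact ⟨min ε ε₀, lt_min hε hpar₀.pos, min_le_right _ _,
      fun u hu => hb u (ball_subset_ball (min_le_left _ _) hu)⟩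
  have hpar := hpar₀.shrink hp hε hle
  set a : (Fin r → Cm n) → Cm n → H := fun η u =>
    S.vw (r + 1) (Fin.cons (J c) (fun i => J (A (ψ u) (fderiv ℂ ψ u (η i))))) with ha
  have haan : ∀ η, AnalyticOnNhd ℂ (a η) (ball 0 ε) := by
    intro η v hv
    have h1 := an_wdg S (V := H) (R := r + 1) (E := Cm n)
      (fun _ _ => ContinuousLinearMap.id ℂ H)
      (fun u => (Fin.cons (J c) (fun i => J (A (ψ u) (fderiv ℂ ψ u (η i)))) : Fin (r + 1) → H))
      (x := v) (fun _ => analyticAt_const) (by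
        rw [analyticAt_pi_iff]
        intro i
        refine Fin.cases ?_ (fun i => ?_) i
        · exact analyticAt_const
        · have k1 : AnalyticAt ℂ (fun u => A (ψ u)) v :=
            AnalyticAt.fun_comp (hAψ v hv) (hpar.an v hv)
          have k2 : AnalyticAt ℂ (fun u => fderiv ℂ ψ u (η i)) v :=
            an_apply (hpar.an v hv).fderiv analyticAt_const
          exact (J.toContinuousLinearMap.analyticAt _).comp (an_apply k1 k2))
    exact h1
  filter_upwards [hpar.near, hpar.germ hp, hAev.eventually_nhds, at_ev hp he,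
    hpar.fev.eventually_nhds, (at_ev hp he).eventually_nhds] with y g1 g2 g3 g4 g5 g6 hy
  refine ⟨fun h => absurd h hP, fun hy' => absurd ?_ hP⟩
  obtain ⟨k1, k2, -⟩ := g1 hy
  -- the germ at `y`
  have hQ : ∀ᶠ y' in 𝓝 y, F y' = t → ∀ ξ : Fin r → Cm n,
      (∀ i, fderiv ℂ f (e (p y')) (ξ i) = 0) →
      S.vw (r + 1) (Fin.cons (J c) (fun i => J (A (e (p y')) (ξ i)))) = 0 := by
    filter_upwards [hy', g3, g5.eventually_nhds, g6] with y' m1 m2 m3 m4 m5 ξ hξ
    have hV : ∀ i, ξ i ∈ VS p F y' e := fun i => (mem_VS hp m4 m3).2 (hξ i)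
    have h1 := m1 m5 e m4 ξ hV
    have h2 : (fun i => J (Θ y' e (ξ i))) = fun i => J (A (e (p y')) (ξ i)) := by
      funext i
      rw [m2 m5 (ξ i) (hV i)]
    rw [h2] at h1
    exact h1
  have hQ2 := g2 hy (fun z => ∀ ξ : Fin r → Cm n, (∀ i, fderiv ℂ f z (ξ i) = 0) →
      S.vw (r + 1) (Fin.cons (J c) (fun i => J (A z (ξ i)))) = 0) hQ
  have hzero : ∀ η, EqOn (a η) 0 (ball 0 ε) := by
    intro η
    refine (haan η).eqOn_zero_of_preconnected_of_eventuallyEq_zero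
      (convex_ball _ _).isPreconnected k1 ?_
    filter_upwards [hQ2, isOpen_ball.mem_nhds k1] with v m1 m2
    exact m1 (fun i => fderiv ℂ ψ v (η i)) fun i => hpar.vert v m2 (η i)
  filter_upwards [hpar.near, hAev, at_ev hp he] with y' m1 m2 m3 m4
  obtain ⟨l1, l2, l3⟩ := m1 m4
  refine vbad_of S J hp hF hΘ m4 m3 fun ξ hξ => ?_
  have h1 := hzero (fun i => fderiv ℂ φ (e (p y')) (ξ i)) l1
  have h2 : (fun i => J (Θ y' e (ξ i))) = fun i => J (A (ψ (φ (e (p y'))))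
      (fderiv ℂ ψ (φ (e (p y'))) (fderiv ℂ φ (e (p y')) (ξ i)))) := by
    funext i
    rw [m2 m4 (ξ i) (hξ i), l2, l3 (ξ i) (hξ i)]
  rw [h2]
  exact h1

end

end Vale.Agent.P284.H619
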