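import Vale.Agent.P284.H619.Core0S
import Vale.Agent.P284.H619.NulP
import Vale.Agent.P284.H619.NS0F
import Vale.Agent.P284.H174.Rank

/-!
# P284 (helper619): the core for `q = 0`, from the limit
-/

open scoped Manifold ContDiff Topology InnerProductSpace ComplexConjugate
open Filter Set Metric

noncomputable section

namespace Vale.Agent.P284.H619

open Vale.Agent.P272.K Vale.Agent.P284.H248 Vale.Agent.P284.H894.G Vale.Agent.P284.H894.V
  Vale.Agent.P284.H894.W Vale.Agent.P284.H213.Grp Vale.Agent.P284.H573 Vale.Agent.P284.H174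

/-- **Core for `q = 0`**, from the limit. -/
theorem core0_of (hL : Lim0Stmt) : Core0Stmt := by
  intro n X _ _ _ _ _ _ w hw E Γ _ _ _ _ p hG hFol c K hN
  have hKinf := hN.inf
  have hinf : Infinite Γ := Infinite.of_injective (fun k : K => (k : Γ)) Subtype.val_injective
  obtain ⟨W, iW1, iW2, iW3, π, Θ, u, hΘ, hπ, hpot, hb, y₀, e₀, he₀, hne⟩ :=
    hL n X w hw E Γ p hG hinf hFol
  have hp := hG.cov
  set F : E → Cm 0 := fun _ => 0 with hF
  have hFE : HolE n p F := fun y e _ => ⟨fun _ => 0, Eventually.of_forall fun _ => rfl,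
    analyticAt_const⟩
  have hVS : ∀ (y : E) (e : Chart n X), VS p F y e = ⊤ := by
    intro y e
    rw [eq_top_iff]
    intro ξ _ f _
    exact Subsingleton.elim _ _
  have hfib : F ⁻¹' {0} = univ := by
    ext y
    simp [hF]
  -- maximal rank
  obtain ⟨r, hr, y₁, e₁, -, he₁, hrk⟩ := exists_max (p := p) (F := F) (Θ := Θ) (t := 0)
    (y₀ := y₀) rfl
  have hvrk : ∀ (y : E) (e : Chart n X), vrk p F Θ y e = rk Θ y e := by
    intro y e
    unfold vrk rk imV
    rw [hVS, Submodule.map_top]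
  have hr1 : 1 ≤ r := by
    have h1 := hr y₀ e₀ rfl he₀
    rw [hvrk] at h1
    refine le_trans ?_ h1
    by_contra hcon
    have h2 : rk Θ y₀ e₀ = 0 := by omega
    have h3 : LinearMap.range (Θ y₀ e₀ : Cm n →ₗ[ℂ] W) = ⊥ := Submodule.finrank_eq_zero.1 h2
    apply hne
    ext ξ
    have h4 : Θ y₀ e₀ ξ ∈ LinearMap.range (Θ y₀ e₀ : Cm n →ₗ[ℂ] W) := ⟨ξ, rfl⟩
    rw [h3, Submodule.mem_bot] at h4
    exact h4
  obtain ⟨s, rfl⟩ : ∃ s, r = s + 1 := ⟨r - 1, by omega⟩
  -- the fibre data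
  have hV : VPot p F 0 W Θ u := by
    refine ⟨fun y e _ he => ?_, fun y e e' _ he he' ξ _ => ?_, fun y e _ he d => ?_⟩
    · obtain ⟨f, hf, hev⟩ := hΘ.loc y e he
      refine ⟨fun z => fderiv ℂ f z, hf.fderiv, ?_⟩
      filter_upwards [hev] with y' h1 _ ξ _
      rw [h1]
    · rw [hΘ.change y e e' he he']
      rfl
    · obtain ⟨g, h, hg, hh, hev⟩ := hpot y e he d
      refine ⟨g, h, hg, hh, ?_⟩
      filter_upwards [hev] with y' h1 _
      exact ⟨h1.1, fun ξ _ => h1.2 ξ⟩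
  have hE : VEqui p F 0 K π Θ u := by
    refine ⟨fun k _ y e _ he ξ _ => ?_, fun k _ => ?_⟩
    · rw [hπ k y e he]
      rfl
    · obtain ⟨b, hb⟩ := hb k
      exact ⟨b, fun y _ => hb y⟩
  have hnul := fun (v : W) => nulStmt n 0 X E Γ p hG hFol F c K hFE
    (fun g y => Subsingleton.elim _ _) hN 0 (by rw [hfib]; exact isConnected_univ)
    (fun y _ e f _ _ => fun t => ⟨0, Subsingleton.elim _ _⟩) W π Θ u hV hE y₁ rfl v
  -- natural sections
  have hNS := ns0Stmt n s X E Γ p hG W π Θ hΘ hπ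
    (fun y e he => by rw [← hvrk]; exact hr y e rfl he)
    (fun d hd => by
      refine hnul d ?_
      have hrk1 : s + 1 ≤ rk Θ y₁ e₁ := by rw [← hvrk, hrk]
      filter_upwards [rk_semi hp hΘ he₁ hrk1, at_ev hp he₁] with y h1 h2 _
      have h3 : rk Θ y e₁ = s + 1 := le_antisymm (by rw [← hvrk]; exact hr y e₁ rfl h2) h1
      obtain ⟨ξ, hξ⟩ := hd y e₁ h2 h3
      exact ⟨e₁, h2, ξ, by rw [hVS]; trivial, hξ⟩)
    y₁ e₁ he₁ (by rw [← hvrk, hrk])
  obtain ⟨m, hm, H, iH1, iH2, iH3, v, hv, hgood⟩ := hNS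
  exact ⟨s + 1, m, by omega, hm, H, iH1, iH2, iH3, v, y₁, hv, hgood⟩

end Vale.Agent.P284.H619
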