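import Vale.Agent.P284.H619.Par
import Vale.Agent.P284.H619.NS0A
import Vale.Agent.P284.H894.W.Spec

/-!
# P284 (helper619), module NUL: germs along a regular fibre of `F : E → ℂ^q`
-/

open scoped Manifold ContDiff Topology InnerProductSpace
open Filter Set Metric

noncomputable section

namespace Vale.Agent.P284.H619

open Vale.Agent.P272.K Vale.Agent.P284.H894.G Vale.Agent.P284.H894.W

section
variable {n q : ℕ} {X : Type} [TopologicalSpace X] [ChartedSpace (Cm n) X]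
  {E : Type} [TopologicalSpace E] {p : E → X} {F : E → Cm q}

/-- `F : E → ℂ^q` is analytic in the charts of `X`. -/
def HolE (n : ℕ) {X E : Type} [TopologicalSpace X] [ChartedSpace (Cm n) X] [TopologicalSpace E]
    (p : E → X) {q : ℕ} (F : E → Cm q) : Prop :=
  ∀ (y : E) (e : Chart n X), At e (p y) → ∃ f : Cm n → Cm q,
    (∀ᶠ y' in 𝓝 y, F y' = f (e (p y'))) ∧ AnalyticAt ℂ f (e (p y))

/-- the vertical vectors at `y`, in the coordinates of the chart `e` -/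
def VS (p : E → X) (F : E → Cm q) (y : E) (e : Chart n X) : Submodule ℂ (Cm n) where
  carrier := {ξ | ∀ f : Cm n → Cm q, (∀ᶠ y' in 𝓝 y, F y' = f (e (p y'))) →
    fderiv ℂ f (e (p y)) ξ = 0}
  add_mem' := fun {ξ η} h1 h2 f hf => by rw [map_add, h1 f hf, h2 f hf, add_zero]
  zero_mem' := fun f _ => map_zero _
  smul_mem' := fun a ξ h1 f hf => by rw [map_smul, h1 f hf, smul_zero]

lemma mem_VS (hp : IsCoveringMap p) {y : E} {e : Chart n X} (he : At e (p y)) {f : Cm n → Cm q}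
    (hf : ∀ᶠ y' in 𝓝 y, F y' = f (e (p y'))) {ξ : Cm n} :
    ξ ∈ VS p F y e ↔ fderiv ℂ f (e (p y)) ξ = 0 := by
  constructor
  · intro h
    exact h f hf
  · intro h f' hf'
    have h1 : f' =ᶠ[𝓝 (e (p y))] f := by
      rw [Filter.EventuallyEq, ← ev_iff hp he]
      filter_upwards [hf, hf'] with y' h1 h2
      rw [← h1, ← h2]
    rw [h1.fderiv_eq, h]

/-- Germs along the fibre through the regular point `y₁`. -/
theorem exists_fib (hp : IsCoveringMap p) (hF : HolE n p F) {y₁ : E} {e : Chart n X}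
    (he : At e (p y₁)) (hreg : Reg (n := n) p F y₁) :
    ∃ (f : Cm n → Cm q) (ψ φ : Cm n → Cm n), (∀ᶠ y' in 𝓝 y₁, F y' = f (e (p y'))) ∧
      AnalyticAt ℂ f (e (p y₁)) ∧ AnalyticAt ℂ ψ 0 ∧ AnalyticAt ℂ φ (e (p y₁)) ∧
      ψ 0 = e (p y₁) ∧ φ (e (p y₁)) = 0 ∧ (∀ᶠ u in 𝓝 0, f (ψ u) = F y₁) ∧
      ∀ᶠ y in 𝓝 y₁, F y = F y₁ → ψ (φ (e (p y))) = e (p y) ∧ ∀ ξ ∈ VS p F y e,
        fderiv ℂ ψ (φ (e (p y))) (fderiv ℂ φ (e (p y)) ξ) = ξ := by
  obtain ⟨f, hf, hfan⟩ := hF y₁ e he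
  obtain ⟨ψ, φ, h1, h2, h3, h4, h5, h6⟩ := exists_par hfan (hreg e f he hf)
  have hf0 : F y₁ = f (e (p y₁)) := hf.self_of_nhds
  refine ⟨f, ψ, φ, hf, hfan, h1, h2, h3, h4, by rwa [hf0], ?_⟩
  rw [← ev_iff hp he] at h6
  filter_upwards [h6, hf, hf.eventually_nhds, at_ev hp he] with y g1 g2 g3 g4 g5
  obtain ⟨k1, k2⟩ := g1 (by rw [← g2, ← hf0, g5])
  exact ⟨k1, fun ξ hξ => k2 ξ (hξ f g3)⟩

end

end Vale.Agent.P284.H619
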