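import Vale.Agent.P284.H619.Nat2

/-!
# P284 (helper619): the kernels `⟪G k z ξ, G k w ξ'⟫` only depend on the kernel of `Θ`
-/

open scoped InnerProductSpace ENNReal ComplexConjugate Topology
open Filter

noncomputable section

namespace Vale.Agent.P284.H619

variable {H : Type*} [NormedAddCommGroup H] [InnerProductSpace ℂ H] (S : TH H)

lemma TH.inner_u'u : ⟪S.u', S.u⟫_ℂ = 0 := by
  rw [← inner_conj_symm, S.inner_uu', map_zero]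

lemma TH.inner_sum (a b a' b' : H) : ⟪S.T S.u a + S.T S.u' b, S.T S.u a' + S.T S.u' b'⟫_ℂ =
    ⟪a, a'⟫_ℂ + ⟪b, b'⟫_ℂ := by
  simp only [inner_add_left, inner_add_right, S.inner_T, S.inner_uu, S.inner_uu', S.inner_u'u,
    S.inner_u'u', zero_mul, one_mul, add_zero, zero_add]

variable {V : Type*} [NormedAddCommGroup V] [NormedSpace ℂ V] [CompleteSpace H]

omit [CompleteSpace H] in
lemma inner_right_deriv {g g' : V → H} {w : V} {x x' : H} (hg : AnalyticAt ℂ g w)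
    (hg' : AnalyticAt ℂ g' w) (h : ∀ᶠ y in 𝓝 w, ⟪x, g y⟫_ℂ = ⟪x', g' y⟫_ℂ) (η : V) :
    ⟪x, fderiv ℂ g w η⟫_ℂ = ⟪x', fderiv ℂ g' w η⟫_ℂ := by
  have h1 : HasFDerivAt (fun y => ⟪x, g y⟫_ℂ) ((innerSL ℂ x).comp (fderiv ℂ g w)) w :=
    (innerSL ℂ x).hasFDerivAt.comp w hg.differentiableAt.hasFDerivAt
  have h2 : HasFDerivAt (fun y => ⟪x', g' y⟫_ℂ) ((innerSL ℂ x').comp (fderiv ℂ g' w)) w :=
    (innerSL ℂ x').hasFDerivAt.comp w hg'.differentiableAt.hasFDerivAt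
  have h3 := (h1.congr_of_eventuallyEq (h.mono fun y hy => hy.symm)).unique h2
  exact DFunLike.congr_fun h3 η

/-- the kernel of a natural section is determined by the kernel of `Θ` -/
theorem TH.G_iso {r : ℕ} {Θ Θ' : V → V →L[ℂ] H} {U : Set V} (hU : IsOpen U)
    (hΘ : ∀ z ∈ U, AnalyticAt ℂ Θ z) (hΘ' : ∀ z ∈ U, AnalyticAt ℂ Θ' z)
    (h : ∀ z ∈ U, ∀ w ∈ U, ∀ η η' : V, ⟪Θ z η, Θ w η'⟫_ℂ = ⟪Θ' z η, Θ' w η'⟫_ℂ) (k : ℕ) :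
    ∀ z ∈ U, ∀ w ∈ U, ∀ ξ ξ' : Fin (r + 1) → V,
      ⟪S.G Θ k z ξ, S.G Θ k w ξ'⟫_ℂ = ⟪S.G Θ' k z ξ, S.G Θ' k w ξ'⟫_ℂ := by
  have hs0 : ∀ z ∈ U, ∀ w ∈ U, ∀ ξ ξ' : Fin (r + 1) → V,
      ⟪S.s0 Θ z ξ, S.s0 Θ w ξ'⟫_ℂ = ⟪S.s0 Θ' z ξ, S.s0 Θ' w ξ'⟫_ℂ := by
    intro z hz w hw ξ ξ'
    unfold TH.s0
    rw [S.inner_wdg, S.inner_wdg]
    refine Finset.sum_congr rfl fun σ _ => Finset.sum_congr rfl fun τ _ => ?_
    congr 2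
    exact Finset.prod_congr rfl fun i _ => h z hz w hw _ _
  induction k with
  | zero => exact hs0
  | succ k ih =>
    have ha : ∀ z ∈ U, ∀ ξ : Fin (r + 1) → V, AnalyticAt ℂ (fun y => S.G Θ k y ξ) z :=
      fun z hz ξ => g_an S (hΘ z hz) k ξ
    have ha' : ∀ z ∈ U, ∀ ξ : Fin (r + 1) → V, AnalyticAt ℂ (fun y => S.G Θ' k y ξ) z :=
      fun z hz ξ => g_an S (hΘ' z hz) k ξ
    have h01 : ∀ z ∈ U, ∀ w ∈ U, ∀ (ξ ξ' : Fin (r + 1) → V) (η : V),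
        ⟪S.G Θ k z ξ, fderiv ℂ (fun y => S.G Θ k y ξ') w η⟫_ℂ =
          ⟪S.G Θ' k z ξ, fderiv ℂ (fun y => S.G Θ' k y ξ') w η⟫_ℂ := fun z hz w hw ξ ξ' η =>
      inner_right_deriv (ha w hw ξ') (ha' w hw ξ')
        (by filter_upwards [hU.mem_nhds hw] with y hy using ih z hz y hy ξ ξ') η
    have h10 : ∀ z ∈ U, ∀ w ∈ U, ∀ (ξ ξ' : Fin (r + 1) → V) (η : V),
        ⟪fderiv ℂ (fun y => S.G Θ k y ξ) z η, S.G Θ k w ξ'⟫_ℂ =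
          ⟪fderiv ℂ (fun y => S.G Θ' k y ξ) z η, S.G Θ' k w ξ'⟫_ℂ := by
      intro z hz w hw ξ ξ' η
      rw [← inner_conj_symm, h01 w hw z hz ξ' ξ η, inner_conj_symm]
    have h11 : ∀ z ∈ U, ∀ w ∈ U, ∀ (ξ ξ' : Fin (r + 1) → V) (η η' : V),
        ⟪fderiv ℂ (fun y => S.G Θ k y ξ) z η, fderiv ℂ (fun y => S.G Θ k y ξ') w η'⟫_ℂ =
          ⟪fderiv ℂ (fun y => S.G Θ' k y ξ) z η, fderiv ℂ (fun y => S.G Θ' k y ξ') w η'⟫_ℂ :=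
      fun z hz w hw ξ ξ' η η' => inner_right_deriv (ha w hw ξ') (ha' w hw ξ')
        (by filter_upwards [hU.mem_nhds hw] with y hy using h10 z hz y hy ξ ξ' η) η'
    have hal : ∀ z ∈ U, ∀ w ∈ U, ∀ (ξ ξ' : Fin (r + 1) → V) (η η' : V),
        ⟪S.al (S.G Θ k) z ξ η, S.al (S.G Θ k) w ξ' η'⟫_ℂ =
          ⟪S.al (S.G Θ' k) z ξ η, S.al (S.G Θ' k) w ξ' η'⟫_ℂ := by
      intro z hz w hw ξ ξ' η η'
      simp only [S.al_apply, inner_sub_left, inner_sub_right, S.inner_T]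
      rw [ih z hz w hw, h01 z hz w hw, h10 z hz w hw, h11 z hz w hw]
    have hdv : ∀ z ∈ U, ∀ w ∈ U, ∀ ξ ξ' : Fin (r + 1) → V,
        ⟪S.dv Θ (S.G Θ k) z ξ, S.dv Θ (S.G Θ k) w ξ'⟫_ℂ =
          ⟪S.dv Θ' (S.G Θ' k) z ξ, S.dv Θ' (S.G Θ' k) w ξ'⟫_ℂ := by
      intro z hz w hw ξ ξ'
      unfold TH.dv
      rw [S.inner_wdg, S.inner_wdg]
      refine Finset.sum_congr rfl fun σ _ => Finset.sum_congr rfl fun τ _ => ?_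
      congr 2
      refine Finset.prod_congr rfl fun i _ => ?_
      refine Fin.cases ?_ (fun i => ?_) i
      · exact hal z hz w hw ξ ξ' _ _
      · exact h z hz w hw _ _
    intro z hz w hw ξ ξ'
    show ⟪S.nx Θ (S.G Θ k) z ξ, S.nx Θ (S.G Θ k) w ξ'⟫_ℂ =
      ⟪S.nx Θ' (S.G Θ' k) z ξ, S.nx Θ' (S.G Θ' k) w ξ'⟫_ℂ
    unfold TH.nx
    rw [S.inner_sum, S.inner_sum, hdv z hz w hw, S.inner_T, S.inner_T, S.inner_T, S.inner_T,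
      ih z hz w hw, hs0 z hz w hw]

/-- isometry invariance of the norm -/
theorem TH.norm_G_iso {r : ℕ} {Θ Θ' : V → V →L[ℂ] H} {z₀ : V} (hΘ : AnalyticAt ℂ Θ z₀)
    (hΘ' : AnalyticAt ℂ Θ' z₀) {J : H → H} (hJ : ∀ x y, ⟪J x, J y⟫_ℂ = ⟪x, y⟫_ℂ)
    (h : ∀ᶠ z in 𝓝 z₀, ∀ η, Θ' z η = J (Θ z η)) (k : ℕ) (ξ : Fin (r + 1) → V) :
    ‖S.G Θ k z₀ ξ‖ = ‖S.G Θ' k z₀ ξ‖ := by
  obtain ⟨U, hUsub, hU, hz₀⟩ := eventually_nhds_iff.1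
    (h.and (hΘ.eventually_analyticAt.and hΘ'.eventually_analyticAt))
  have h1 := S.G_iso (r := r) hU (fun z hz => (hUsub z hz).2.1) (fun z hz => (hUsub z hz).2.2)
    (fun z hz w hw η η' => by
      rw [(hUsub z hz).1, (hUsub w hw).1, hJ]) k z₀ hz₀ z₀ hz₀ ξ ξ
  rw [inner_self_eq_norm_sq_to_K, inner_self_eq_norm_sq_to_K] at h1
  have h2 : ‖S.G Θ k z₀ ξ‖ ^ 2 = ‖S.G Θ' k z₀ ξ‖ ^ 2 := by exact_mod_cast h1
  exact (pow_left_inj₀ (norm_nonneg _) (norm_nonneg _) two_ne_zero).1 h2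

end Vale.Agent.P284.H619
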