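import Vale.Agent.P284.H619.Iso
import Mathlib.Analysis.Calculus.InverseFunctionTheorem.FDeriv
import Mathlib.Analysis.InnerProductSpace.Dual
import Mathlib.Analysis.Calculus.MeanValue

/-!
# P284 (helper619): linear independence and the alternating tensor; local normal form of an exact
form of constant rank
-/

open scoped InnerProductSpace ENNReal ComplexConjugate Topology
open Filter Set

noncomputable section

namespace Vale.Agent.P284.H619

variable {H : Type*} [NormedAddCommGroup H] [InnerProductSpace ℂ H]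

/-- dual family of a linearly independent family -/
lemma exists_dual {m : ℕ} {x : Fin m → H} (hx : LinearIndependent ℂ x) :
    ∃ f : Fin m → H, ∀ i j, ⟪f i, x j⟫_ℂ = if i = j then 1 else 0 := by
  classical
  let V := Submodule.span ℂ (range x)
  have : FiniteDimensional ℂ V := FiniteDimensional.span_of_finite ℂ (finite_range x)
  let b := Module.Basis.span hx
  have hb : ∀ j, (b j : H) = x j := fun j =>
    congrArg Subtype.val (Module.Basis.span_apply hx j)
  refine ⟨fun i => ((InnerProductSpace.toDual ℂ V).symm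
    (LinearMap.toContinuousLinearMap (b.coord i)) : V), fun i j => ?_⟩
  rw [← hb j, ← Submodule.coe_inner, InnerProductSpace.toDual_symm_apply]
  simp [Module.Basis.coord_apply, Finsupp.single_apply, eq_comm]

variable (S : TH H)

lemma TH.inner_tp_wdg {R : ℕ} {V : Type*} [AddCommGroup V] [Module ℂ V]
    (α : Fin R → V →ₗ[ℂ] H) (ξ : Fin R → V) (f : Fin R → H) :
    ⟪S.tp R f, S.wdg α ξ⟫_ℂ = ∑ σ : Equiv.Perm (Fin R),
      ((Equiv.Perm.sign σ : ℤ) : ℂ) * ∏ i, ⟪f i, α i (ξ (σ i))⟫_ℂ := by
  rw [S.wdg_apply, _root_.inner_sum]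
  refine Finset.sum_congr rfl fun σ _ => ?_
  rw [inner_smul_right, S.inner_tp]

/-- the wedge product of vectors -/
def TH.vw (m : ℕ) : H [⋀^Fin m]→ₗ[ℂ] H := S.wdg (fun _ => LinearMap.id)

lemma TH.vw_ne {m : ℕ} {x : Fin m → H} (hx : LinearIndependent ℂ x) : S.vw m x ≠ 0 := by
  classical
  obtain ⟨f, hf⟩ := exists_dual hx
  intro h
  have h1 := S.inner_tp_wdg (fun _ => (LinearMap.id : H →ₗ[ℂ] H)) x f
  have h2 : S.wdg (fun _ => (LinearMap.id : H →ₗ[ℂ] H)) x = 0 := h
  rw [h2, inner_zero_right] at h1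
  have h3 : ∑ σ : Equiv.Perm (Fin m),
      ((Equiv.Perm.sign σ : ℤ) : ℂ) * ∏ i, ⟪f i, (LinearMap.id : H →ₗ[ℂ] H) (x (σ i))⟫_ℂ = 1 := by
    rw [Finset.sum_eq_single 1]
    · simp [hf]
    · intro σ _ hσ
      obtain ⟨i, hi⟩ : ∃ i, σ i ≠ i := by
        by_contra hcon
        push Not at hcon
        exact hσ (Equiv.ext hcon)
      rw [Finset.prod_eq_zero (Finset.mem_univ i), mul_zero]
      rw [LinearMap.id_apply, hf, if_neg (Ne.symm hi)]
    · intro h
      exact absurd (Finset.mem_univ _) h
  rw [h3] at h1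
  exact zero_ne_one h1

lemma TH.vw_eq_zero_iff {m : ℕ} {x : Fin m → H} : S.vw m x = 0 ↔ ¬ LinearIndependent ℂ x :=
  ⟨fun h hx => S.vw_ne hx h, fun h => (S.vw m).map_linearDependent x h⟩

/-- `c` lies in the range of `A`, or the rank of `A` is smaller than `R` -/
lemma TH.mem_range_iff {R : ℕ} {V : Type*} [AddCommGroup V] [Module ℂ V] [FiniteDimensional ℂ V]
    (A : V →ₗ[ℂ] H) (c : H) (hA : Module.finrank ℂ (LinearMap.range A) ≤ R) :
    (∀ ξ : Fin R → V, S.vw (R + 1) (Fin.cons c (fun i => A (ξ i))) = 0) ↔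
      (Module.finrank ℂ (LinearMap.range A) = R → ∃ v, A v = c) := by
  constructor
  · intro h hR
    by_contra hcon
    let b := Module.finBasisOfFinrankEq ℂ (LinearMap.range A) hR
    have hb : ∀ i, ∃ v, A v = b i := fun i => (b i).2
    choose ξ hξ using hb
    refine S.vw_ne ?_ (h ξ)
    rw [linearIndependent_finCons]
    constructor
    · have h1 : LinearIndependent ℂ (fun i => ((b i : LinearMap.range A) : H)) :=
        b.linearIndependent.map' (LinearMap.range A).subtype (Submodule.ker_subtype _)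
      have h2 : (fun i => A (ξ i)) = fun i => ((b i : LinearMap.range A) : H) := funext hξ
      rw [h2]
      exact h1
    · intro hc
      apply hcon
      have h2 : Submodule.span ℂ (range fun i => A (ξ i)) ≤ LinearMap.range A := by
        rw [Submodule.span_le]
        rintro _ ⟨i, rfl⟩
        exact ⟨ξ i, rfl⟩
      exact h2 hc
  · intro h ξ
    rw [S.vw_eq_zero_iff]
    intro hx
    rw [linearIndependent_finCons] at hx
    obtain ⟨h1, h2⟩ := hx
    have h3 : Submodule.span ℂ (range fun i => A (ξ i)) ≤ LinearMap.range A := by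
      rw [Submodule.span_le]
      rintro _ ⟨i, rfl⟩
      exact ⟨ξ i, rfl⟩
    have h4 : Module.finrank ℂ (Submodule.span ℂ (range fun i => A (ξ i))) = R := by
      rw [finrank_span_eq_card h1, Fintype.card_fin]
    have h5 : Module.finrank ℂ (LinearMap.range A) = R := by
      refine le_antisymm hA ?_
      have h6 := Submodule.finrank_mono h3
      rwa [h4] at h6
    obtain ⟨v, hv⟩ := h h5
    apply h2
    have h7 : Submodule.span ℂ (range fun i => A (ξ i)) = LinearMap.range A :=
      Submodule.eq_of_le_of_finrank_eq h3 (h4.trans h5.symm)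
    rw [h7]
    exact ⟨v, hv⟩

end Vale.Agent.P284.H619
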