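import Vale.Agent.P284.H619.NS0C

/-!
# P284 (helper619), module NS0: natural sections of an equivariant closed 1-form
-/

open scoped Manifold ContDiff Topology InnerProductSpace
open Filter Set Metric

noncomputable section

namespace Vale.Agent.P284.H619

open Vale.Agent.P272.K Vale.Agent.P284.H573 Vale.Agent.P284.H894.G

lemma exists_frame {R : ℕ} {V : Type*} [NormedAddCommGroup V] [NormedSpace ℂ V]
    {b : V → Fin R → ℂ} {z : V} (h : Function.Surjective (fderiv ℂ b z)) :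
    ∃ ξ : Fin R → V, Jd b z ξ ≠ 0 := by
  classical
  choose ξ hξ using fun i : Fin R => h (Pi.single i 1)
  refine ⟨ξ, ?_⟩
  have h1 : (Matrix.of fun i a => fderiv ℂ b z (ξ a) i) = (1 : Matrix (Fin R) (Fin R) ℂ) := by
    ext i a
    rw [Matrix.of_apply, hξ, Matrix.one_apply, Pi.single_apply]
  unfold Jd
  rw [h1, Matrix.det_one]
  exact one_ne_zero

/-- **Module NS0**, from the local immersion theorem. -/
theorem ns0_of (himm : ImmStmt) : NS0Stmt := by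
  intro n r X _ _ _ _ E Γ _ _ _ _ p hG W _ _ _ π Θ hΘ hπ hR hN y₀ e₀ he₀ hrk
  obtain ⟨H, iH1, iH2, iH3, S, ⟨J⟩⟩ := exists_TH W
  have hp : IsCoveringMap p := hG.cov
  set F : Cm n → H := prH J p Θ y₀ e₀ with hF_def
  set z₀ : Cm n := e₀ (p y₀) with hz₀
  have hF : AnalyticAt ℂ F z₀ := prH_an J hΘ he₀
  -- relation of the two languages near `y₀`
  have hlo : ∀ᶠ y in 𝓝 y₀, At e₀ (p y) ∧
      J.toContinuousLinearMap.comp (Θ y e₀) = fderiv ℂ F (e₀ (p y)) :=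
    (at_ev hp he₀).and (lo_ev J hp hΘ he₀)
  have hFrk : ∀ᶠ z in 𝓝 z₀, Module.finrank ℂ (LinearMap.range (fderiv ℂ F z : Cm n →ₗ[ℂ] H)) ≤
      r + 1 := by
    rw [hz₀, ← ev_iff hp he₀]
    filter_upwards [hlo] with y hy
    rw [← hy.2, rk_J]
    exact hR y e₀ hy.1
  have hF0 : Module.finrank ℂ (LinearMap.range (fderiv ℂ F z₀ : Cm n →ₗ[ℂ] H)) = r + 1 := by
    rw [hz₀, ← hlo.self_of_nhds.2, rk_J]
    exact hrk
  obtain ⟨b, F', hb, hbs, hF', hF'i, hFb⟩ := exists_nf hF hFrk hF0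
  have hd : ∀ᶠ z in 𝓝 z₀, fderiv ℂ F z = (fderiv ℂ F' (b z)).comp (fderiv ℂ b z) := by
    filter_upwards [hFb.eventually_nhds, hb.eventually_analyticAt,
      hb.continuousAt.eventually hF'.eventually_analyticAt] with w w1 w2 w3
    rw [Filter.EventuallyEq.fderiv_eq w1]
    exact (w3.differentiableAt.hasFDerivAt.comp w w2.differentiableAt.hasFDerivAt).fderiv
  obtain ⟨ξ₀, hξ₀⟩ := exists_frame hbs
  have hsurj : ∀ᶠ z in 𝓝 z₀, Function.Surjective (fderiv ℂ b z) := by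
    filter_upwards [(jd_an hb ξ₀).continuousAt.eventually_ne hξ₀] with z hz
    exact surj_of_Jd hz
  -- no constant direction
  obtain ⟨k, hk⟩ := himm H S r F' (b z₀) hF' hF'i (by
    intro c hc
    have h1 : ∀ᶠ y in 𝓝 y₀, ∃ v, J (Θ y e₀ v) = c := by
      have h2 : ∀ᶠ z in 𝓝 z₀, ∃ v, fderiv ℂ F z v = c := by
        filter_upwards [hb.continuousAt.eventually hc, hd, hsurj] with z z1 z2 z3
        obtain ⟨ξ, hξ⟩ := z1
        obtain ⟨v, hv⟩ := z3 ξ
        refine ⟨v, ?_⟩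
        rw [z2, ContinuousLinearMap.comp_apply, hv, hξ]
      rw [hz₀, ← ev_iff hp he₀] at h2
      filter_upwards [h2, hlo] with y h3 h4
      obtain ⟨v, hv⟩ := h3
      refine ⟨v, ?_⟩
      rw [← hv, ← h4.2]
      rfl
    obtain ⟨v₀, hv₀⟩ := h1.self_of_nhds
    have hbad : ∀ᶠ y in 𝓝 y₀, Bad S J p Θ r (Θ y₀ e₀ v₀) y := by
      filter_upwards [h1, hlo] with y h2 h3
      refine bad_of S J hΘ h3.1 ?_
      rw [hv₀]
      refine (S.mem_range_iff (R := r + 1)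
        ((J.toContinuousLinearMap.comp (Θ y e₀) : Cm n →L[ℂ] H) : Cm n →ₗ[ℂ] H) c
        (by rw [rk_J]; exact hR y e₀ h3.1)).2 fun _ => ?_
      obtain ⟨v, hv⟩ := h2
      exact ⟨v, hv⟩
    have h0 := hN (Θ y₀ e₀ v₀) fun y e he h =>
      bad_mem S J hR (bad_all S J hp hΘ hbad) y e he h
    rw [← hv₀, h0, map_zero])
  refine ⟨mu k, mu_pos k, H, iH1, iH2, iH3, vf S J p Θ k, vf_hform S J hG hΘ hπ hR k, e₀, b,
    fun z => S.G (fun y => fderiv ℂ F' y) k z (fr (r + 1)), ?_⟩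
  refine ⟨he₀, hb, hbs, g_an S hF'.fderiv k _, hk, ?_⟩
  have hnat := S.G_nat (r := r) hb hF'.fderiv hd k
  rw [hz₀, ← ev_iff hp he₀] at hnat
  filter_upwards [vf_near S J hp hΘ k he₀, hnat] with y h1 h2 ξ
  rw [h1 ξ]
  exact h2 ξ

end Vale.Agent.P284.H619
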