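import Vale.Agent.P284.H619.NS0A

/-!
# P284 (helper619), module NS0: `vf` is an `HForm`
-/

open scoped Manifold ContDiff Topology InnerProductSpace
open Filter Set Metric

noncomputable section

namespace Vale.Agent.P284.H619

open Vale.Agent.P272.K Vale.Agent.P284.H573 Vale.Agent.P284.H894.G

section
variable {n r : ℕ} {X : Type} [TopologicalSpace X] [ChartedSpace (Cm n) X]
  {E : Type} [TopologicalSpace E] {p : E → X}
  {W : Type} [NormedAddCommGroup W] [InnerProductSpace ℂ W] [CompleteSpace W]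
  {Θ : E → Chart n X → (Cm n →L[ℂ] W)}
  {H : Type} [NormedAddCommGroup H] [InnerProductSpace ℂ H] [CompleteSpace H] (S : TH H)
  (J : W →ₗᵢ[ℂ] H)

omit [CompleteSpace W] [CompleteSpace H] in
lemma vf_eq {k : ℕ} {y : E} {e : Chart n X} (he : At e (p y)) (ξ : Fin (r + 1) → Cm n) :
    vf S J p Θ k y e ξ = S.G (lo J p Θ y e) k (e (p y)) ξ := if_pos he

lemma vf_hol (hp : IsCoveringMap p) (hΘ : CForm n p W Θ) (k : ℕ) (y : E) (e : Chart n X)
    (he : At e (p y)) : ∃ F : Cm n × (Fin (r + 1) → Cm n) → H,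
      (∀ ξ, AnalyticAt ℂ F (e (p y), ξ)) ∧
        ∀ᶠ y' in 𝓝 y, ∀ ξ, vf S J p Θ k y' e ξ = F (e (p y'), ξ) :=
  ⟨fun q => S.G (lo J p Θ y e) k q.1 q.2, fun ξ => S.G_an (lo_an J hΘ he) k ξ,
    vf_near S J hp hΘ k he⟩

omit [CompleteSpace W] [CompleteSpace H] in
lemma vf_det (k : ℕ) (y : E) (e : Chart n X) (he : At e (p y))
    (A : Matrix (Fin (r + 1)) (Fin (r + 1)) ℂ) (ξ : Fin (r + 1) → Cm n) :
    vf S J p Θ k y e (fun i => ∑ j, A i j • ξ j) = A.det ^ mu k • vf S J p Θ k y e ξ := by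
  rw [vf_eq S J he, vf_eq S J he, S.G_mul]

lemma vf_inv {Γ : Type} [Group Γ] [MulAction Γ E] (hG : IsGalois Γ p) (hΘ : CForm n p W Θ)
    {π : Γ →* (W ≃ₗᵢ[ℂ] W)} (hπ : Equi p π Θ) (k : ℕ) (y y₁ : E) (e : Chart n X)
    (he : At e (p y)) (hy : p y = p y₁) (ξ : Fin (r + 1) → Cm n) :
    ‖vf S J p Θ k y e ξ‖ = ‖vf S J p Θ k y₁ e ξ‖ := by
  obtain ⟨g, rfl⟩ := (hG.orb y y₁).1 hy
  have hpg : ∀ y' : E, p (g • y') = p y' := fun y' => ((hG.orb y' (g • y')).2 ⟨g, rfl⟩).symm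
  have he1 : At e (p (g • y)) := by rw [hpg]; exact he
  -- the local expressions
  set A : Cm n → (Cm n →L[ℂ] W) := fun z => fderiv ℂ (pr p Θ y e) z with hA
  have h1 : lo J p Θ (g • y) e =ᶠ[𝓝 (e (p (g • y)))] fun z =>
      J.toContinuousLinearMap.comp (((π g).toContinuousLinearEquiv : W →L[ℂ] W).comp (A z)) := by
    refine lo_unique J hG.cov hΘ he1 ?_
    have hc : Tendsto (fun y'' : E => g⁻¹ • y'') (𝓝 (g • y)) (𝓝 y) := by
      have := (hG.cont g⁻¹).tendsto (g • y)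
      rwa [inv_smul_smul] at this
    filter_upwards [hc.eventually (pr_ev hΘ he), hc.eventually (at_ev hG.cov he)] with y'' h2 h3
    have h4 := hπ g (g⁻¹ • y'') e h3
    rw [smul_inv_smul] at h4
    rw [h4, h2]
    have h5 : p (g⁻¹ • y'') = p y'' := ((hG.orb _ _).2 ⟨g, by rw [smul_inv_smul]⟩)
    rw [h5]
  have h2 := lo_apply J hΘ he
  rw [hpg] at h1
  obtain ⟨U, hU, hUo, hzU⟩ := _root_.eventually_nhds_iff.1 ((h1.and h2).and
    ((lo_an J hΘ he).eventually_analyticAt.and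
      (by
        have := lo_an J hΘ he1
        rw [hpg] at this
        exact this.eventually_analyticAt)))
  have h3 := S.G_iso (r := r) (Θ := lo J p Θ y e) (Θ' := lo J p Θ (g • y) e) hUo
    (fun z hz => (hU z hz).2.1) (fun z hz => (hU z hz).2.2)
    (fun z hz w hw η η' => by
      rw [(hU z hz).1.1, (hU z hz).1.2, (hU w hw).1.1, (hU w hw).1.2]
      show ⟪J (A z η), J (A w η')⟫_ℂ = ⟪J (π g (A z η)), J (π g (A w η'))⟫_ℂ
      rw [J.inner_map_map, J.inner_map_map, (π g).inner_map_map])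
    k (e (p y)) hzU (e (p y)) hzU ξ ξ
  rw [vf_eq S J he, vf_eq S J he1, hpg]
  rw [inner_self_eq_norm_sq_to_K, inner_self_eq_norm_sq_to_K] at h3
  have h4 : ‖S.G (lo J p Θ y e) k (e (p y)) ξ‖ ^ 2 =
      ‖S.G (lo J p Θ (g • y) e) k (e (p y)) ξ‖ ^ 2 := by exact_mod_cast h3
  exact (pow_left_inj₀ (norm_nonneg _) (norm_nonneg _) two_ne_zero).1 h4

omit [CompleteSpace H] in
lemma G_zero {V : Type*} [NormedAddCommGroup V] [NormedSpace ℂ V] [FiniteDimensional ℂ V]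
    {Θ : V → V →L[ℂ] H} {z₀ : V}
    (h : ∀ᶠ z in 𝓝 z₀, Module.finrank ℂ (LinearMap.range (Θ z : V →ₗ[ℂ] H)) < r + 1) (k : ℕ) :
    ∀ᶠ z in 𝓝 z₀, ∀ ξ : Fin (r + 1) → V, S.G Θ k z ξ = 0 := by
  induction k with
  | zero =>
    filter_upwards [h] with z hz ξ
    have h1 : S.G Θ 0 z ξ = S.vw (r + 1) (fun i => Θ z (ξ i)) := by
      show S.wdg _ _ = S.wdg _ _
      rw [S.wdg_apply, S.wdg_apply]
      rfl
    rw [h1, S.vw_eq_zero_iff]
    intro hli
    have h3 : Submodule.span ℂ (range fun i => Θ z (ξ i)) ≤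
        LinearMap.range (Θ z : V →ₗ[ℂ] H) := by
      rw [Submodule.span_le]
      rintro _ ⟨i, rfl⟩
      exact ⟨ξ i, rfl⟩
    have h4 := Submodule.finrank_mono h3
    rw [finrank_span_eq_card hli, Fintype.card_fin] at h4
    omega
  | succ k ih =>
    filter_upwards [ih.eventually_nhds] with z hz ξ
    have h1 : S.G Θ k z ξ = 0 := hz.self_of_nhds ξ
    have h2 : fderiv ℂ (fun y => S.G Θ k y ξ) z = 0 := by
      have : (fun y => S.G Θ k y ξ) =ᶠ[𝓝 z] fun _ => 0 := hz.mono fun y hy => hy ξ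
      rw [this.fderiv_eq, fderiv_fun_const]
      rfl
    have h3 : S.al (S.G Θ k) z ξ = 0 := by
      ext η
      rw [S.al_apply, h1, h2]
      simp
    show S.nx Θ (S.G Θ k) z ξ = 0
    unfold TH.nx TH.dv
    rw [h1, h3]
    have h4 := S.wdg_cons_smul (0 : ℂ) (0 : V →ₗ[ℂ] H) (fun _ : Fin r => (Θ z : V →ₗ[ℂ] H)) ξ
    rw [zero_smul, zero_smul] at h4
    rw [ContinuousLinearMap.toLinearMap_zero, h4]
    simp

/-- change of charts, analytic form: `Θ₁ = φ^* Θ₂`, where `Θ₂` is exact of rank at most `r + 1` -/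
lemma G_change {V : Type*} [NormedAddCommGroup V] [NormedSpace ℂ V] [FiniteDimensional ℂ V]
    {F₁ F₂ : V → H} {φ : V → V} {z₀ : V} (hF₁ : AnalyticAt ℂ F₁ z₀) (hφ : AnalyticAt ℂ φ z₀)
    (hF₂ : AnalyticAt ℂ F₂ (φ z₀)) (hmap : map φ (𝓝 z₀) = 𝓝 (φ z₀))
    (h : ∀ᶠ z in 𝓝 z₀, fderiv ℂ F₁ z = (fderiv ℂ F₂ (φ z)).comp (fderiv ℂ φ z))
    (hrk : ∀ᶠ z in 𝓝 (φ z₀),
      Module.finrank ℂ (LinearMap.range (fderiv ℂ F₂ z : V →ₗ[ℂ] H)) ≤ r + 1)
    (k : ℕ) (ξ : Fin (r + 1) → V) :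
    S.G (fun z => fderiv ℂ F₁ z) k z₀ ξ =
      S.G (fun z => fderiv ℂ F₂ z) k (φ z₀) (fun i => fderiv ℂ φ z₀ (ξ i)) := by
  have : CompleteSpace V := FiniteDimensional.complete ℂ V
  have hrk' : ∀ᶠ z in 𝓝 z₀, ∀ᶠ w in 𝓝 (φ z),
      Module.finrank ℂ (LinearMap.range (fderiv ℂ F₂ w : V →ₗ[ℂ] H)) ≤ r + 1 :=
    hφ.continuousAt.eventually hrk.eventually_nhds
  by_cases hcase : ∃ᶠ z in 𝓝 z₀,
      Module.finrank ℂ (LinearMap.range (fderiv ℂ F₂ (φ z) : V →ₗ[ℂ] H)) = r + 1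
  · -- generic points accumulate at `z₀`
    have hc1 : Tendsto (fun z => S.G (fun z => fderiv ℂ F₁ z) k z ξ) (𝓝 z₀)
        (𝓝 (S.G (fun z => fderiv ℂ F₁ z) k z₀ ξ)) := (g_an S hF₁.fderiv k ξ).continuousAt
    have hc2 : Tendsto (fun z => S.G (fun z => fderiv ℂ F₂ z) k (φ z)
        (fun i => fderiv ℂ φ z (ξ i))) (𝓝 z₀)
        (𝓝 (S.G (fun z => fderiv ℂ F₂ z) k (φ z₀) (fun i => fderiv ℂ φ z₀ (ξ i)))) := by
      have e1 := (S.G_an (r := r) hF₂.fderiv k (fun i => fderiv ℂ φ z₀ (ξ i))).continuousAt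
      have e2 : ContinuousAt (fun z => (φ z, fun i => fderiv ℂ φ z (ξ i))) z₀ := by
        refine hφ.continuousAt.prodMk (continuousAt_pi.2 fun i => ?_)
        exact (((ContinuousLinearMap.apply ℂ V (ξ i)).analyticAt _).comp hφ.fderiv).continuousAt
      exact ContinuousAt.comp (f := fun z => (φ z, fun i => fderiv ℂ φ z (ξ i)))
        (g := fun q : V × (Fin (r + 1) → V) => S.G (fun z => fderiv ℂ F₂ z) k q.1 q.2) e1 e2
    refine tendsto_nhds_unique_of_frequently_eq hc1 hc2 ?_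
    refine (hcase.and_eventually (hrk'.and (h.eventually_nhds.and
      (hφ.eventually_analyticAt.and (hφ.continuousAt.eventually hF₂.eventually_analyticAt))))).mono
      fun z hz => ?_
    obtain ⟨hz1, hz2, hz3, hz4, hz5⟩ := hz
    obtain ⟨b, F', hb, -, hF', -, hbF⟩ := exists_nf hz5 hz2 hz1
    have h2 : ∀ᶠ w in 𝓝 (φ z), fderiv ℂ F₂ w = (fderiv ℂ F' (b w)).comp (fderiv ℂ b w) := by
      filter_upwards [hbF.eventually_nhds, hb.eventually_analyticAt,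
        hb.continuousAt.eventually hF'.eventually_analyticAt] with w w1 w2 w3
      rw [Filter.EventuallyEq.fderiv_eq w1]
      exact (w3.differentiableAt.hasFDerivAt.comp w w2.differentiableAt.hasFDerivAt).fderiv
    have hbφ : AnalyticAt ℂ (fun z => b (φ z)) z := AnalyticAt.fun_comp hb hz4
    have h1 : ∀ᶠ w in 𝓝 z, fderiv ℂ F₁ w =
        (fderiv ℂ F' (b (φ w))).comp (fderiv ℂ (fun z => b (φ z)) w) := by
      filter_upwards [hz3, hz4.continuousAt.eventually h2, hz4.eventually_analyticAt,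
        hz4.continuousAt.eventually hb.eventually_analyticAt] with w w1 w2 w3 w4
      rw [w1, w2, ContinuousLinearMap.comp_assoc]
      congr 1
      exact (w4.differentiableAt.hasFDerivAt.comp w w3.differentiableAt.hasFDerivAt).fderiv.symm
    have n1 := (S.G_nat (r := r) hbφ hF'.fderiv h1 k).self_of_nhds ξ
    have n2 := (S.G_nat (r := r) hb hF'.fderiv h2 k).self_of_nhds (fun i => fderiv ℂ φ z (ξ i))
    rw [n1, n2]
    congr 2
    unfold Jd
    congr 1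
    ext i a
    rw [Matrix.of_apply, Matrix.of_apply]
    have h3 : fderiv ℂ (fun z => b (φ z)) z = (fderiv ℂ b (φ z)).comp (fderiv ℂ φ z) :=
      (hb.differentiableAt.hasFDerivAt.comp z hz4.differentiableAt.hasFDerivAt).fderiv
    rw [h3]
    rfl
  · rw [not_frequently] at hcase
    have h1 : ∀ᶠ z in 𝓝 z₀,
        Module.finrank ℂ (LinearMap.range (fderiv ℂ F₂ (φ z) : V →ₗ[ℂ] H)) < r + 1 := by
      filter_upwards [hcase, hrk'] with z z1 z2
      exact lt_of_le_of_ne z2.self_of_nhds z1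
    have h2 : ∀ᶠ w in 𝓝 (φ z₀),
        Module.finrank ℂ (LinearMap.range (fderiv ℂ F₂ w : V →ₗ[ℂ] H)) < r + 1 := by
      rw [← hmap]
      exact h1
    have h3 : ∀ᶠ z in 𝓝 z₀,
        Module.finrank ℂ (LinearMap.range (fderiv ℂ F₁ z : V →ₗ[ℂ] H)) < r + 1 := by
      filter_upwards [h, h1] with z z1 z2
      rw [z1]
      refine lt_of_le_of_lt (Submodule.finrank_mono ?_) z2
      rintro _ ⟨v, rfl⟩
      exact ⟨fderiv ℂ φ z v, rfl⟩
    rw [(G_zero S h3 k).self_of_nhds ξ, (G_zero S h2 k).self_of_nhds]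

end

end Vale.Agent.P284.H619
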