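import Vale.Agent.P284.H619.Sec

/-!
# P284 (helper619): analyticity, locality, naturality and isometry invariance of natural sections
-/

open scoped InnerProductSpace ENNReal ComplexConjugate Topology
open Filter

noncomputable section

namespace Vale.Agent.P284.H619

variable {H : Type*} [NormedAddCommGroup H] [InnerProductSpace ℂ H] (S : TH H)

section analytic
variable {V : Type*} [NormedAddCommGroup V] [NormedSpace ℂ V]
  {E : Type*} [NormedAddCommGroup E] [NormedSpace ℂ E]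

lemma an_apply {F G : Type*} [NormedAddCommGroup F] [NormedSpace ℂ F] [NormedAddCommGroup G]
    [NormedSpace ℂ G] {c : E → F →L[ℂ] G} {u : E → F} {x : E} (hc : AnalyticAt ℂ c x)
    (hu : AnalyticAt ℂ u x) : AnalyticAt ℂ (fun y => c y (u y)) x :=
  ((ContinuousLinearMap.id ℂ (F →L[ℂ] G)).analyticAt_bilinear (c x, u x)).comp₂ hc hu

lemma an_T {a b : E → H} {x : E} (ha : AnalyticAt ℂ a x) (hb : AnalyticAt ℂ b x) :
    AnalyticAt ℂ (fun y => S.T (a y) (b y)) x :=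
  (S.T.analyticAt_bilinear (a x, b x)).comp₂ ha hb

lemma an_tp {R : ℕ} (f : Fin R → E → H) {x : E} (hf : ∀ i, AnalyticAt ℂ (f i) x) :
    AnalyticAt ℂ (fun y => S.tp R (fun i => f i y)) x := by
  induction R with
  | zero => exact analyticAt_const
  | succ R ih =>
    simp only [S.tp_succ]
    exact an_T S (hf 0) (ih (fun i => f i.succ) fun i => hf i.succ)

lemma an_wdg {R : ℕ} (α : Fin R → E → V →L[ℂ] H) (ξ : E → Fin R → V) {x : E}
    (hα : ∀ i, AnalyticAt ℂ (α i) x) (hξ : AnalyticAt ℂ ξ x) :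
    AnalyticAt ℂ (fun y => S.wdg (fun i => (α i y : V →ₗ[ℂ] H)) (ξ y)) x := by
  simp only [S.wdg_apply]
  refine Finset.analyticAt_fun_sum _ fun σ _ => ?_
  refine AnalyticAt.const_smul (an_tp S (fun i y => α i y (ξ y (σ i))) fun i => ?_)
  refine an_apply (hα i) ?_
  exact ((ContinuousLinearMap.proj (σ i) : (Fin R → V) →L[ℂ] V).analyticAt _).comp hξ

variable [CompleteSpace H]

lemma an_fder {F : V × E → H} {x : V × E} (hF : AnalyticAt ℂ F x) :
    AnalyticAt ℂ (fun p : V × E => fderiv ℂ (fun y => F (y, p.2)) p.1) x := by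
  have h1 : AnalyticAt ℂ (fun p : V × E => (fderiv ℂ F p).comp (ContinuousLinearMap.inl ℂ V E)) x :=
    (((ContinuousLinearMap.compL ℂ V (V × E) H).flip
      (ContinuousLinearMap.inl ℂ V E)).analyticAt _).comp hF.fderiv
  refine h1.congr ?_
  filter_upwards [hF.eventually_analyticAt] with p hp
  have h2 : HasFDerivAt (fun y : V => (y, p.2)) (ContinuousLinearMap.inl ℂ V E) p.1 :=
    hasFDerivAt_prodMk_left p.1 p.2
  exact (hp.differentiableAt.hasFDerivAt.comp p.1 h2).fderiv.symm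

/-- the bilinear map `(v, A) ↦ T v ∘ A` -/
def TH.cT : H →L[ℂ] (V →L[ℂ] H) →L[ℂ] (V →L[ℂ] H) := (ContinuousLinearMap.compL ℂ V H H).comp S.T

/-- the bilinear map `(v, A) ↦ (T · v) ∘ A` -/
def TH.cT' : H →L[ℂ] (V →L[ℂ] H) →L[ℂ] (V →L[ℂ] H) :=
  (ContinuousLinearMap.compL ℂ V H H).comp S.T.flip

lemma an_bil {F G K : Type*} [NormedAddCommGroup F] [NormedSpace ℂ F] [NormedAddCommGroup G]
    [NormedSpace ℂ G] [NormedAddCommGroup K] [NormedSpace ℂ K] (B : F →L[ℂ] G →L[ℂ] K)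
    {a : E → F} {b : E → G} {x : E} (ha : AnalyticAt ℂ a x) (hb : AnalyticAt ℂ b x) :
    AnalyticAt ℂ (fun y => B (a y) (b y)) x :=
  (B.analyticAt_bilinear (a x, b x)).comp₂ ha hb

lemma al_an {R : ℕ} {g : V → (Fin R → V) → H} {x : V × (Fin R → V)}
    (hg : AnalyticAt ℂ (fun p : V × (Fin R → V) => g p.1 p.2) x) :
    AnalyticAt ℂ (fun p : V × (Fin R → V) => S.al g p.1 p.2) x := by
  have hD : AnalyticAt ℂ (fun p : V × (Fin R → V) => fderiv ℂ (fun y => g y p.2) p.1) x :=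
    an_fder hg
  have h1 := an_bil (S.cT (V := V)) hg hD
  have h2 := an_bil (S.cT' (V := V)) hg hD
  exact h1.sub h2

lemma dv_an {r : ℕ} {Θ : V → V →L[ℂ] H} {g : V → (Fin (r + 1) → V) → H}
    {x : V × (Fin (r + 1) → V)} (hΘ : AnalyticAt ℂ (fun p : V × (Fin (r + 1) → V) => Θ p.1) x)
    (hg : AnalyticAt ℂ (fun p : V × (Fin (r + 1) → V) => g p.1 p.2) x) :
    AnalyticAt ℂ (fun p : V × (Fin (r + 1) → V) => S.dv Θ g p.1 p.2) x := by
  have hal := al_an S hg
  have h := an_wdg S (fun (i : Fin (r + 1)) (p : V × (Fin (r + 1) → V)) =>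
    (Fin.cons (S.al g p.1 p.2) (fun _ => Θ p.1) : Fin (r + 1) → V →L[ℂ] H) i)
    (fun p => p.2) (x := x) (fun i => by
      refine Fin.cases ?_ (fun i => ?_) i
      · exact hal
      · exact hΘ) analyticAt_snd
  have h2 : (fun p : V × (Fin (r + 1) → V) => S.dv Θ g p.1 p.2) = fun p => S.wdg (fun i =>
      (((Fin.cons (S.al g p.1 p.2) (fun _ => Θ p.1) : Fin (r + 1) → V →L[ℂ] H) i :
        V →L[ℂ] H) : V →ₗ[ℂ] H)) p.2 := by
    funext p
    unfold TH.dv
    congr 2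
    funext i
    refine Fin.cases rfl (fun i => rfl) i
  rw [h2]
  exact h

omit [CompleteSpace H] in
lemma s0_an {R : ℕ} {Θ : V → V →L[ℂ] H} {x : V × (Fin R → V)}
    (hΘ : AnalyticAt ℂ (fun p : V × (Fin R → V) => Θ p.1) x) :
    AnalyticAt ℂ (fun p : V × (Fin R → V) => S.s0 Θ p.1 p.2) x := by
  have h := an_wdg S (fun (_ : Fin R) (p : V × (Fin R → V)) => Θ p.1) (fun p => p.2) (x := x)
    (fun _ => hΘ) analyticAt_snd
  exact h

lemma nx_an {r : ℕ} {Θ : V → V →L[ℂ] H} {g : V → (Fin (r + 1) → V) → H}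
    {x : V × (Fin (r + 1) → V)} (hΘ : AnalyticAt ℂ (fun p : V × (Fin (r + 1) → V) => Θ p.1) x)
    (hg : AnalyticAt ℂ (fun p : V × (Fin (r + 1) → V) => g p.1 p.2) x) :
    AnalyticAt ℂ (fun p : V × (Fin (r + 1) → V) => S.nx Θ g p.1 p.2) x :=
  (an_T S analyticAt_const (an_T S hg (an_T S hg (s0_an S hΘ)))).add
    (an_T S analyticAt_const (dv_an S hΘ hg))

/-- the natural sections are analytic -/
theorem TH.G_an {r : ℕ} {Θ : V → V →L[ℂ] H} {z₀ : V} (hΘ : AnalyticAt ℂ Θ z₀) (k : ℕ)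
    (ξ₀ : Fin (r + 1) → V) :
    AnalyticAt ℂ (fun p : V × (Fin (r + 1) → V) => S.G Θ k p.1 p.2) (z₀, ξ₀) := by
  have hΘ' : AnalyticAt ℂ (fun p : V × (Fin (r + 1) → V) => Θ p.1) (z₀, ξ₀) :=
    AnalyticAt.fun_comp (f := fun p : V × (Fin (r + 1) → V) => p.1) hΘ analyticAt_fst
  induction k with
  | zero => exact s0_an S hΘ'
  | succ k ih => exact nx_an S hΘ' ih

end analytic

end Vale.Agent.P284.H619
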