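import Vale.Agent.P284.H619.Nat

/-!
# P284 (helper619): locality, naturality and isometry invariance of natural sections
-/

open scoped InnerProductSpace ENNReal ComplexConjugate Topology
open Filter

noncomputable section

namespace Vale.Agent.P284.H619

variable {H : Type*} [NormedAddCommGroup H] [InnerProductSpace ℂ H] (S : TH H)

section loc
variable {V : Type*} [NormedAddCommGroup V] [NormedSpace ℂ V]

/-- the natural sections only depend on the germ of `Θ` -/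
theorem TH.G_congr {r : ℕ} {Θ Θ' : V → V →L[ℂ] H} {z₀ : V} (h : Θ =ᶠ[𝓝 z₀] Θ') (k : ℕ) :
    ∀ᶠ z in 𝓝 z₀, ∀ ξ : Fin (r + 1) → V, S.G Θ k z ξ = S.G Θ' k z ξ := by
  induction k with
  | zero =>
    filter_upwards [h] with z hz ξ
    show S.wdg _ _ = S.wdg _ _
    rw [hz]
  | succ k ih =>
    filter_upwards [h, ih.eventually_nhds] with z hz hk ξ
    have h1 : S.G Θ k z ξ = S.G Θ' k z ξ := hk.self_of_nhds ξ
    have h2 : fderiv ℂ (fun y => S.G Θ k y ξ) z = fderiv ℂ (fun y => S.G Θ' k y ξ) z :=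
      Filter.EventuallyEq.fderiv_eq (hk.mono fun y hy => hy ξ)
    have h3 : S.al (S.G Θ k) z ξ = S.al (S.G Θ' k) z ξ := by
      unfold TH.al
      rw [h1, h2]
    show S.nx Θ (S.G Θ k) z ξ = S.nx Θ' (S.G Θ' k) z ξ
    unfold TH.nx TH.dv TH.s0
    rw [h1, h3, hz]

end loc

section nat
variable {V : Type*} [NormedAddCommGroup V] [NormedSpace ℂ V]

/-- the Jacobian determinant of `j : V → ℂᴿ` on the frame `ξ` -/
def Jd {R : ℕ} (j : V → Fin R → ℂ) (z : V) (ξ : Fin R → V) : ℂ :=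
  (Matrix.of fun i a => fderiv ℂ j z (ξ a) i).det

/-- the standard frame -/
def fr (R : ℕ) : Fin R → (Fin R → ℂ) := fun i => Pi.single i 1

lemma sum_fr {R : ℕ} (v : Fin R → ℂ) : ∑ i, v i • fr R i = v := by
  funext a
  simp [fr, Finset.sum_apply, Pi.single_apply]

lemma wdg_comp {R : ℕ} (β : Fin R → (Fin R → ℂ) →ₗ[ℂ] H) (A : V →ₗ[ℂ] (Fin R → ℂ))
    (ξ : Fin R → V) :
    S.wdg (fun i => (β i).comp A) ξ =
      (Matrix.of fun i a => A (ξ a) i).det • S.wdg β (fr R) := by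
  have h1 : S.wdg (fun i => (β i).comp A) ξ = S.wdg β (fun a => A (ξ a)) := by
    rw [S.wdg_apply, S.wdg_apply]
    rfl
  have h2 := alt_mul (S.wdg β) (Matrix.of fun a i => A (ξ a) i) (fr R)
  have h3 : (fun a => ∑ j, (Matrix.of fun a i => A (ξ a) i) a j • fr R j) = fun a => A (ξ a) :=
    funext fun a => sum_fr _
  rw [h3] at h2
  rw [h1, h2, ← Matrix.det_transpose]
  rfl

lemma jd_an {R : ℕ} {j : V → Fin R → ℂ} {z : V} (hj : AnalyticAt ℂ j z) (ξ : Fin R → V) :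
    AnalyticAt ℂ (fun y => Jd j y ξ) z := by
  have he : ∀ (i a : Fin R), AnalyticAt ℂ (fun y => fderiv ℂ j y (ξ a) i) z := fun i a =>
    (((ContinuousLinearMap.proj i : (Fin R → ℂ) →L[ℂ] ℂ).comp
      (ContinuousLinearMap.apply ℂ (Fin R → ℂ) (ξ a))).analyticAt _).comp hj.fderiv
  unfold Jd
  simp only [Matrix.det_apply, Matrix.of_apply]
  refine Finset.analyticAt_fun_sum _ fun σ _ => ?_
  simp only [Units.smul_def, zsmul_eq_mul]
  exact analyticAt_const.mul (Finset.analyticAt_fun_prod _ fun a _ => he _ _)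

variable [CompleteSpace H]

lemma g_an {r : ℕ} {Θ : V → V →L[ℂ] H} {z₀ : V} (hΘ : AnalyticAt ℂ Θ z₀) (k : ℕ)
    (ξ : Fin (r + 1) → V) : AnalyticAt ℂ (fun z => S.G Θ k z ξ) z₀ :=
  AnalyticAt.fun_comp (f := fun z : V => (z, ξ)) (S.G_an hΘ k ξ)
    (analyticAt_id.prod analyticAt_const)

omit [CompleteSpace H] in
lemma al_nat {R : ℕ} {g : V → (Fin R → V) → H} {g' : (Fin R → ℂ) → (Fin R → Fin R → ℂ) → H}
    {j : V → Fin R → ℂ} {z : V} {ξ : Fin R → V} {m : ℕ} (hj : AnalyticAt ℂ j z)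
    (hg' : AnalyticAt ℂ (fun w => g' w (fr R)) (j z))
    (h : ∀ᶠ y in 𝓝 z, g y ξ = (Jd j y ξ) ^ m • g' (j y) (fr R)) :
    S.al g z ξ = (Jd j z ξ) ^ (2 * m) • (S.al g' (j z) (fr R)).comp (fderiv ℂ j z) := by
  have h0 : g z ξ = (Jd j z ξ) ^ m • g' (j z) (fr R) := h.self_of_nhds
  obtain ⟨c', hc'⟩ : ∃ c', HasFDerivAt (fun y => (Jd j y ξ) ^ m) c' z :=
    ⟨_, ((jd_an hj ξ).pow m).differentiableAt.hasFDerivAt⟩
  have h1 : HasFDerivAt (fun y => g' (j y) (fr R))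
      ((fderiv ℂ (fun w => g' w (fr R)) (j z)).comp (fderiv ℂ j z)) z :=
    hg'.differentiableAt.hasFDerivAt.comp z hj.differentiableAt.hasFDerivAt
  have h2 : fderiv ℂ (fun y => g y ξ) z = _ :=
    (Filter.EventuallyEq.fderiv_eq h).trans (hc'.smul h1).fderiv
  ext η
  rw [S.al_apply, h2, h0]
  simp only [_root_.smul_apply, ContinuousLinearMap.comp_apply, S.al_apply,
    _root_.add_apply, ContinuousLinearMap.smulRight_apply, map_add, map_smul, smul_add, smul_sub,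
    smul_smul, two_mul, pow_add]
  rw [mul_comm (c' η) ((Jd j z ξ) ^ m)]
  abel

/-- naturality under holomorphic maps to `ℂᴿ` -/
theorem TH.G_nat {r : ℕ} {Θ : V → V →L[ℂ] H}
    {Θ' : (Fin (r + 1) → ℂ) → (Fin (r + 1) → ℂ) →L[ℂ] H} {j : V → Fin (r + 1) → ℂ} {z₀ : V}
    (hj : AnalyticAt ℂ j z₀) (hΘ' : AnalyticAt ℂ Θ' (j z₀))
    (h : ∀ᶠ z in 𝓝 z₀, Θ z = (Θ' (j z)).comp (fderiv ℂ j z)) (k : ℕ) :
    ∀ᶠ z in 𝓝 z₀, ∀ ξ : Fin (r + 1) → V,
      S.G Θ k z ξ = (Jd j z ξ) ^ mu k • S.G Θ' k (j z) (fr (r + 1)) := by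
  have hs0 : ∀ z, Θ z = (Θ' (j z)).comp (fderiv ℂ j z) → ∀ ξ : Fin (r + 1) → V,
      S.s0 Θ z ξ = Jd j z ξ • S.s0 Θ' (j z) (fr (r + 1)) := by
    intro z hz ξ
    unfold TH.s0
    rw [hz]
    exact wdg_comp S (fun _ => (Θ' (j z) : (Fin (r + 1) → ℂ) →ₗ[ℂ] H))
      (fderiv ℂ j z : V →ₗ[ℂ] (Fin (r + 1) → ℂ)) ξ
  induction k with
  | zero =>
    filter_upwards [h] with z hz ξ
    rw [mu, pow_one]
    exact hs0 z hz ξ
  | succ k ih =>
    have ha : ∀ᶠ z in 𝓝 z₀, AnalyticAt ℂ (fun w => S.G Θ' k w (fr (r + 1))) (j z) :=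
      hj.continuousAt.eventually (g_an S hΘ' k (fr (r + 1))).eventually_analyticAt
    filter_upwards [h, ih.eventually_nhds, ha, hj.eventually_analyticAt] with z hz hk hza hjz ξ
    have h1 : S.G Θ k z ξ = _ := hk.self_of_nhds ξ
    have h3 := al_nat S (g := S.G Θ k) (g' := S.G Θ' k) (m := mu k) hjz hza
      (hk.mono fun y hy => hy ξ)
    have h4 : S.dv Θ (S.G Θ k) z ξ =
        (Jd j z ξ) ^ (2 * mu k + 1) • S.dv Θ' (S.G Θ' k) (j z) (fr (r + 1)) := by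
      unfold TH.dv
      rw [h3, hz, ContinuousLinearMap.toLinearMap_smul, S.wdg_cons_smul, pow_succ, mul_smul]
      congr 1
      have h5 := wdg_comp S (Fin.cons (S.al (S.G Θ' k) (j z) (fr (r + 1)) :
        (Fin (r + 1) → ℂ) →ₗ[ℂ] H) (fun _ => (Θ' (j z) : (Fin (r + 1) → ℂ) →ₗ[ℂ] H)))
        (fderiv ℂ j z : V →ₗ[ℂ] (Fin (r + 1) → ℂ)) ξ
      refine Eq.trans ?_ h5
      congr 2
      funext i
      refine Fin.cases rfl (fun i => rfl) i
    show S.nx Θ (S.G Θ k) z ξ = _ • S.nx Θ' (S.G Θ' k) (j z) (fr (r + 1))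
    unfold TH.nx
    rw [h4, h1, hs0 z hz ξ, mu, smul_add]
    simp only [map_smul, _root_.smul_apply, smul_smul]
    congr 2
    ring

end nat

end Vale.Agent.P284.H619
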