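import Vale.Agent.P284.H619.Nul1
import Vale.Agent.P284.H221.C6

/-!
# P284 (helper619), module NUL: the invariant finite dimensional subspace
-/

open scoped Manifold ContDiff Topology InnerProductSpace ComplexConjugate
open Filter Set Metric

noncomputable section

namespace Vale.Agent.P284.H619

open Vale.Agent.P272.K Vale.Agent.P284.H894.G Vale.Agent.P284.H894.V Vale.Agent.P284.H894.W
  Vale.Agent.P284.H213.Grp

section
variable {n q : ℕ} {X : Type} [TopologicalSpace X] [ChartedSpace (Cm n) X]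
  {E : Type} [TopologicalSpace E] {p : E → X} {F : E → Cm q}
  {t : Cm q} {W : Type} [NormedAddCommGroup W] [InnerProductSpace ℂ W]
  {Θ : E → Chart n X → (Cm n →L[ℂ] W)} {u : E → W}

/-- the image of the vertical vectors -/
def imV (p : E → X) (F : E → Cm q) (Θ : E → Chart n X → (Cm n →L[ℂ] W)) (y : E) (e : Chart n X) :
    Submodule ℂ W := (VS p F y e).map (Θ y e : Cm n →ₗ[ℂ] W)

instance (y : E) (e : Chart n X) : FiniteDimensional ℂ (imV p F Θ y e) :=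
  inferInstanceAs (FiniteDimensional ℂ ((VS p F y e).map (Θ y e : Cm n →ₗ[ℂ] W)))

/-- the rank on the vertical vectors -/
def vrk (p : E → X) (F : E → Cm q) (Θ : E → Chart n X → (Cm n →L[ℂ] W)) (y : E) (e : Chart n X) :
    ℕ := Module.finrank ℂ (imV p F Θ y e)

omit [ChartedSpace (Cm n) X] in
lemma vrk_le (y : E) (e : Chart n X) : vrk p F Θ y e ≤ n := by
  have h1 : vrk p F Θ y e ≤ Module.finrank ℂ (VS p F y e) := Submodule.finrank_map_le _ _
  have h2 : Module.finrank ℂ (VS p F y e) ≤ Module.finrank ℂ (Cm n) := Submodule.finrank_le _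
  rw [Module.finrank_fin_fun] at h2
  omega

lemma exists_max {y₀ : E} (hy₀ : F y₀ = t) : ∃ r, (∀ y (e : Chart n X), F y = t → At e (p y) →
    vrk p F Θ y e ≤ r) ∧ ∃ (y₁ : E) (e₁ : Chart n X), F y₁ = t ∧ At e₁ (p y₁) ∧
      vrk p F Θ y₁ e₁ = r := by
  set T : Set ℕ := {k | ∃ (y : E) (e : Chart n X), F y = t ∧ At e (p y) ∧ vrk p F Θ y e = k}
    with hT
  have hne : T.Nonempty := ⟨_, y₀, chartAt (Cm n) (p y₀), hy₀,
    ⟨chart_mem_atlas _ _, mem_chart_source _ _⟩, rfl⟩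
  have hbd : BddAbove T := ⟨n, by
    rintro k ⟨y, e, -, -, rfl⟩
    exact vrk_le y e⟩
  refine ⟨sSup T, fun y e h1 h2 => le_csSup hbd ⟨y, e, h1, h2, rfl⟩, ?_⟩
  obtain ⟨y, e, h1, h2, h3⟩ := Nat.sSup_mem hne hbd
  exact ⟨y, e, h1, h2, h3⟩

section
variable {H : Type} [NormedAddCommGroup H] [InnerProductSpace ℂ H] (S : TH H) (J : W →ₗᵢ[ℂ] H)

omit [ChartedSpace (Cm n) X] in
lemma vbad_iff {r : ℕ} {c : W} {y : E} {e : Chart n X} (hr : vrk p F Θ y e ≤ r) :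
    (∀ ξ : Fin r → Cm n, (∀ i, ξ i ∈ VS p F y e) →
      S.vw (r + 1) (Fin.cons (J c) (fun i => J (Θ y e (ξ i)))) = 0) ↔
      (vrk p F Θ y e = r → c ∈ imV p F Θ y e) := by
  set A : VS p F y e →ₗ[ℂ] H := (J.toLinearMap ∘ₗ (Θ y e : Cm n →ₗ[ℂ] W)) ∘ₗ (VS p F y e).subtype
    with hA
  have hrange : LinearMap.range A = (imV p F Θ y e).map J.toLinearMap := by
    rw [hA, LinearMap.comp_assoc, LinearMap.range_comp, LinearMap.range_comp,
      Submodule.range_subtype]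
    rfl
  have hfr : Module.finrank ℂ (LinearMap.range A) = vrk p F Θ y e := by
    rw [hrange]
    exact (LinearEquiv.finrank_eq (Submodule.equivMapOfInjective J.toLinearMap J.injective _)).symm
  have h := S.mem_range_iff (R := r) A (J c) (by rw [hfr]; exact hr)
  rw [hfr] at h
  constructor
  · intro h1 h2
    obtain ⟨v, hv⟩ := h.1 (fun ξ => h1 (fun i => (ξ i : Cm n)) fun i => (ξ i).2) h2
    exact ⟨v, v.2, J.injective hv⟩
  · intro h1 ξ hξ
    refine h.2 (fun h2 => ?_) (fun i => ⟨ξ i, hξ i⟩)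
    obtain ⟨v, hv, hvc⟩ := h1 h2
    exact ⟨⟨v, hv⟩, congrArg J hvc⟩

end

/-- the vectors in the image of the vertical vectors at all points of maximal rank -/
def NN (p : E → X) (F : E → Cm q) (Θ : E → Chart n X → (Cm n →L[ℂ] W)) (t : Cm q) (r : ℕ) :
    Submodule ℂ W :=
  ⨅ (y : E) (e : Chart n X) (_ : F y = t) (_ : At e (p y)) (_ : vrk p F Θ y e = r), imV p F Θ y e

lemma mem_NN {r : ℕ} {v : W} : v ∈ NN p F Θ t r ↔ ∀ (y : E) (e : Chart n X), F y = t →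
    At e (p y) → vrk p F Θ y e = r → v ∈ imV p F Θ y e := by
  simp only [NN, Submodule.mem_iInf]

/-- a vector in the image near a point is in the image at all points of maximal rank -/
theorem mem_NN_of [CompleteSpace W] [IsManifold 𝓘(ℂ, Cm n) ω X] (hp : IsCoveringMap p)
    (hF : HolE n p F) (hc : IsPreconnected (F ⁻¹' {t}))
    (hreg : ∀ y, F y = t → Reg (n := n) p F y) (hΘ : VPot p F t W Θ u) {r : ℕ}
    (hr : ∀ y (e : Chart n X), F y = t → At e (p y) → vrk p F Θ y e ≤ r) {y₀ : E}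
    (hy₀ : F y₀ = t) {v : W}
    (h : ∀ᶠ y in 𝓝 y₀, F y = t → ∃ e, At e (p y) ∧ ∃ ξ ∈ VS p F y e, Θ y e ξ = v) :
    v ∈ NN p F Θ t r := by
  obtain ⟨H, iH1, iH2, iH3, S, ⟨J⟩⟩ := exists_TH W
  have h0 : ∀ᶠ y in 𝓝 y₀, F y = t → VBad S J p F Θ r v y := by
    filter_upwards [h] with y h1 h2
    obtain ⟨e, he, ξ, hξ, hv⟩ := h1 h2
    exact vbad_of S J hp hF hΘ h2 he
      ((vbad_iff S J (hr y e h2 he)).2 fun _ => ⟨ξ, hξ, hv⟩)
  have hall := vbad_all S J hp hF hc hreg hΘ hy₀ h0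
  rw [mem_NN]
  intro y e hy he hrk
  exact (vbad_iff S J (hr y e hy he)).1 (hall y hy e he) hrk

section inv
variable {Γ : Type} [Group Γ] [MulAction Γ E] {K : Subgroup Γ} {π : Γ →* (W ≃ₗᵢ[ℂ] W)}

omit [ChartedSpace (Cm n) X] in
lemma VS_smul (hG : IsGalois Γ p) {k : Γ} (hk : ∀ y, F (k • y) = F y) (y : E) (e : Chart n X) :
    VS p F (k • y) e = VS p F y e := by
  have hpk : ∀ y' : E, p (k • y') = p y' := fun y' => ((hG.orb y' (k • y')).2 ⟨k, rfl⟩).symm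
  have hiff : ∀ f : Cm n → Cm q, (∀ᶠ y' in 𝓝 (k • y), F y' = f (e (p y'))) ↔
      ∀ᶠ y' in 𝓝 y, F y' = f (e (p y')) := by
    intro f
    constructor
    · intro h
      filter_upwards [((hG.cont k).tendsto y).eventually h] with y' h1
      rwa [hk, hpk] at h1
    · intro h
      have hc : Tendsto (fun y'' : E => k⁻¹ • y'') (𝓝 (k • y)) (𝓝 y) := by
        have := (hG.cont k⁻¹).tendsto (k • y)
        rwa [inv_smul_smul] at this
      filter_upwards [hc.eventually h] with y' h1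
      have h2 := hk (k⁻¹ • y')
      have h3 := hpk (k⁻¹ • y')
      rw [smul_inv_smul] at h2 h3
      rw [h2, h3, h1]
  ext ξ
  show (∀ f, _ → _) ↔ (∀ f, _ → _)
  constructor
  · intro h f hf
    have := h f ((hiff f).2 hf)
    rwa [hpk] at this
  · intro h f hf
    rw [hpk]
    exact h f ((hiff f).1 hf)

lemma imV_smul (hG : IsGalois Γ p) (hF0 : ∀ k ∈ K, ∀ y, F (k • y) = F y)
    (hE : VEqui p F t K π Θ u) {k : Γ} (hk : k ∈ K) {y : E} (hy : F y = t) {e : Chart n X}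
    (he : At e (p y)) : imV p F Θ (k • y) e = (imV p F Θ y e).map ((π k).toLinearEquiv : W →ₗ[ℂ] W) := by
  ext w
  simp only [imV, Submodule.mem_map, VS_smul hG (hF0 k hk)]
  constructor
  · rintro ⟨ξ, hξ, rfl⟩
    exact ⟨_, ⟨ξ, hξ, rfl⟩, (hE.form k hk y e hy he ξ hξ).symm⟩
  · rintro ⟨_, ⟨ξ, hξ, rfl⟩, rfl⟩
    exact ⟨ξ, hξ, hE.form k hk y e hy he ξ hξ⟩

lemma vrk_smul (hG : IsGalois Γ p) (hF0 : ∀ k ∈ K, ∀ y, F (k • y) = F y)
    (hE : VEqui p F t K π Θ u) {k : Γ} (hk : k ∈ K) {y : E} (hy : F y = t) {e : Chart n X}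
    (he : At e (p y)) : vrk p F Θ (k • y) e = vrk p F Θ y e := by
  unfold vrk
  rw [imV_smul hG hF0 hE hk hy he]
  exact LinearEquiv.finrank_map_eq (π k).toLinearEquiv _

lemma NN_smul (hG : IsGalois Γ p) (hF0 : ∀ k ∈ K, ∀ y, F (k • y) = F y)
    (hE : VEqui p F t K π Θ u) {r : ℕ} {k : Γ} (hk : k ∈ K) {v : W} (hv : v ∈ NN p F Θ t r) :
    π k v ∈ NN p F Θ t r := by
  rw [mem_NN] at hv ⊢
  intro y e hy he hrk
  have hk' := K.inv_mem hk
  have hy' : F (k⁻¹ • y) = t := by rw [hF0 _ hk', hy]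
  have hpy : p (k⁻¹ • y) = p y := ((hG.orb y (k⁻¹ • y)).2 ⟨k⁻¹, rfl⟩).symm
  have he' : At e (p (k⁻¹ • y)) := by rw [hpy]; exact he
  have h1 := hv (k⁻¹ • y) e hy' he' (by rw [vrk_smul hG hF0 hE hk' hy he, hrk])
  have h2 := imV_smul hG hF0 hE hk hy' he'
  rw [smul_inv_smul] at h2
  rw [h2]
  exact ⟨v, h1, rfl⟩

end inv

end

end Vale.Agent.P284.H619
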