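import Vale.Agent.P284.H619.Nul2
import Mathlib.Analysis.Complex.AbsMax

/-!
# P284 (helper619), module NUL: cocompactness on the fibre, maximum principle, conclusion
-/

open scoped Manifold ContDiff Topology InnerProductSpace ComplexConjugate Pointwise
open Filter Set Metric

noncomputable section

namespace Vale.Agent.P284.H619

open Vale.Agent.P272.K Vale.Agent.P284.H894.G Vale.Agent.P284.H894.V Vale.Agent.P284.H894.W
  Vale.Agent.P284.H213.Grp

section
variable {n q : ℕ} {X : Type} [TopologicalSpace X] [ChartedSpace (Cm n) X]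
  {E : Type} [TopologicalSpace E] {p : E → X} {F : E → Cm q} {Γ : Type} [Group Γ] [MulAction Γ E]

/-- a compact set whose translates cover `E` -/
theorem exists_compact [CompactSpace X] [T2Space X] (n : ℕ) [ChartedSpace (Cm n) X]
    (hG : IsGalois Γ p) :
    ∃ D : Set E, IsCompact D ∧ ∀ y : E, ∃ g : Γ, g • y ∈ D := by
  have : LocallyCompactSpace X := ChartedSpace.locallyCompactSpace (Cm n) X
  have h1 : ∀ x : X, ∃ D : Set E, IsCompact D ∧ p '' D ∈ 𝓝 x := by
    intro x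
    obtain ⟨y, rfl⟩ := hG.surj x
    obtain ⟨φ, hy, hφ⟩ := hG.cov.isLocalHomeomorph y
    have h2 : φ.target ∈ 𝓝 (p y) := φ.open_target.mem_nhds (by rw [hφ]; exact φ.map_source hy)
    obtain ⟨D, hD1, hD2, hD3⟩ := local_compact_nhds h2
    refine ⟨φ.symm '' D, hD3.image_of_continuousOn (φ.continuousOn_symm.mono hD2), ?_⟩
    have h3 : p '' (φ.symm '' D) = D := by
      rw [image_image]
      refine (image_congr fun x hx => ?_).trans (image_id D)
      rw [hφ]
      exact φ.right_inv (hD2 hx)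
    rw [h3]
    exact hD1
  choose D hD1 hD2 using h1
  obtain ⟨s, -, hs⟩ := isCompact_univ.elim_nhds_subcover (fun x => p '' D x) fun x _ => hD2 x
  refine ⟨⋃ x ∈ s, D x, s.isCompact_biUnion fun x _ => hD1 x, fun y => ?_⟩
  obtain ⟨x, hx, z, hz, hzy⟩ := mem_iUnion₂.1 (hs (mem_univ (p y)))
  obtain ⟨g, hg⟩ := (hG.orb y z).1 hzy.symm
  exact ⟨g, mem_iUnion₂.2 ⟨x, hx, by rw [hg]; exact hz⟩⟩

lemma HolE.continuous (hp : IsCoveringMap p) (hF : HolE n p F) : Continuous F := by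
  rw [continuous_iff_continuousAt]
  intro y
  have he : At (chartAt (Cm n) (p y)) (p y) := ⟨chart_mem_atlas _ _, mem_chart_source _ _⟩
  obtain ⟨f, h1, h2⟩ := hF y _ he
  have h3 : ContinuousAt (fun y' => f (chartAt (Cm n) (p y) (p y'))) y :=
    ContinuousAt.comp (f := fun y' => chartAt (Cm n) (p y) (p y')) h2.continuousAt
      (tendsto_ep hp he)
  exact h3.congr (h1.mono fun _ h => h.symm)

/-- `K'` acts cocompactly on the fibre -/
theorem exists_compact_fib [CompactSpace X] [T2Space X] (hG : IsGalois Γ p) (hF : HolE n p F)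
    {c : Γ → Cm q} (hc : ∀ g y, F (g • y) = F y + c g) {K : Subgroup Γ} (hN : NPkg Γ q c K)
    {K' : Subgroup Γ} (hfi : (K'.subgroupOf K).FiniteIndex) (t : Cm q) :
    ∃ D : Set E, IsCompact D ∧ ∀ y : E, F y = t → ∃ k ∈ K', k • y ∈ D := by
  obtain ⟨D, hD, hcov⟩ := exists_compact n hG
  obtain ⟨M, hM⟩ := (hD.image (hF.continuous hG.cov)).isBounded.exists_norm_le
  have hlat := hN.lat
  have hcone : c 1 = 0 := by
    have := hlat.add 1 1
    rw [mul_one] at this
    simpa using this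
  -- finitely many values
  have hfin := hlat.disc (M + ‖t‖)
  obtain ⟨A, hA, hAcov⟩ := hN.fi
  have : Finite (K ⧸ K'.subgroupOf K) := Subgroup.finite_quotient_of_finiteIndex
  set V : Set (Cm q) := {v | (∃ g, c g = v) ∧ ‖v‖ ≤ M + ‖t‖} with hV
  have hch : ∀ v : Cm q, ∃ g : Γ, v ∈ V → c g = v := by
    intro v
    by_cases h : v ∈ V
    · obtain ⟨g, hg⟩ := h.1
      exact ⟨g, fun _ => hg⟩
    · exact ⟨1, fun h' => absurd h' h⟩
  choose gv hgv using hch
  -- finite set of multipliers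
  set R : Set Γ := (fun x : (Cm q × Γ) × (K ⧸ K'.subgroupOf K) =>
    (gv x.1.1 * x.1.2 * (x.2.out : Γ))⁻¹) '' ((V ×ˢ A) ×ˢ univ) with hR
  have hRfin : R.Finite := ((hfin.prod hA).prod finite_univ).image _
  refine ⟨⋃ g ∈ R, (fun y => g • y) '' D, hRfin.isCompact_biUnion fun g _ =>
    hD.image (hG.cont g), fun y hy => ?_⟩
  obtain ⟨g, hg⟩ := hcov y
  have h1 : c g ∈ V := by
    refine ⟨⟨g, rfl⟩, ?_⟩
    have h2 := hM (F (g • y)) ⟨_, hg, rfl⟩
    have h3 : c g = F (g • y) - t := by rw [hc, hy]; abel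
    rw [h3]
    exact (norm_sub_le _ _).trans (by linarith)
  have h2 : c ((gv (c g))⁻¹ * g) = 0 := by
    have h3 := hlat.add (gv (c g)) ((gv (c g))⁻¹ * g)
    rw [mul_inv_cancel_left, hgv _ h1] at h3
    simpa using h3
  obtain ⟨a, ha, hak⟩ := hAcov _ h2
  set κ : K := ⟨a⁻¹ * ((gv (c g))⁻¹ * g), hak⟩ with hκ
  set b : K ⧸ K'.subgroupOf K := QuotientGroup.mk κ with hb
  have h3 : (b.out)⁻¹ * κ ∈ K'.subgroupOf K := by
    rw [← QuotientGroup.eq]
    exact b.out_eq'
  have h4 : ((b.out : K) : Γ)⁻¹ * (a⁻¹ * ((gv (c g))⁻¹ * g)) ∈ K' := h3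
  refine ⟨_, h4, ?_⟩
  refine mem_iUnion₂.2 ⟨(gv (c g) * a * (b.out : Γ))⁻¹, ⟨((c g, a), b), ⟨⟨h1, ha⟩, mem_univ _⟩, rfl⟩,
    g • y, hg, ?_⟩
  show (gv (c g) * a * (b.out : Γ))⁻¹ • g • y = _
  rw [smul_smul]
  congr 1
  group

end

end Vale.Agent.P284.H619
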