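import Mathlib.Analysis.Analytic.Inverse
import Mathlib.Analysis.Calculus.InverseFunctionTheorem.FDeriv
import Mathlib.Analysis.Calculus.InverseFunctionTheorem.Analytic
import Mathlib.Analysis.Analytic.Constructions
import Mathlib.Analysis.Complex.Basic
import Mathlib.LinearAlgebra.Basis.VectorSpace
import Mathlib.Topology.Algebra.Module.FiniteDimension

/-!
# P284 (helper619), module NUL: local parametrisation of a regular fibre
-/

open scoped Topology
open Filter Set Metric

noncomputable section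

namespace Vale.Agent.P284.H619

variable {V : Type*} [NormedAddCommGroup V] [NormedSpace ℂ V] [FiniteDimensional ℂ V]

/-- Parametrisation of the fibre of `f` through a regular point `z₀`. -/
theorem exists_par {q : ℕ} {f : V → Fin q → ℂ} {z₀ : V} (hf : AnalyticAt ℂ f z₀)
    (hs : Function.Surjective (fderiv ℂ f z₀)) :
    ∃ (ψ φ : V → V), AnalyticAt ℂ ψ 0 ∧ AnalyticAt ℂ φ z₀ ∧ ψ 0 = z₀ ∧ φ z₀ = 0 ∧
      (∀ᶠ u in 𝓝 (0 : V), f (ψ u) = f z₀) ∧
      ∀ᶠ z in 𝓝 z₀, f z = f z₀ → ψ (φ z) = z ∧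
        ∀ ξ, fderiv ℂ f z ξ = 0 → fderiv ℂ ψ (φ z) (fderiv ℂ φ z ξ) = ξ := by
  have : CompleteSpace V := FiniteDimensional.complete ℂ V
  set L : V →L[ℂ] (Fin q → ℂ) := fderiv ℂ f z₀ with hL
  obtain ⟨s₀, hs₀⟩ := LinearMap.exists_rightInverse_of_surjective (L : V →ₗ[ℂ] (Fin q → ℂ))
    (LinearMap.range_eq_top.2 hs)
  set s : (Fin q → ℂ) →L[ℂ] V := LinearMap.toContinuousLinearMap s₀ with hsdef
  have hLs : ∀ w, L (s w) = w := fun w => LinearMap.congr_fun hs₀ w
  set φ : V → V := fun z => (z - z₀) - s (L (z - z₀)) + s (f z - f z₀) with hφ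
  have hφan : AnalyticAt ℂ φ z₀ := by
    have e1 : AnalyticAt ℂ (fun z : V => z - z₀) z₀ := analyticAt_id.sub analyticAt_const
    exact (e1.sub (((s.comp L).analyticAt _).comp e1)).add
      ((s.analyticAt _).comp (hf.sub analyticAt_const))
  have hφd : HasFDerivAt φ (ContinuousLinearMap.id ℂ V) z₀ := by
    have e1 : HasFDerivAt (fun z : V => z - z₀) (ContinuousLinearMap.id ℂ V) z₀ :=
      (hasFDerivAt_id z₀).sub_const z₀
    have e2 : HasFDerivAt f L z₀ := hf.differentiableAt.hasFDerivAt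
    have e3 := (e1.sub ((s.comp L).hasFDerivAt.comp z₀ e1)).add
      (s.hasFDerivAt.comp z₀ (e2.sub_const (f z₀)))
    refine e3.congr_fderiv ?_
    ext v
    simp
  have hφs : HasStrictFDerivAt φ ((ContinuousLinearEquiv.refl ℂ V : V ≃L[ℂ] V) : V →L[ℂ] V) z₀ := by
    have := hφan.hasStrictFDerivAt
    rw [hφd.fderiv] at this
    exact this
  have hφ0 : φ z₀ = 0 := by simp [hφ]
  have hLφ : ∀ z, L (φ z) = f z - f z₀ := by
    intro z
    simp only [hφ, map_add, map_sub, hLs]
    abel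
  set Φ := hφs.toOpenPartialHomeomorph φ with hΦ
  have hΦc : ∀ z, Φ z = φ z := fun z => rfl
  have hzs : z₀ ∈ Φ.source := hφs.mem_toOpenPartialHomeomorph_source
  have h0t : (0 : V) ∈ Φ.target := by
    have := Φ.map_source hzs
    rwa [hΦc, hφ0] at this
  set χ := Φ.symm with hχ
  have hχan : AnalyticAt ℂ χ 0 := by
    have := Φ.analyticAt_symm' (i := ContinuousLinearEquiv.refl ℂ V) hzs hφan hφd.fderiv
    rwa [hΦc, hφ0] at this
  have hχ0 : χ 0 = z₀ := by
    have := Φ.left_inv hzs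
    rwa [hΦc, hφ0] at this
  have hfχ : ∀ u ∈ Φ.target, f (χ u) = f z₀ + L u := by
    intro u hu
    have e1 := hLφ (χ u)
    have e2 : φ (χ u) = u := Φ.right_inv hu
    rw [e2] at e1
    rw [e1]; abel
  -- the projection to the kernel
  set P : V →L[ℂ] V := ContinuousLinearMap.id ℂ V - s.comp L with hP
  have hPu : ∀ u, P u = u - s (L u) := fun u => rfl
  have hLP : ∀ u, L (P u) = 0 := fun u => by rw [hPu, map_sub, hLs, sub_self]
  have hPk : ∀ u, L u = 0 → P u = u := fun u hu => by rw [hPu, hu, map_zero, sub_zero]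
  have hψan : AnalyticAt ℂ (fun u => χ (P u)) 0 :=
    AnalyticAt.fun_comp (by rw [map_zero]; exact hχan) (P.analyticAt 0)
  have hPt : Tendsto P (𝓝 0) (𝓝 0) := by
    have := P.continuous.tendsto 0
    rwa [map_zero] at this
  refine ⟨fun u => χ (P u), φ, hψan, hφan, ?_, hφ0, ?_, ?_⟩
  · show χ (P 0) = z₀
    rw [map_zero, hχ0]
  · filter_upwards [hPt.eventually (Φ.open_target.mem_nhds h0t)] with u hu
    rw [hfχ _ hu, hLP, add_zero]
  · have hφt : Tendsto φ (𝓝 z₀) (𝓝 0) := by
      have := hφan.continuousAt.tendsto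
      rwa [hφ0] at this
    filter_upwards [Φ.open_source.mem_nhds hzs, hφan.eventually_analyticAt,
      hφt.eventually hχan.eventually_analyticAt, hf.eventually_analyticAt] with z h1 h2 h3 h4 h5
    have h6 : L (φ z) = 0 := by rw [hLφ, h5, sub_self]
    have h7 : P (φ z) = φ z := hPk _ h6
    have h8 : χ (φ z) = z := Φ.left_inv h1
    refine ⟨by show χ (P (φ z)) = z; rw [h7, h8], fun ξ hξ => ?_⟩
    have e1 : HasFDerivAt (fun u => χ (P u)) ((fderiv ℂ χ (φ z)).comp P) (φ z) := by
      have : HasFDerivAt χ (fderiv ℂ χ (φ z)) (P (φ z)) := by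
        rw [h7]; exact h3.differentiableAt.hasFDerivAt
      exact this.comp (φ z) P.hasFDerivAt
    have e2 : L (fderiv ℂ φ z ξ) = 0 := by
      have e3 : HasFDerivAt (fun z => L (φ z)) (L.comp (fderiv ℂ φ z)) z :=
        L.hasFDerivAt.comp z h2.differentiableAt.hasFDerivAt
      have e4 : HasFDerivAt (fun z => L (φ z)) (fderiv ℂ f z) z := by
        have : (fun z => L (φ z)) = fun z => f z - f z₀ := funext hLφ
        rw [this]
        exact h4.differentiableAt.hasFDerivAt.sub_const _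
      have e5 := DFunLike.congr_fun (e3.unique e4) ξ
      rw [ContinuousLinearMap.comp_apply] at e5
      rw [e5, hξ]
    have e6 : HasFDerivAt (fun z => χ (φ z)) ((fderiv ℂ χ (φ z)).comp (fderiv ℂ φ z)) z :=
      h3.differentiableAt.hasFDerivAt.comp z h2.differentiableAt.hasFDerivAt
    have e7 : HasFDerivAt (fun z => χ (φ z)) (ContinuousLinearMap.id ℂ V) z := by
      refine (hasFDerivAt_id z).congr_of_eventuallyEq ?_
      filter_upwards [Φ.open_source.mem_nhds h1] with y hy using Φ.left_inv hy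
    have e8 := DFunLike.congr_fun (e6.unique e7) ξ
    rw [ContinuousLinearMap.comp_apply] at e8
    rw [e1.fderiv, ContinuousLinearMap.comp_apply, hPk _ e2, e8]
    rfl

end Vale.Agent.P284.H619
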