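import Vale.Agent.P284.H619.PotV
import Vale.Agent.P284.H625.NS.LocForm
import Vale.Agent.P284.H501.Alg2
import Vale.Agent.P284.H501.An
import Vale.Agent.P284.H551.LE
import Vale.Agent.P284.H366.SF

/-!
# P284 (helper619), module POT: the local data from a converging sequence of forms
-/

open scoped Manifold ContDiff Topology ComplexConjugate
open MeasureTheory Set Filter Metric

noncomputable section

set_option linter.unusedSectionVars false

namespace Vale.Agent.P284.H619.Pot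

open Vale.Agent.P272.K Vale.Agent.P284.H366 Vale.Agent.P284.H513.V Vale.Agent.P284.H894
  Vale.Agent.P284.H894.G
  Vale.Agent.P284.H894.V Vale.Agent.P284.H501 Vale.Agent.P284.H551

variable {n q : ℕ} {H : ℕ → Type} [∀ k, NormedAddCommGroup (H k)]
  [∀ k, InnerProductSpace ℂ (H k)] [∀ k, CompleteSpace (H k)] {U : Ultrafilter ℕ} {c : Cm n}
  {R r δ : ℝ} {η Θ : Cm n → ℝ}

/-- **The local data on a piece, general form.** `ψ k` is a sequence of `(q+1,0)` forms,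
`ψ k (u, v) = dL(u) ∂φ_k(v)` for vertical `v`, and `s` is its limit. -/
theorem pieceV {ψ : ∀ k, Cm n → (Cm n [⋀^Fin (q + 1)]→ₗ[ℂ] H k)} (h : FSeq U c R ψ)
    (m : Mol δ η Θ) (hδ : 0 ≤ δ) (hR : r + δ ≤ R) {z₀ : Cm n} (hz₀ : z₀ ∈ ball c r)
    {s : Cm n → Cm n [⋀^Fin (q + 1)]→L[ℂ] UP H U} (hs : s =ᶠ[𝓝 z₀] SF U η ψ)
    (hcl : ∀ᶠ z in 𝓝 z₀, extDeriv s z = 0)
    {Fz : Cm n → Cm q} (hF : AnalyticAt ℂ Fz z₀) (hsu : Function.Surjective (fderiv ℂ Fz z₀))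
    (hrel : ∀ᶠ z in 𝓝 z₀, ∀ (ξ : Fin (q + 1) → Cm n) (i j : Fin (q + 1)), i ≠ j →
      fderiv ℂ Fz z (ξ i) = 0 → fderiv ℂ Fz z (ξ j) = 0 → s z ξ = 0)
    {φ : ∀ k, Cm n → H k} (hφ : ∀ᶠ z in 𝓝 z₀, ∀ k (u : Fin q → Cm n) (v : Cm n),
      fderiv ℂ Fz z v = 0 → ψ k z (Fin.snoc (α := fun _ => Cm n) u v) =
        dL (fderiv ℂ Fz z) u • DH (φ k) z v) :
    ∃ G : Cm n → UP H U, AnalyticAt ℂ G z₀ ∧
      (∀ᶠ z in 𝓝 z₀, IsW (fderiv ℂ Fz z) (s z) (fderiv ℂ G z)) ∧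
      ∀ V : Cm n → Cm n, AnalyticAt ℂ V z₀ → (∀ᶠ z in 𝓝 z₀, fderiv ℂ Fz z (V z) = 0) →
        ∃ α : ∀ k, Cm n → H k, Appr U z₀ α (fun k z => DH (φ k) z (V z)) ∧
          ∀ᶠ z in 𝓝 z₀, H366.mk U (fun k => α k z) = fderiv ℂ G z (V z) := by
  obtain ⟨J, hJ⟩ := dL_ne hsu
  set u : Fin q → Cm n := fun i => Pi.single (J i) 1 with hu
  have han : AnalyticAt ℂ (fun z => dL (fderiv ℂ Fz z) u) z₀ := an_dL hF.fderiv u
  have hne : ∀ᶠ z in 𝓝 z₀, dL (fderiv ℂ Fz z) u ≠ 0 := han.continuousAt.eventually_ne hJ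
  have hQ : ∀ᶠ z in 𝓝 z₀, z ∈ ball c r := isOpen_ball.mem_nhds hz₀
  have hsan : AnalyticAt ℂ s z₀ := (SF_analyticAt h m hR hz₀).congr hs.symm
  -- the primitive
  obtain ⟨G, hG, hGW⟩ := H625.rel_poincare (s := s) hF hsan hcl hrel hsu
  refine ⟨G, hG, hGW, fun V hV hVv => ?_⟩
  -- the approximation
  set ξ : Fin (q + 1) → Cm n → Cm n := fun i z =>
    (Fin.snoc (α := fun _ => Cm n) u (V z) : Fin (q + 1) → Cm n) i with hξ
  have hξan : ∀ i, AnalyticAt ℂ (ξ i) z₀ := by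
    intro i
    refine Fin.lastCases ?_ (fun j => ?_) i
    · have : ξ (Fin.last q) = V := by
        funext z
        exact Fin.snoc_last (α := fun _ => Cm n) _ _
      rw [this]
      exact hV
    · have : ξ j.castSucc = fun _ => u j := by
        funext z
        exact Fin.snoc_castSucc (α := fun _ => Cm n) _ _ _
      rw [this]
      exact analyticAt_const
  set c' : (Fin (q + 1) → Fin n) → Cm n → ℂ := fun I z =>
    (dL (fderiv ℂ Fz z) u)⁻¹ * cJ (fun i => ξ i z) I with hc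
  have hcan : ∀ I, AnalyticAt ℂ (c' I) z₀ := fun I => (han.inv hJ).mul (an_cJ hξan I)
  set α : ∀ k, Cm n → H k := fun k z => ∑ I : Fin (q + 1) → Fin n,
    c' I z • H513.V.mv η (fun y => ψ k y (eJ I)) z with hα
  have hap := slim_comb h m hδ hR (z := z₀) hz₀ Finset.univ c' eJ
    fun I _ => ((hcan I).contDiffAt.restrict_scalars ℝ : ContDiffAt ℝ 1 (c' I) z₀)
  refine ⟨α, hap.congr (Eventually.of_forall fun _ _ => rfl) ?_, ?_⟩
  · filter_upwards [hφ, hne, hVv] with z g2 g3 g4 k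
    have k1 := g2 k u (V z) g4
    rw [← expandA (ψ k z)] at k1
    have k2 : ∑ I : Fin (q + 1) → Fin n, c' I z • ψ k z (eJ I) =
        (dL (fderiv ℂ Fz z) u)⁻¹ • ∑ I : Fin (q + 1) → Fin n,
          cJ (Fin.snoc (α := fun _ => Cm n) u (V z)) I • ψ k z (eJ I) := by
      rw [Finset.smul_sum]
      exact Finset.sum_congr rfl fun I _ => mul_smul _ _ _
    rw [k2, k1, smul_smul, inv_mul_cancel₀ g3, one_smul]
  · filter_upwards [hQ, hne, hVv, hGW, hs] with z g1 g3 g4 g5 g6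
    have k1 := mk_comb h m hδ hR (z := z) g1 Finset.univ (fun I => c' I z) eJ
    have k2 : H366.mk U (fun k => α k z) = ∑ I : Fin (q + 1) → Fin n,
        c' I z • s z (eJ I) := by
      rw [k1]
      refine Finset.sum_congr rfl fun I _ => ?_
      rw [g6, SF_apply h m hδ hR g1]
    have k3 : ∑ I : Fin (q + 1) → Fin n, c' I z • s z (eJ I) =
        (dL (fderiv ℂ Fz z) u)⁻¹ • ∑ I : Fin (q + 1) → Fin n,
          cJ (Fin.snoc (α := fun _ => Cm n) u (V z)) I • s z (eJ I) := by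
      rw [Finset.smul_sum]
      exact Finset.sum_congr rfl fun I _ => mul_smul _ _ _
    rw [k2, k3, expandL, g5.snoc u g4, smul_smul, inv_mul_cancel₀ g3, one_smul]

end Vale.Agent.P284.H619.Pot
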