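import Vale.Agent.P284.H366.LS2

/-!
# P284 (helper619), module POT: averages and compositions of approximations
-/

open scoped ContDiff Topology ComplexConjugate
open MeasureTheory Set Filter Metric

noncomputable section

set_option linter.unusedSectionVars false

namespace Vale.Agent.P284.H619.Pot

open Vale.Agent.P272.K Vale.Agent.P284.H366

variable {n : ℕ} {H : ℕ → Type} [∀ k, NormedAddCommGroup (H k)] [∀ k, InnerProductSpace ℂ (H k)]
  {U : Ultrafilter ℕ}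

lemma near {z₀ : Cm n} {v φ : ∀ k, Cm n → H k} (h : Appr U z₀ v φ) :
    ∀ᶠ z in 𝓝 z₀, Appr U z v φ := by
  obtain ⟨ρ, C, h⟩ := h
  filter_upwards [ball_mem_nhds z₀ h.pos] with z hz
  obtain ⟨r, hr, hb⟩ := Metric.isOpen_iff.1 isOpen_ball z hz
  refine ⟨r, C, hr, h.nn, fun k x hx => h.bd k x (hb hx), fun k x hx x' hx' =>
    h.lip k x (hb hx) x' (hb hx'), fun k => (h.cont k).mono hb, fun k => (h.int k).mono_set hb, ?_⟩
  refine squeeze_zero (fun k => integral_nonneg fun z => sq_nonneg _) (fun k => ?_) h.lim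
  exact setIntegral_mono_set (h.int k) (Eventually.of_forall fun z => sq_nonneg _) hb.eventuallyLE

lemma int_sq {T : Type} [MeasurableSpace T] {μ : Measure T} [IsFiniteMeasure μ] {g : T → ℝ}
    (hg : Integrable (fun x => g x ^ 2) μ) (hg1 : Integrable g μ) :
    (∫ x, g x ∂μ) ^ 2 ≤ μ.real univ * ∫ x, g x ^ 2 ∂μ := by
  have h := cs2 (μ := μ) (f := fun _ => 1) (g := g) (by simp) hg (by simpa using hg1)
  simpa using h

lemma io {T G : Type} [MeasurableSpace T] [NormedAddCommGroup G] {μ : Measure T} {s : Set T}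
    (hs : μ s < ⊤) {f : T → G} (hf : AEStronglyMeasurable f (μ.restrict s)) (B : ℝ)
    (h : ∀ᵐ x ∂(μ.restrict s), ‖f x‖ ≤ B) : IntegrableOn f s μ := by
  have : IsFiniteMeasure (μ.restrict s) := ⟨by simpa using hs⟩
  exact Integrable.of_bound hf B h

/-- **averages of translates** -/
theorem avg [∀ k, CompleteSpace (H k)] {T : Type} [TopologicalSpace T]
    [SecondCountableTopology T] [MeasurableSpace T] [BorelSpace T] (ν : Measure T) [SFinite ν]
    {K₀ : Set T} (hK : IsCompact K₀) (hKm : MeasurableSet K₀) (hKν : ν K₀ < ⊤) {h : T → Cm n}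
    (hh : Continuous h) {m : Cm n → T → ℝ} (hm : Continuous (Function.uncurry m)) {z₀ : Cm n}
    {M δ ρ ρ' C : ℝ}
    (hM : 0 ≤ M) (hb : ∀ x ∈ ball z₀ ρ', ∀ τ ∈ K₀, |m x τ| ≤ M)
    (hl : ∀ x ∈ ball z₀ ρ', ∀ x' ∈ ball z₀ ρ', ∀ τ ∈ K₀, |m x τ - m x' τ| ≤ M * ‖x - x'‖)
    (hδ : ∀ τ ∈ K₀, ‖h τ‖ ≤ δ) (hρ0 : 0 < ρ') (hρ : ρ' + δ < ρ) {a φ : ∀ k, Cm n → H k}
    (hA : ApprOn U z₀ a φ ρ C) :
    ApprOn U z₀ (fun k x => ∫ τ in K₀, m x τ • a k (x + h τ) ∂ν)
      (fun k x => ∫ τ in K₀, m x τ • φ k (x + h τ) ∂ν) ρ' (2 * M * C * ν.real K₀) := by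
  have hfin : IsFiniteMeasure (ν.restrict K₀) := ⟨by simpa using hKν⟩
  have hin : ∀ x ∈ closedBall z₀ ρ', ∀ τ ∈ K₀, x + h τ ∈ closedBall z₀ (ρ' + δ) := by
    intro x hx τ hτ
    rw [mem_closedBall, dist_eq_norm] at hx ⊢
    calc ‖x + h τ - z₀‖ = ‖(x - z₀) + h τ‖ := by congr 1; abel
      _ ≤ ‖x - z₀‖ + ‖h τ‖ := norm_add_le _ _
      _ ≤ ρ' + δ := add_le_add hx (hδ τ hτ)
  have hcb : closedBall z₀ (ρ' + δ) ⊆ ball z₀ ρ := closedBall_subset_ball hρ
  have hbc : ball z₀ ρ' ⊆ closedBall z₀ ρ' := ball_subset_closedBall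
  -- joint continuity
  have cj : ∀ {G : Type} [NormedAddCommGroup G] [NormedSpace ℝ G] (g : Cm n → G),
      ContinuousOn g (ball z₀ ρ) →
      ContinuousOn (fun q : Cm n × T => m q.1 q.2 • g (q.1 + h q.2)) (closedBall z₀ ρ' ×ˢ K₀) := by
    intro G _ _ g hg
    refine (hm.comp continuous_id).continuousOn.smul (hg.comp ?_ ?_)
    · exact (continuous_fst.add (hh.comp continuous_snd)).continuousOn
    · rintro ⟨x, τ⟩ ⟨hx, hτ⟩
      exact hcb (hin x hx τ hτ)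
  have cx : ∀ {G : Type} [NormedAddCommGroup G] [NormedSpace ℝ G] (g : Cm n → G),
      ContinuousOn g (ball z₀ ρ) → ∀ x ∈ closedBall z₀ ρ',
      IntegrableOn (fun τ => m x τ • g (x + h τ)) K₀ ν := by
    intro G _ _ g hg x hx
    have c1 : ContinuousOn (fun τ => m x τ • g (x + h τ)) K₀ :=
      (cj g hg).comp (f := fun τ => (x, τ)) (by fun_prop) fun τ hτ => ⟨hx, hτ⟩
    obtain ⟨B, hB⟩ := hK.exists_bound_of_continuousOn c1
    exact io hKν (c1.aestronglyMeasurable hKm) B ((ae_restrict_mem hKm).mono hB)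
  -- continuity of the averages
  have cc : ∀ k, ContinuousOn (fun x => ∫ τ in K₀, m x τ • φ k (x + h τ) ∂ν) (ball z₀ ρ') := by
    intro k
    obtain ⟨B, hB⟩ := (isCompact_closedBall z₀ (ρ' + δ)).exists_bound_of_continuousOn
      ((hA.cont k).mono hcb)
    refine continuousOn_of_dominated (bound := fun _ => M * |B|)
      (fun x hx => (cx _ (hA.cont k) x (hbc hx)).aestronglyMeasurable) (fun x hx => ?_)
      (integrable_const _) ?_
    · refine (ae_restrict_mem hKm).mono fun τ hτ => ?_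
      rw [norm_smul, Real.norm_eq_abs]
      exact mul_le_mul (hb x hx τ hτ) ((hB _ (hin x (hbc hx) τ hτ)).trans (le_abs_self _))
        (norm_nonneg _) hM
    · refine (ae_restrict_mem hKm).mono fun τ hτ => ?_
      exact ((cj _ (hA.cont k)).comp (f := fun x => (x, τ)) (by fun_prop) fun x hx =>
        ⟨hx, hτ⟩).mono hbc
  -- the bounds
  have hr0 : 0 ≤ ν.real K₀ := measureReal_nonneg
  have hbd : ∀ k, ∀ x ∈ ball z₀ ρ', ‖∫ τ in K₀, m x τ • a k (x + h τ) ∂ν‖ ≤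
      2 * M * C * ν.real K₀ := by
    intro k x hx
    have h1 : ∀ τ ∈ K₀, ‖m x τ • a k (x + h τ)‖ ≤ M * C := fun τ hτ => by
      rw [norm_smul, Real.norm_eq_abs]
      exact mul_le_mul (hb x hx τ hτ) (hA.bd k _ (hcb (hin x (hbc hx) τ hτ))) (norm_nonneg _) hM
    refine (norm_setIntegral_le_of_norm_le_const hKν h1).trans ?_
    have := mul_nonneg hM hA.nn
    nlinarith
  have hlip : ∀ k, ∀ x ∈ ball z₀ ρ', ∀ x' ∈ ball z₀ ρ',
      ‖(∫ τ in K₀, m x τ • a k (x + h τ) ∂ν) - ∫ τ in K₀, m x' τ • a k (x' + h τ) ∂ν‖ ≤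
      2 * M * C * ν.real K₀ * ‖x - x'‖ := by
    intro k x hx x' hx'
    rw [← integral_sub (cx _ (hA.contv k) x (hbc hx)) (cx _ (hA.contv k) x' (hbc hx'))]
    have h1 : ∀ τ ∈ K₀, ‖m x τ • a k (x + h τ) - m x' τ • a k (x' + h τ)‖ ≤
        2 * M * C * ‖x - x'‖ := fun τ hτ => by
      have e1 : m x τ • a k (x + h τ) - m x' τ • a k (x' + h τ) =
          m x τ • (a k (x + h τ) - a k (x' + h τ)) + (m x τ - m x' τ) • a k (x' + h τ) := by
        rw [smul_sub, sub_smul]; abel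
      rw [e1]
      refine (norm_add_le _ _).trans ?_
      rw [norm_smul, norm_smul, Real.norm_eq_abs, Real.norm_eq_abs]
      have h2 := mul_le_mul (hb x hx τ hτ) (hA.lip k _ (hcb (hin x (hbc hx) τ hτ)) _
        (hcb (hin x' (hbc hx') τ hτ))) (norm_nonneg _) hM
      have h3 := mul_le_mul (hl x hx x' hx' τ hτ) (hA.bd k _ (hcb (hin x' (hbc hx') τ hτ)))
        (norm_nonneg _) (mul_nonneg hM (norm_nonneg _))
      have e2 : x + h τ - (x' + h τ) = x - x' := by abel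
      rw [e2] at h2
      nlinarith
    refine (norm_setIntegral_le_of_norm_le_const hKν h1).trans (le_of_eq (by ring))
  have contv : ∀ k, ContinuousOn (fun x => ∫ τ in K₀, m x τ • a k (x + h τ) ∂ν) (ball z₀ ρ') := by
    intro k
    have hl : LipschitzOnWith (Real.toNNReal (2 * M * C * ν.real K₀))
        (fun x => ∫ τ in K₀, m x τ • a k (x + h τ) ∂ν) (ball z₀ ρ') :=
      LipschitzOnWith.of_dist_le_mul fun z hz z' hz' => by
        rw [dist_eq_norm, dist_eq_norm, Real.coe_toNNReal _ (by have := hA.nn; positivity)]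
        exact hlip k z hz z' hz'
    exact hl.continuousOn
  -- the `L²` estimate
  have ce : ∀ k, ContinuousOn (fun y => a k y - φ k y) (ball z₀ ρ) := fun k =>
    (hA.contv k).sub (hA.cont k)
  have key : ∀ k, ∀ x ∈ ball z₀ ρ', ‖(∫ τ in K₀, m x τ • a k (x + h τ) ∂ν) -
      ∫ τ in K₀, m x τ • φ k (x + h τ) ∂ν‖ ^ 2 ≤
      M ^ 2 * ν.real K₀ * ∫ τ in K₀, ‖a k (x + h τ) - φ k (x + h τ)‖ ^ 2 ∂ν := by
    intro k x hx
    have hx' := hbc hx
    rw [← integral_sub (cx _ (hA.contv k) x hx') (cx _ (hA.cont k) x hx')]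
    have c0 : ContinuousOn (fun τ => a k (x + h τ) - φ k (x + h τ)) K₀ :=
      (ce k).comp (f := fun τ => x + h τ) (by fun_prop) fun τ hτ => hcb (hin x hx' τ hτ)
    obtain ⟨B, hB⟩ := hK.exists_bound_of_continuousOn c0
    have i1 : IntegrableOn (fun τ => ‖a k (x + h τ) - φ k (x + h τ)‖) K₀ ν :=
      io hKν (c0.norm.aestronglyMeasurable hKm) B
        ((ae_restrict_mem hKm).mono fun τ hτ => by rw [norm_norm]; exact hB τ hτ)
    have i2 : IntegrableOn (fun τ => ‖a k (x + h τ) - φ k (x + h τ)‖ ^ 2) K₀ ν :=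
      io hKν ((c0.norm.pow 2).aestronglyMeasurable hKm)
        (B ^ 2) ((ae_restrict_mem hKm).mono fun τ hτ => by
          rw [Real.norm_of_nonneg (sq_nonneg _)]
          exact pow_le_pow_left₀ (norm_nonneg _) (hB τ hτ) 2)
    have h1 : ‖∫ τ in K₀, (m x τ • a k (x + h τ) - m x τ • φ k (x + h τ)) ∂ν‖ ≤
        M * ∫ τ in K₀, ‖a k (x + h τ) - φ k (x + h τ)‖ ∂ν := by
      rw [← integral_const_mul]
      refine (norm_integral_le_integral_norm _).trans ?_
      refine setIntegral_mono_on ?_ (i1.const_mul M) hKm fun τ hτ => ?_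
      · exact ((cx _ (hA.contv k) x hx').sub (cx _ (hA.cont k) x hx')).norm
      · rw [← smul_sub, norm_smul, Real.norm_eq_abs]
        exact mul_le_mul_of_nonneg_right (hb x hx τ hτ) (norm_nonneg _)
    have h2 := int_sq i2 i1
    have e3 : (ν.restrict K₀).real univ = ν.real K₀ := by simp
    rw [e3] at h2
    calc ‖∫ τ in K₀, (m x τ • a k (x + h τ) - m x τ • φ k (x + h τ)) ∂ν‖ ^ 2
        ≤ (M * ∫ τ in K₀, ‖a k (x + h τ) - φ k (x + h τ)‖ ∂ν) ^ 2 :=
          pow_le_pow_left₀ (norm_nonneg _) h1 2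
      _ = M ^ 2 * (∫ τ in K₀, ‖a k (x + h τ) - φ k (x + h τ)‖ ∂ν) ^ 2 := by ring
      _ ≤ M ^ 2 * (ν.real K₀ * ∫ τ in K₀, ‖a k (x + h τ) - φ k (x + h τ)‖ ^ 2 ∂ν) :=
          mul_le_mul_of_nonneg_left h2 (sq_nonneg _)
      _ = _ := by ring
  have hint : ∀ k, IntegrableOn (fun x => ‖(∫ τ in K₀, m x τ • a k (x + h τ) ∂ν) -
      ∫ τ in K₀, m x τ • φ k (x + h τ) ∂ν‖ ^ 2) (ball z₀ ρ') := by
    intro k
    obtain ⟨B, hB⟩ := (isCompact_closedBall z₀ (ρ' + δ)).exists_bound_of_continuousOn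
      ((hA.cont k).mono hcb)
    refine io measure_ball_lt_top
      ((((contv k).sub (cc k)).norm.pow 2).aestronglyMeasurable measurableSet_ball)
      ((2 * M * C * ν.real K₀ + M * |B| * ν.real K₀) ^ 2)
      ((ae_restrict_mem measurableSet_ball).mono fun x hx => ?_)
    rw [Real.norm_of_nonneg (sq_nonneg _)]
    refine pow_le_pow_left₀ (norm_nonneg _) ((norm_sub_le _ _).trans (add_le_add (hbd k x hx) ?_)) 2
    refine norm_setIntegral_le_of_norm_le_const hKν fun τ hτ => ?_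
    rw [norm_smul, Real.norm_eq_abs]
    exact mul_le_mul (hb x hx τ hτ) ((hB _ (hin x (hbc hx) τ hτ)).trans (le_abs_self _))
      (norm_nonneg _) hM
  refine ⟨hρ0, by have := hA.nn; positivity, hbd, hlip, cc, hint, ?_⟩
  refine squeeze_zero (fun k => integral_nonneg fun z => sq_nonneg _) (fun k => ?_)
    (by simpa using hA.lim.const_mul (M ^ 2 * ν.real K₀ * ν.real K₀))
  -- Fubini
  have c2 : ContinuousOn (fun q : Cm n × T => ‖a k (q.1 + h q.2) - φ k (q.1 + h q.2)‖ ^ 2)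
      (closedBall z₀ ρ' ×ˢ K₀) := by
    refine ((ce k).comp (f := fun q : Cm n × T => q.1 + h q.2) (by fun_prop) ?_).norm.pow 2
    rintro ⟨x, τ⟩ ⟨hx, hτ⟩
    exact hcb (hin x hx τ hτ)
  have cK : IsCompact (closedBall z₀ ρ' ×ˢ K₀) := (isCompact_closedBall _ _).prod hK
  obtain ⟨B, hB⟩ := cK.exists_bound_of_continuousOn c2
  have hfin2 : IsFiniteMeasure ((volume : Measure (Cm n)).restrict (ball z₀ ρ')) :=
    ⟨by simpa using measure_ball_lt_top⟩
  have hpi : Integrable (Function.uncurry fun (x : Cm n) (τ : T) =>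
      ‖a k (x + h τ) - φ k (x + h τ)‖ ^ 2)
      (((volume : Measure (Cm n)).restrict (ball z₀ ρ')).prod (ν.restrict K₀)) := by
    rw [Measure.prod_restrict]
    have hms : MeasurableSet (ball z₀ ρ' ×ˢ K₀) := measurableSet_ball.prod hKm
    refine io ?_ ?_ B ?_
    · rw [Measure.prod_prod]
      exact ENNReal.mul_lt_top measure_ball_lt_top hKν
    · exact (c2.mono (prod_mono_left hbc)).aestronglyMeasurable hms
    · refine (ae_restrict_mem hms).mono fun q hq => ?_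
      exact hB q ⟨hbc hq.1, hq.2⟩
  have i4 : Integrable (fun x => ∫ τ in K₀, ‖a k (x + h τ) - φ k (x + h τ)‖ ^ 2 ∂ν)
      ((volume : Measure (Cm n)).restrict (ball z₀ ρ')) := hpi.integral_prod_left
  have i5 : Integrable (fun τ => ∫ x in ball z₀ ρ', ‖a k (x + h τ) - φ k (x + h τ)‖ ^ 2)
      (ν.restrict K₀) := hpi.integral_prod_right
  have s1 : ∫ x in ball z₀ ρ', ‖(∫ τ in K₀, m x τ • a k (x + h τ) ∂ν) -
      ∫ τ in K₀, m x τ • φ k (x + h τ) ∂ν‖ ^ 2 ≤ M ^ 2 * ν.real K₀ *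
      ∫ x in ball z₀ ρ', ∫ τ in K₀, ‖a k (x + h τ) - φ k (x + h τ)‖ ^ 2 ∂ν := by
    rw [← integral_const_mul]
    exact setIntegral_mono_on (hint k) (i4.const_mul _) measurableSet_ball fun x hx => key k x hx
  have s2 : ∫ x in ball z₀ ρ', ∫ τ in K₀, ‖a k (x + h τ) - φ k (x + h τ)‖ ^ 2 ∂ν =
      ∫ τ in K₀, (∫ x in ball z₀ ρ', ‖a k (x + h τ) - φ k (x + h τ)‖ ^ 2) ∂ν :=
    integral_integral_swap hpi
  have s3 : ∀ τ ∈ K₀, ∫ x in ball z₀ ρ', ‖a k (x + h τ) - φ k (x + h τ)‖ ^ 2 ≤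
      ∫ y in ball z₀ ρ, ‖a k y - φ k y‖ ^ 2 := by
    intro τ hτ
    have e4 : ∫ x in ball z₀ ρ', ‖a k (x + h τ) - φ k (x + h τ)‖ ^ 2 =
        ∫ y in (fun x => x + h τ) '' ball z₀ ρ', ‖a k y - φ k y‖ ^ 2 := by
      rw [(measurePreserving_add_right volume (h τ)).setIntegral_image_emb
        (measurableEmbedding_addRight (h τ))]
    rw [e4]
    refine setIntegral_mono_set (hA.int k) (Eventually.of_forall fun z => sq_nonneg _)
      (LE.le.eventuallyLE ?_)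
    rintro _ ⟨x, hx, rfl⟩
    exact hcb (hin x (hbc hx) τ hτ)
  have s4 : ∫ τ in K₀, (∫ x in ball z₀ ρ', ‖a k (x + h τ) - φ k (x + h τ)‖ ^ 2) ∂ν ≤
      ν.real K₀ * ∫ y in ball z₀ ρ, ‖a k y - φ k y‖ ^ 2 := by
    have := setIntegral_mono_on i5 (integrable_const
      (∫ y in ball z₀ ρ, ‖a k y - φ k y‖ ^ 2)) hKm s3
    simpa using this
  calc _ ≤ _ := s1
    _ ≤ M ^ 2 * ν.real K₀ * (ν.real K₀ * ∫ y in ball z₀ ρ, ‖a k y - φ k y‖ ^ 2) := by
        rw [s2]
        exact mul_le_mul_of_nonneg_left s4 (by positivity)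
    _ = _ := by ring

end Vale.Agent.P284.H619.Pot
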