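import Vale.Agent.P284.H619.PotA

/-!
# P284 (helper619), module POT: composition of approximations with local biholomorphisms
-/

open scoped ContDiff Topology ComplexConjugate
open MeasureTheory Set Filter Metric

noncomputable section

set_option linter.unusedSectionVars false

namespace Vale.Agent.P284.H619.Pot

open Vale.Agent.P272.K Vale.Agent.P284.H366

variable {n : ℕ} {H : ℕ → Type} [∀ k, NormedAddCommGroup (H k)] [∀ k, InnerProductSpace ℂ (H k)]
  {U : Ultrafilter ℕ}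

/-- local change of variables -/
theorem exists_cov {T T' : Cm n → Cm n} {z₀ : Cm n} (hT : AnalyticAt ℂ T z₀)
    (hT' : AnalyticAt ℂ T' (T z₀)) (h : ∀ᶠ z in 𝓝 z₀, T' (T z) = z) :
    ∃ s D : ℝ, 0 < s ∧ 0 ≤ D ∧ ∀ g : Cm n → ℝ, (∀ y, 0 ≤ g y) → ∀ r, r ≤ s →
      ∀ S : Set (Cm n), (∀ z ∈ ball z₀ r, T z ∈ S) → IntegrableOn g S →
      ∫ z in ball z₀ r, g (T z) ≤ D * ∫ y in S, g y := by
  have hTr : ContDiffAt ℝ 1 T z₀ := hT.contDiffAt.restrict_scalars ℝ
  have hT'r : ContDiffAt ℝ 1 T' (T z₀) := hT'.contDiffAt.restrict_scalars ℝ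
  have hdet : (fderiv ℝ T z₀).det ≠ 0 := by
    have h1 : HasFDerivAt (fun z => T' (T z)) ((fderiv ℝ T' (T z₀)).comp (fderiv ℝ T z₀)) z₀ :=
      (hT'r.differentiableAt one_ne_zero).hasFDerivAt.comp z₀
        (hTr.differentiableAt one_ne_zero).hasFDerivAt
    have h2 : HasFDerivAt (fun z => T' (T z)) (ContinuousLinearMap.id ℝ (Cm n)) z₀ :=
      (hasFDerivAt_id z₀).congr_of_eventuallyEq h
    have h3 := h1.unique h2
    have h4 : LinearMap.det ((fderiv ℝ T' (T z₀) : Cm n →ₗ[ℝ] Cm n).comp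
        (fderiv ℝ T z₀ : Cm n →ₗ[ℝ] Cm n)) = 1 := by
      have : (fderiv ℝ T' (T z₀) : Cm n →ₗ[ℝ] Cm n).comp (fderiv ℝ T z₀ : Cm n →ₗ[ℝ] Cm n) =
          LinearMap.id := by
        ext x
        exact congrFun (DFunLike.congr_fun h3 _) _
      rw [this, LinearMap.det_id]
    rw [LinearMap.det_comp] at h4
    intro h5
    change LinearMap.det (fderiv ℝ T z₀ : Cm n →ₗ[ℝ] Cm n) = 0 at h5
    rw [h5, mul_zero] at h4
    exact zero_ne_one h4
  set c := |(fderiv ℝ T z₀).det| / 2 with hc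
  have hc0 : 0 < c := by positivity
  have hcont : ContinuousAt (fun z => |(fderiv ℝ T z).det|) z₀ := by
    have h1 : ContinuousAt (fderiv ℝ T) z₀ := (hTr.fderiv_right (m := 0) (by simp)).continuousAt
    exact (ContinuousLinearMap.continuous_det.continuousAt.comp h1).abs
  have hev : ∀ᶠ z in 𝓝 z₀, DifferentiableAt ℝ T z ∧ c ≤ |(fderiv ℝ T z).det| ∧ T' (T z) = z := by
    filter_upwards [hTr.eventually (by simp), hcont.eventually (lt_mem_nhds
      (show c < |(fderiv ℝ T z₀).det| by rw [hc]; linarith [abs_pos.2 hdet])), h] with z h1 h2 h3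
    exact ⟨h1.differentiableAt one_ne_zero, h2.le, h3⟩
  obtain ⟨s, hs, hb⟩ := Metric.eventually_nhds_iff_ball.1 hev
  refine ⟨s, c⁻¹, hs, (inv_pos.2 hc0).le, fun g hg r hr S hS hi => ?_⟩
  have hbr : ball z₀ r ⊆ ball z₀ s := ball_subset_ball hr
  have hinj : InjOn T (ball z₀ r) := fun x hx y hy hxy => by
    rw [← (hb x (hbr hx)).2.2, ← (hb y (hbr hy)).2.2, hxy]
  have hd : ∀ x ∈ ball z₀ r, HasFDerivWithinAt T (fderiv ℝ T x) (ball z₀ r) x := fun x hx =>
    (hb x (hbr hx)).1.hasFDerivAt.hasFDerivWithinAt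
  have e1 := integral_image_eq_integral_abs_det_fderiv_smul volume measurableSet_ball hd hinj g
  have hsub : T '' ball z₀ r ⊆ S := by
    rintro _ ⟨x, hx, rfl⟩
    exact hS x hx
  have i1 : IntegrableOn g (T '' ball z₀ r) := hi.mono_set hsub
  have i2 := (integrableOn_image_iff_integrableOn_abs_det_fderiv_smul volume measurableSet_ball hd
    hinj g).1 i1
  have h1 : ∫ z in ball z₀ r, c * g (T z) ≤ ∫ z in ball z₀ r, |(fderiv ℝ T z).det| • g (T z) := by
    refine integral_mono_of_nonneg (Eventually.of_forall fun z => mul_nonneg hc0.le (hg _)) i2 ?_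
    filter_upwards [ae_restrict_mem measurableSet_ball] with z hz
    exact mul_le_mul_of_nonneg_right (hb z (hbr hz)).2.1 (hg _)
  rw [← e1, integral_const_mul] at h1
  have h2 : ∫ y in T '' ball z₀ r, g y ≤ ∫ y in S, g y :=
    setIntegral_mono_set hi (Eventually.of_forall hg) hsub.eventuallyLE
  rw [inv_mul_eq_div, le_div_iff₀ hc0]
  linarith

/-- **composition with a local biholomorphism** -/
theorem comp {T T' : Cm n → Cm n} {z₀ : Cm n} (hT : AnalyticAt ℂ T z₀)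
    (hT' : AnalyticAt ℂ T' (T z₀)) (hTT : ∀ᶠ z in 𝓝 z₀, T' (T z) = z) {v φ : ∀ k, Cm n → H k}
    (h : Appr U (T z₀) v φ) : Appr U z₀ (fun k z => v k (T z)) (fun k z => φ k (T z)) := by
  obtain ⟨s₀, D, hs₀, hD0, hD⟩ := exists_cov hT hT' hTT
  obtain ⟨ρ, A, h⟩ := h
  have hT1 : ContDiffAt ℝ 1 T z₀ := hT.contDiffAt.restrict_scalars ℝ
  obtain ⟨K, t, ht, hK⟩ := hT1.exists_lipschitzOnWith
  have e4 : ∀ᶠ y in 𝓝 z₀, T y ∈ ball (T z₀) ρ :=
    hT1.continuousAt.eventually (isOpen_ball.mem_nhds (mem_ball_self h.pos))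
  obtain ⟨s₁, hs₁, hall⟩ := Metric.nhds_basis_closedBall.mem_iff.1 (Filter.inter_mem e4 ht)
  set s := min s₁ s₀ with hsdef
  have hs : 0 < s := lt_min hs₁ hs₀
  have hcs : closedBall z₀ s ⊆ closedBall z₀ s₁ := closedBall_subset_closedBall (min_le_left _ _)
  have hsub : ball z₀ s ⊆ closedBall z₀ s := ball_subset_closedBall
  have hTb : ∀ y ∈ closedBall z₀ s, T y ∈ ball (T z₀) ρ := fun y hy => (hall (hcs hy)).1
  have hst : closedBall z₀ s ⊆ t := fun y hy => (hall (hcs hy)).2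
  have cT : ContinuousOn T (closedBall z₀ s) := hK.continuousOn.mono hst
  have cv : ∀ k, ContinuousOn (fun z => v k (T z)) (closedBall z₀ s) := fun k =>
    (h.contv k).comp cT hTb
  have cφ : ∀ k, ContinuousOn (fun z => φ k (T z)) (closedBall z₀ s) := fun k =>
    (h.cont k).comp cT hTb
  have hi : ∀ k, IntegrableOn (fun z => ‖v k (T z) - φ k (T z)‖ ^ 2) (ball z₀ s) :=
    fun k => intOn (((cv k).sub (cφ k)).norm.pow 2)
  refine ⟨s, A + A * K, hs, add_nonneg h.nn (mul_nonneg h.nn K.coe_nonneg), fun k z hz => ?_,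
    fun k z hz z' hz' => ?_, fun k => (cφ k).mono hsub, hi, ?_⟩
  · exact (h.bd k _ (hTb z (hsub hz))).trans (le_add_of_nonneg_right
      (mul_nonneg h.nn K.coe_nonneg))
  · refine (h.lip k _ (hTb z (hsub hz)) _ (hTb z' (hsub hz'))).trans ?_
    have h3 := hK.dist_le_mul z (hst (hsub hz)) z' (hst (hsub hz'))
    rw [dist_eq_norm, dist_eq_norm] at h3
    have h4 := mul_le_mul_of_nonneg_left h3 h.nn
    have h5 : 0 ≤ A * ‖z - z'‖ := mul_nonneg h.nn (norm_nonneg _)
    nlinarith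
  · refine squeeze_zero (fun k => integral_nonneg fun z => sq_nonneg _) (fun k => ?_)
      (by simpa using h.lim.const_mul D)
    exact hD (fun y => ‖v k y - φ k y‖ ^ 2) (fun y => sq_nonneg _) s (min_le_right _ _)
      (ball (T z₀) ρ) (fun y hy => hTb y (hsub hy)) (h.int k)

/-- composition with nonexpanding maps of the values -/
theorem mapJ {H' : ℕ → Type} [∀ k, NormedAddCommGroup (H' k)] [∀ k, InnerProductSpace ℂ (H' k)]
    {J : ∀ k, H k → H' k} (hJ : ∀ k x y, ‖J k x - J k y‖ ≤ ‖x - y‖) (h0 : ∀ k, J k 0 = 0)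
    {z₀ : Cm n} {v φ : ∀ k, Cm n → H k} (h : Appr U z₀ v φ) :
    Appr U z₀ (fun k z => J k (v k z)) (fun k z => J k (φ k z)) := by
  obtain ⟨ρ, C, h⟩ := h
  have hJ0 : ∀ k x, ‖J k x‖ ≤ ‖x‖ := fun k x => by
    have := hJ k x 0
    rwa [h0, sub_zero, sub_zero] at this
  have cJ : ∀ k, Continuous (J k) := fun k => by
    have : LipschitzWith 1 (J k) := LipschitzWith.of_dist_le_mul fun x y => by
      rw [dist_eq_norm, dist_eq_norm, NNReal.coe_one, one_mul]
      exact hJ k x y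
    exact this.continuous
  have c1 : ∀ k, ContinuousOn (fun z => J k (v k z)) (ball z₀ ρ) := fun k =>
    (cJ k).comp_continuousOn (h.contv k)
  have c2 : ∀ k, ContinuousOn (fun z => J k (φ k z)) (ball z₀ ρ) := fun k =>
    (cJ k).comp_continuousOn (h.cont k)
  have e : ∀ k z, ‖J k (v k z) - J k (φ k z)‖ ^ 2 ≤ ‖v k z - φ k z‖ ^ 2 := fun k z =>
    pow_le_pow_left₀ (norm_nonneg _) (hJ k _ _) 2
  have i1 : ∀ k, IntegrableOn (fun z => ‖J k (v k z) - J k (φ k z)‖ ^ 2) (ball z₀ ρ) := fun k =>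
    int_bound (((c1 k).sub (c2 k)).norm.pow 2) (h.int k) fun z _ => by
      rw [Real.norm_of_nonneg (sq_nonneg _)]
      exact e k z
  refine ⟨ρ, C, h.pos, h.nn, fun k z hz => (hJ0 k _).trans (h.bd k z hz), fun k z hz z' hz' =>
    (hJ k _ _).trans (h.lip k z hz z' hz'), c2, i1, ?_⟩
  refine squeeze_zero (fun k => integral_nonneg fun z => sq_nonneg _) (fun k => ?_) h.lim
  exact setIntegral_mono_on (i1 k) (h.int k) measurableSet_ball fun z _ => e k z

end Vale.Agent.P284.H619.Pot
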