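import Vale.Agent.P284.H619.PotB

/-!
# P284 (helper619), module POT: functions with approximable vertical derivatives
-/

open scoped ContDiff Topology ComplexConjugate
open MeasureTheory Set Filter Metric

noncomputable section

set_option linter.unusedSectionVars false

namespace Vale.Agent.P284.H619.Pot

open Vale.Agent.P272.K Vale.Agent.P284.H366 Vale.Agent.P284.H513.V

variable {n q : ℕ} {H : ℕ → Type} [∀ k, NormedAddCommGroup (H k)] [∀ k, InnerProductSpace ℂ (H k)]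
  {U : Ultrafilter ℕ}

lemma recenter {z₀ z : Cm n} {v φ : ∀ k, Cm n → H k} {ρ C r : ℝ} (h : ApprOn U z₀ v φ ρ C)
    (hr : 0 < r) (hb : ball z r ⊆ ball z₀ ρ) : ApprOn U z v φ r C := by
  refine ⟨hr, h.nn, fun k x hx => h.bd k x (hb hx), fun k x hx x' hx' =>
    h.lip k x (hb hx) x' (hb hx'), fun k => (h.cont k).mono hb, fun k => (h.int k).mono_set hb, ?_⟩
  refine squeeze_zero (fun k => integral_nonneg fun z => sq_nonneg _) (fun k => ?_) h.lim
  exact setIntegral_mono_set (h.int k) (Eventually.of_forall fun z => sq_nonneg _) hb.eventuallyLE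

/-- common constants -/
lemma common {ι : Type*} [Fintype ι] {z₀ : Cm n} {a φ : ι → ∀ k, Cm n → H k}
    (h : ∀ i, Appr U z₀ (a i) (φ i)) : ∃ ρ C, 0 < ρ ∧ 0 ≤ C ∧ ∀ i, ApprOn U z₀ (a i) (φ i) ρ C := by
  classical
  have key : ∀ s : Finset ι, ∃ ρ C, 0 < ρ ∧ 0 ≤ C ∧ ∀ i ∈ s, ApprOn U z₀ (a i) (φ i) ρ C := by
    intro s
    induction s using Finset.induction_on with
    | empty => exact ⟨1, 0, one_pos, le_rfl, by simp⟩
    | insert i s _ ih =>
      obtain ⟨ρ, C, h1, h2, h3⟩ := ih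
      obtain ⟨ρ', C', h4⟩ := h i
      refine ⟨min ρ ρ', max C C', lt_min h1 h4.pos, h2.trans (le_max_left _ _), fun j hj => ?_⟩
      rcases Finset.mem_insert.1 hj with rfl | hj
      · exact h4.mono (lt_min h1 h4.pos) (min_le_right _ _) (le_max_right _ _)
      · exact (h3 j hj).mono (lt_min h1 h4.pos) (min_le_left _ _) (le_max_left _ _)
  obtain ⟨ρ, C, h1, h2, h3⟩ := key Finset.univ
  exact ⟨ρ, C, h1, h2, fun i => h3 i (Finset.mem_univ i)⟩

/-- fundamental theorem of calculus on a segment -/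
lemma ftc {G : Type*} [NormedAddCommGroup G] [NormedSpace ℝ G] [CompleteSpace G] {φ : Cm n → G}
    {x w : Cm n} (h : ∀ s ∈ Icc (0 : ℝ) 1, ContDiffAt ℝ 1 φ (x + s • w)) :
    IntegrableOn (fun s : ℝ => fderiv ℝ φ (x + s • w) w) (Icc 0 1) ∧
    ∫ s in Icc (0 : ℝ) 1, fderiv ℝ φ (x + s • w) w = φ (x + w) - φ x := by
  have c1 : ContinuousOn (fun s : ℝ => fderiv ℝ φ (x + s • w) w) (Icc 0 1) := by
    intro s hs
    have h1 : ContinuousAt (fderiv ℝ φ) (x + s • w) :=
      ((h s hs).fderiv_right (m := 0) (by simp)).continuousAt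
    have h2 : ContinuousAt (fun s : ℝ => x + s • w) s := by fun_prop
    exact ((ContinuousAt.comp (f := fun s : ℝ => x + s • w) h1 h2).clm_apply
      continuousAt_const).continuousWithinAt
  refine ⟨c1.integrableOn_compact isCompact_Icc, ?_⟩
  have h3 : ∀ s ∈ uIcc (0 : ℝ) 1, HasDerivAt (fun s : ℝ => φ (x + s • w))
      (fderiv ℝ φ (x + s • w) w) s := by
    intro s hs
    rw [uIcc_of_le zero_le_one] at hs
    have e1 : HasDerivAt (fun s : ℝ => x + s • w) w s := by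
      have := ((hasDerivAt_id s).smul_const w).const_add x
      simpa using this
    exact ((h s hs).differentiableAt one_ne_zero).hasFDerivAt.comp_hasDerivAt s e1
  have h4 := intervalIntegral.integral_eq_sub_of_hasDerivAt h3
    (ContinuousOn.intervalIntegrable (by rwa [uIcc_of_le zero_le_one]))
  rw [intervalIntegral.integral_of_le zero_le_one, ← integral_Icc_eq_integral_Ioc] at h4
  rw [h4]
  simp

/-- **A function whose vertical derivatives are approximable is approximable after subtraction of a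
function of the base.** -/
theorem box [∀ k, CompleteSpace (H k)] {L : Cm n →L[ℂ] Cm q} {s₀ : Cm q →L[ℂ] Cm n} {ι : Type*}
    [Fintype ι] {wv : ι → Cm n} {l : ι → Cm n →L[ℝ] ℝ}
    (hP : ∀ w, w - s₀ (L w) = ∑ i, l i w • wv i) {φ : ∀ k, Cm n → H k}
    (hφ : ∀ᶠ x in 𝓝 (0 : Cm n), ∀ k, ContDiffAt ℝ 1 (φ k) x) {a : ι → ∀ k, Cm n → H k}
    (ha : ∀ i, Appr U 0 (a i) fun k x => fderiv ℝ (φ k) x (wv i)) :
    ∃ (b : ∀ k, Cm q → H k) (v : ∀ k, Cm n → H k), Appr U 0 v fun k x => φ k x - b k (L x) := by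
  obtain ⟨ρ₁, C, hρ₁, hC, hA⟩ := common ha
  obtain ⟨ρ₂, hρ₂, hφ2⟩ := Metric.eventually_nhds_iff_ball.1 hφ
  set ρ := min ρ₁ ρ₂ with hρdef
  have hρ : 0 < ρ := lt_min hρ₁ hρ₂
  have hA' : ∀ i, ApprOn U 0 (a i) (fun k x => fderiv ℝ (φ k) x (wv i)) ρ C := fun i =>
    (hA i).mono hρ (min_le_left _ _) le_rfl
  have hφ' : ∀ x ∈ ball (0 : Cm n) ρ, ∀ k, ContDiffAt ℝ 1 (φ k) x := fun x hx =>
    hφ2 x (ball_subset_ball (min_le_right _ _) hx)
  set P : Cm n →L[ℂ] Cm n := ContinuousLinearMap.id ℂ (Cm n) - s₀.comp L with hPdef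
  have hPa : ∀ w, P w = w - s₀ (L w) := fun w => rfl
  set N : ℝ := ‖P‖ with hN
  have hN0 : 0 ≤ N := norm_nonneg _
  set r : ℝ := ρ / (2 + 2 * N) with hr
  have hr0 : 0 < r := by positivity
  have hrr : r + N * (2 * r) < ρ := by
    have : ρ = r * (2 + 2 * N) := by rw [hr]; field_simp
    nlinarith
  obtain ⟨η, Θ, mη⟩ := exists_mol n hr0
  obtain ⟨K, hK⟩ := exists_molC mη
  set S : Set (Cm n) := closedBall 0 (2 * r) with hS
  have hScpt : IsCompact S := isCompact_closedBall _ _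
  have hSm : MeasurableSet S := measurableSet_closedBall
  have hSfin : volume S < ⊤ := hScpt.measure_lt_top
  set K₀ : Set (Cm n × ℝ) := S ×ˢ Icc 0 1 with hK₀
  have hK₀cpt : IsCompact K₀ := hScpt.prod isCompact_Icc
  have hK₀m : MeasurableSet K₀ := hSm.prod measurableSet_Icc
  have hK₀fin : volume K₀ < ⊤ := hK₀cpt.measure_lt_top
  have hPn : ∀ w ∈ S, ‖P w‖ ≤ N * (2 * r) := fun w hw =>
    (P.le_opNorm w).trans (mul_le_mul_of_nonneg_left (by simpa [hS] using hw) hN0)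
  have hin : ∀ x ∈ ball (0 : Cm n) r, ∀ w ∈ S, ∀ s ∈ Icc (0 : ℝ) 1, x + s • P w ∈ ball (0 : Cm n) ρ := by
    intro x hx w hw s hs
    rw [mem_ball, dist_zero_right] at hx ⊢
    have h1 : ‖s • P w‖ ≤ N * (2 * r) := by
      rw [norm_smul, Real.norm_of_nonneg hs.1]
      exact (mul_le_of_le_one_left (norm_nonneg _) hs.2).trans (hPn w hw)
    linarith [norm_add_le x (s • P w)]
  -- the weights
  set m : ι → Cm n → (Cm n × ℝ) → ℝ := fun i x τ => -(η (τ.1 + x) * l i τ.1) with hm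
  set Lm : ℝ := ∑ i, ‖l i‖ with hLm
  have hLm0 : 0 ≤ Lm := Finset.sum_nonneg fun i _ => norm_nonneg _
  set M : ℝ := K * (Lm * (2 * r)) with hM
  have hM0 : 0 ≤ M := mul_nonneg hK.nn (mul_nonneg hLm0 (by positivity))
  have hln : ∀ i, ∀ τ ∈ K₀, |l i τ.1| ≤ Lm * (2 * r) := by
    intro i τ hτ
    have h1 : ‖τ.1‖ ≤ 2 * r := by simpa [hS] using hτ.1
    rw [← Real.norm_eq_abs]
    refine ((l i).le_opNorm _).trans (mul_le_mul ?_ h1 (norm_nonneg _) hLm0)
    exact Finset.single_le_sum (f := fun i => ‖l i‖) (fun i _ => norm_nonneg _) (Finset.mem_univ i)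
  have hav : ∀ i, ApprOn U 0
      (fun k x => ∫ τ in K₀, m i x τ • a i k (x + τ.2 • P τ.1))
      (fun k x => ∫ τ in K₀, m i x τ • fderiv ℝ (φ k) (x + τ.2 • P τ.1) (wv i)) r
      (2 * M * C * volume.real K₀) := by
    intro i
    refine avg (ν := volume) (h := fun τ : Cm n × ℝ => τ.2 • P τ.1) (m := m i)
      (δ := N * (2 * r)) hK₀cpt hK₀m hK₀fin (by fun_prop) ?_ hM0 (fun x _ τ hτ => ?_)
      (fun x _ x' _ τ hτ => ?_) (fun τ hτ => ?_) hr0 hrr (hA' i)
    · have h1 := mη.smooth.continuous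
      simp only [hm, Function.uncurry_def]
      fun_prop
    · rw [hm]
      simp only [abs_neg, abs_mul]
      exact mul_le_mul (hK.b0 _) (hln i τ hτ) (abs_nonneg _) hK.nn
    · rw [hm]
      have e1 : -(η (τ.1 + x) * l i τ.1) - -(η (τ.1 + x') * l i τ.1) =
          -((η (τ.1 + x) - η (τ.1 + x')) * l i τ.1) := by ring
      simp only [e1, abs_neg, abs_mul]
      have h1 := hK.l0 (τ.1 + x) (τ.1 + x')
      have e2 : τ.1 + x - (τ.1 + x') = x - x' := by abel
      rw [e2] at h1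
      calc |η (τ.1 + x) - η (τ.1 + x')| * |l i τ.1| ≤ (K * ‖x - x'‖) * (Lm * (2 * r)) :=
            mul_le_mul h1 (hln i τ hτ) (abs_nonneg _) (mul_nonneg hK.nn (norm_nonneg _))
        _ = M * ‖x - x'‖ := by rw [hM]; ring
    · simp only [norm_smul]
      rw [Real.norm_of_nonneg hτ.2.1]
      exact (mul_le_of_le_one_left (norm_nonneg _) hτ.2.2).trans (hPn _ hτ.1)
  refine ⟨fun k τ => ∫ w, η w • φ k (s₀ τ + P w), fun k x => ∑ i ∈ Finset.univ, ∫ τ in K₀,
    m i x τ • a i k (x + τ.2 • P τ.1), ?_⟩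
  refine (Appr.sum Finset.univ fun i _ => ⟨r, _, hav i⟩).congr (Eventually.of_forall fun _ _ => rfl)
    ?_
  filter_upwards [ball_mem_nhds (0 : Cm n) hr0] with x hx k
  -- the identity
  have hmc : ∀ i, Continuous fun τ : Cm n × ℝ => m i x τ := by
    intro i
    have h1 := mη.smooth.continuous
    simp only [hm]
    fun_prop
  have hpt : ∀ (τ : Cm n × ℝ) (D : Cm n →L[ℝ] H k), ∑ i, m i x τ • D (wv i) =
      -(η (τ.1 + x) • D (P τ.1)) := by
    intro τ D
    rw [hPa τ.1, hP τ.1, map_sum, Finset.smul_sum, ← Finset.sum_neg_distrib]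
    refine Finset.sum_congr rfl fun i _ => ?_
    simp only [hm]
    rw [map_smul, smul_smul, neg_smul]
  have cfd : ∀ i, ContinuousOn (fun τ : Cm n × ℝ => m i x τ • fderiv ℝ (φ k) (x + τ.2 • P τ.1) (wv i))
      K₀ := by
    intro i
    refine (hmc i).continuousOn.smul ?_
    refine ((hA' i).cont k).comp (f := fun τ : Cm n × ℝ => x + τ.2 • P τ.1)
      (by fun_prop) fun τ hτ => hin x hx _ hτ.1 _ hτ.2
  rw [← integral_finsetSum _ fun i _ => (cfd i).integrableOn_compact hK₀cpt]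
  have e1 : ∫ τ in K₀, ∑ i, m i x τ • fderiv ℝ (φ k) (x + τ.2 • P τ.1) (wv i) =
      ∫ τ in K₀, -(η (τ.1 + x) • fderiv ℝ (φ k) (x + τ.2 • P τ.1) (P τ.1)) := by
    exact setIntegral_congr_fun hK₀m fun τ _ => hpt τ _
  have ci : IntegrableOn (fun τ : Cm n × ℝ =>
      -(η (τ.1 + x) • fderiv ℝ (φ k) (x + τ.2 • P τ.1) (P τ.1))) K₀ (volume.prod volume) := by
    have h1 : IntegrableOn (fun τ : Cm n × ℝ =>
        ∑ i, m i x τ • fderiv ℝ (φ k) (x + τ.2 • P τ.1) (wv i)) K₀ := by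
      refine integrable_finsetSum _ fun i _ => (cfd i).integrableOn_compact hK₀cpt
    exact IntegrableOn.congr_fun h1 (fun τ _ => hpt τ _) hK₀m
  rw [e1, Measure.volume_eq_prod, setIntegral_prod _ ci]
  have e2 : ∀ w ∈ S, ∫ s in Icc (0 : ℝ) 1, -(η (w + x) • fderiv ℝ (φ k) (x + s • P w) (P w)) =
      η (w + x) • φ k x - η (w + x) • φ k (x + P w) := by
    intro w hw
    obtain ⟨h1, h2⟩ := ftc (φ := φ k) (x := x) (w := P w) fun s hs => hφ' _ (hin x hx w hw s hs) k
    rw [integral_neg, integral_smul, h2, smul_sub]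
    abel
  rw [setIntegral_congr_fun hSm e2]
  have hcφ : ContinuousOn (fun w => φ k (x + P w)) S := by
    intro w hw
    have h1 := hφ' _ (by simpa using hin x hx w hw 1 ⟨zero_le_one, le_rfl⟩) k
    exact (ContinuousAt.comp (f := fun w => x + P w) h1.continuousAt (by fun_prop)).continuousWithinAt
  have hηc : Continuous fun w => η (w + x) := by
    have := mη.smooth.continuous
    fun_prop
  have i1 : IntegrableOn (fun w => η (w + x) • φ k x) S :=
    (hηc.continuousOn.smul continuousOn_const).integrableOn_compact hScpt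
  have i2 : IntegrableOn (fun w => η (w + x) • φ k (x + P w)) S :=
    (hηc.continuousOn.smul hcφ).integrableOn_compact hScpt
  rw [integral_sub i1 i2]
  have hz : ∀ w, w ∉ S → η (w + x) = 0 := by
    intro w hw
    refine mη.zero _ ?_
    rw [hS, mem_closedBall, dist_zero_right, not_le] at hw
    rw [mem_ball, dist_zero_right] at hx
    have := norm_sub_norm_le w (-x)
    rw [sub_neg_eq_add, norm_neg] at this
    linarith
  have e3 : ∫ w in S, η (w + x) • φ k x = φ k x := by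
    rw [setIntegral_eq_integral_of_forall_compl_eq_zero fun w hw => by rw [hz w hw, zero_smul],
      integral_smul_const, integral_add_right_eq_self (fun w => η w) x, mη.one, one_smul]
  have e4 : ∫ w in S, η (w + x) • φ k (x + P w) = ∫ w, η w • φ k (s₀ (L x) + P w) := by
    rw [setIntegral_eq_integral_of_forall_compl_eq_zero fun w hw => by rw [hz w hw, zero_smul],
      ← integral_add_right_eq_self (fun w => η w • φ k (s₀ (L x) + P w)) x]
    refine integral_congr_ae (Eventually.of_forall fun w => ?_)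
    simp only
    congr 2
    rw [map_add, hPa x]
    abel
  rw [e3, e4]

/-- **derivative of the limit along the fibres** -/
theorem deriv_lim [∀ k, CompleteSpace (H k)] {L : Cm n →L[ℂ] Cm q} {s₀ : Cm q →L[ℂ] Cm n}
    {ι : Type*} [Fintype ι] {wv : ι → Cm n} {l : ι → Cm n →L[ℝ] ℝ}
    (hP : ∀ w, w - s₀ (L w) = ∑ i, l i w • wv i) {φ : ∀ k, Cm n → H k}
    (hφ : ∀ᶠ x in 𝓝 (0 : Cm n), ∀ k, ContDiffAt ℝ 1 (φ k) x) {a : ι → ∀ k, Cm n → H k}
    (ha : ∀ i, Appr U 0 (a i) fun k x => fderiv ℝ (φ k) x (wv i)) {b : ∀ k, Cm q → H k}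
    {v : ∀ k, Cm n → H k} (hv : Appr U 0 v fun k x => φ k x - b k (L x)) :
    ∃ ρ C : ℝ, 0 < ρ ∧ ∀ x ∈ ball (0 : Cm n) ρ, ∀ w, L w = 0 → ‖w‖ < ρ →
      ‖mk U (fun k => v k (x + w)) - mk U (fun k => v k x) -
        ∑ i, (l i w : ℂ) • mk U (fun k => a i k x)‖ ≤ C * ‖w‖ ^ 2 := by
  obtain ⟨ρ₁, C, hρ₁, hC, hA⟩ := common ha
  obtain ⟨ρ₂, hρ₂, hφ2⟩ := Metric.eventually_nhds_iff_ball.1 hφ
  obtain ⟨ρ₃, C₃, hv⟩ := hv
  set ρ := min (min ρ₁ ρ₂) ρ₃ with hρdef
  have hρ : 0 < ρ := lt_min (lt_min hρ₁ hρ₂) hv.pos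
  have hA' : ∀ i, ApprOn U 0 (a i) (fun k x => fderiv ℝ (φ k) x (wv i)) ρ C := fun i =>
    (hA i).mono hρ ((min_le_left _ _).trans (min_le_left _ _)) le_rfl
  have hφ' : ∀ x ∈ ball (0 : Cm n) ρ, ∀ k, ContDiffAt ℝ 1 (φ k) x := fun x hx =>
    hφ2 x (ball_subset_ball ((min_le_left _ _).trans (min_le_right _ _)) hx)
  have hv' := hv.mono hρ (min_le_right _ _) le_rfl
  have hbb : ∀ x ∈ ball (0 : Cm n) (ρ / 4), ∀ r ≤ ρ / 2, ball x r ⊆ ball (0 : Cm n) ρ := by
    intro x hx r hr y hy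
    rw [mem_ball, dist_zero_right] at hx ⊢
    rw [mem_ball, dist_eq_norm] at hy
    have : ‖y‖ ≤ ‖y - x‖ + ‖x‖ := by
      calc ‖y‖ = ‖(y - x) + x‖ := by congr 1; abel
        _ ≤ _ := norm_add_le _ _
    linarith
  set Lm : ℝ := ∑ i, ‖l i‖ with hLm
  have hLm0 : 0 ≤ Lm := Finset.sum_nonneg fun i _ => norm_nonneg _
  refine ⟨ρ / 4, Lm * C, by positivity, fun x hx w hw hwn => ?_⟩
  have hx2 : ‖x‖ < ρ / 4 := by simpa using hx
  have hxw : x + w ∈ ball (0 : Cm n) ρ := by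
    rw [mem_ball, dist_zero_right]
    linarith [norm_add_le x w]
  have hxρ : x ∈ ball (0 : Cm n) ρ := by
    rw [mem_ball, dist_zero_right]; linarith
  -- the difference
  have h1 : Appr U x (fun k y => v k (y + w)) (fun k y => φ k (y + w) - b k (L (y + w))) := by
    obtain ⟨r, hr, hrb⟩ := Metric.isOpen_iff.1 isOpen_ball (x + w) hxw
    have h0 : Appr U (x + w) v fun k x => φ k x - b k (L x) := ⟨r, _, recenter hv' hr hrb⟩
    exact comp (T := fun y => y + w) (T' := fun y => y - w) (z₀ := x)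
      (analyticAt_id.add analyticAt_const) (analyticAt_id.sub analyticAt_const)
      (Eventually.of_forall fun y => add_sub_cancel_right y w) h0
  have h2 : Appr U x v fun k x => φ k x - b k (L x) :=
    ⟨ρ / 2, _, recenter hv' (by positivity) (hbb x hx _ le_rfl)⟩
  have h3 : Appr U x (fun k y => v k (y + w) - v k y) (fun k y => φ k (y + w) - φ k y) := by
    refine (h1.sub h2).congr (Eventually.of_forall fun _ _ => rfl)
      (Eventually.of_forall fun y k => ?_)
    rw [map_add, hw, add_zero]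
    abel
  -- the averages
  have h4 : ∀ i, ApprOn U x (fun k y => ∫ s in Icc (0 : ℝ) 1, (1 : ℝ) • a i k (y + s • w))
      (fun k y => ∫ s in Icc (0 : ℝ) 1, (1 : ℝ) • fderiv ℝ (φ k) (y + s • w) (wv i)) (ρ / 5)
      (2 * 1 * C * volume.real (Icc (0 : ℝ) 1)) := fun i =>
    avg (ν := volume) (h := fun s : ℝ => s • w) (m := fun _ _ => 1) (δ := ρ / 4) (ρ := ρ / 2)
      isCompact_Icc measurableSet_Icc isCompact_Icc.measure_lt_top (by fun_prop) (by fun_prop)
      zero_le_one (fun _ _ _ _ => by simp) (fun _ _ _ _ _ _ => by simp) (fun s hs => by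
        rw [norm_smul, Real.norm_of_nonneg hs.1]
        exact (mul_le_of_le_one_left (norm_nonneg _) hs.2).trans hwn.le) (by positivity)
      (by linarith) (recenter (hA' i) (by positivity) (hbb x hx _ le_rfl))
  have h5 : Appr U x
      (fun k y => ∑ i, (l i w : ℂ) • ∫ s in Icc (0 : ℝ) 1, (1 : ℝ) • a i k (y + s • w))
      (fun k y => ∑ i, (l i w : ℂ) • ∫ s in Icc (0 : ℝ) 1,
        (1 : ℝ) • fderiv ℝ (φ k) (y + s • w) (wv i)) :=
    Appr.sum Finset.univ fun i _ => Appr.smul (a := fun _ => (l i w : ℂ)) ⟨_, _, h4 i⟩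
      contDiffAt_const
  have hseg : ∀ y ∈ ball x (ρ / 4), ∀ s ∈ Icc (0 : ℝ) 1, y + s • w ∈ ball (0 : Cm n) ρ := by
    intro y hy s hs
    refine hbb x hx (ρ / 2) le_rfl ?_
    rw [mem_ball, dist_eq_norm] at hy ⊢
    have h6 : ‖s • w‖ ≤ ‖w‖ := by
      rw [norm_smul, Real.norm_of_nonneg hs.1]
      exact mul_le_of_le_one_left (norm_nonneg _) hs.2
    calc ‖y + s • w - x‖ = ‖(y - x) + s • w‖ := by congr 1; abel
      _ ≤ ‖y - x‖ + ‖s • w‖ := norm_add_le _ _
      _ < ρ / 2 := by linarith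
  have h6 : Appr U x
      (fun k y => ∑ i, (l i w : ℂ) • ∫ s in Icc (0 : ℝ) 1, (1 : ℝ) • a i k (y + s • w))
      (fun k y => φ k (y + w) - φ k y) := by
    refine h5.congr (Eventually.of_forall fun _ _ => rfl) ?_
    filter_upwards [ball_mem_nhds x (show 0 < ρ / 4 by positivity)] with y hy k
    have hPw : w = ∑ i, l i w • wv i := by
      rw [← hP w, hw, map_zero, sub_zero]
    have hs1 : ∀ s ∈ Icc (0 : ℝ) 1, ContDiffAt ℝ 1 (φ k) (y + s • w) := fun s hs =>
      hφ' _ (hseg y hy s hs) k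
    rw [← (ftc hs1).2]
    have e1 : ∀ s : ℝ, fderiv ℝ (φ k) (y + s • w) w =
        ∑ i, (l i w : ℂ) • (1 : ℝ) • fderiv ℝ (φ k) (y + s • w) (wv i) := by
      intro s
      have e0 : ∀ D : Cm n →L[ℝ] H k, D w = ∑ i, (l i w : ℂ) • (1 : ℝ) • D (wv i) := by
        intro D
        calc D w = D (∑ i, l i w • wv i) := by rw [← hPw]
          _ = ∑ i, D (l i w • wv i) := map_sum _ _ _
          _ = _ := Finset.sum_congr rfl fun i _ => by
              rw [one_smul, map_smul]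
              exact (Complex.coe_smul (l i w) (D (wv i))).symm
      exact e0 _
    have ci : ∀ i, ContinuousOn (fun s : ℝ => (l i w : ℂ) • (1 : ℝ) •
        fderiv ℝ (φ k) (y + s • w) (wv i)) (Icc 0 1) := by
      intro i
      have c0 : ContinuousOn (fun s : ℝ => fderiv ℝ (φ k) (y + s • w) (wv i)) (Icc 0 1) :=
        ((hA' i).cont k).comp (f := fun s : ℝ => y + s • w) (by fun_prop) fun s hs =>
          hseg y hy s hs
      exact continuousOn_const.smul (continuousOn_const.smul c0)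
    have e2 : ∫ s in Icc (0 : ℝ) 1, ∑ i, (l i w : ℂ) • (1 : ℝ) •
        fderiv ℝ (φ k) (y + s • w) (wv i) = ∑ i, (l i w : ℂ) • ∫ s in Icc (0 : ℝ) 1,
          (1 : ℝ) • fderiv ℝ (φ k) (y + s • w) (wv i) := by
      rw [integral_finsetSum _ fun i _ => (ci i).integrableOn_compact isCompact_Icc]
      exact Finset.sum_congr rfl fun i _ => integral_smul _ _
    rw [← e2]
    exact (setIntegral_congr_fun measurableSet_Icc fun s _ => e1 s).symm
  have h7 := h3.mk_eq h6
  have hsx : ∀ s ∈ Icc (0 : ℝ) 1, x + s • w ∈ ball (0 : Cm n) ρ := fun s hs =>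
    hseg x (mem_ball_self (by positivity)) s hs
  have b1 : Bd fun k => v k (x + w) := ⟨_, fun k => hv'.bd k _ hxw⟩
  have b2 : Bd fun k => v k x := ⟨_, fun k => hv'.bd k _ hxρ⟩
  have b3 : ∀ i, Bd fun k => a i k x := fun i => ⟨_, fun k => (hA' i).bd k _ hxρ⟩
  have e5 : mk U (fun k => v k (x + w)) - mk U (fun k => v k x) =
      mk U (fun k => v k (x + w) - v k x) := (mk_sub b1 b2).symm
  have e6 : ∑ i, (l i w : ℂ) • mk U (fun k => a i k x) =
      mk U (fun k => ∑ i, (l i w : ℂ) • a i k x) := by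
    have e : (fun k => ∑ i, (l i w : ℂ) • a i k x) = ∑ i, (l i w : ℂ) • fun k => a i k x := by
      funext k
      simp
    rw [e, mk_sum _ fun i _ => (b3 i).smul _]
    exact Finset.sum_congr rfl fun i _ => (mk_smul _ (b3 i)).symm
  have b4 : Bd fun k => ∑ i, (l i w : ℂ) • ∫ s in Icc (0 : ℝ) 1, (1 : ℝ) • a i k (x + s • w) :=
    h6.bdd
  have b5 : Bd fun k => ∑ i, (l i w : ℂ) • a i k x := by
    have e : (fun k => ∑ i, (l i w : ℂ) • a i k x) = ∑ i, (l i w : ℂ) • fun k => a i k x := by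
      funext k
      simp
    rw [e]
    exact Bd.sum _ fun i _ => (b3 i).smul _
  rw [e5, h7, e6, ← mk_sub b4 b5]
  refine norm_mk_le fun k => ?_
  simp only [Pi.sub_apply]
  rw [← Finset.sum_sub_distrib]
  have h8 : ∀ i, ‖(l i w : ℂ) • (∫ s in Icc (0 : ℝ) 1, (1 : ℝ) • a i k (x + s • w)) -
      (l i w : ℂ) • a i k x‖ ≤ ‖l i‖ * (C * ‖w‖ ^ 2) := by
    intro i
    have c1 : ContinuousOn (fun s : ℝ => a i k (x + s • w)) (Icc 0 1) :=
      ((hA' i).contv k).comp (f := fun s : ℝ => x + s • w) (by fun_prop) hsx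
    have e7 : (∫ s in Icc (0 : ℝ) 1, (1 : ℝ) • a i k (x + s • w)) - a i k x =
        ∫ s in Icc (0 : ℝ) 1, (a i k (x + s • w) - a i k x) := by
      rw [integral_sub (c1.integrableOn_compact isCompact_Icc) (integrable_const _),
        setIntegral_const]
      simp
    rw [← smul_sub, e7, norm_smul]
    have e8 : ‖∫ s in Icc (0 : ℝ) 1, (a i k (x + s • w) - a i k x)‖ ≤
        C * ‖w‖ * volume.real (Icc (0 : ℝ) 1) := by
      refine norm_setIntegral_le_of_norm_le_const isCompact_Icc.measure_lt_top fun s hs => ?_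
      refine ((hA' i).lip k _ (hsx s hs) _ hxρ).trans (mul_le_mul_of_nonneg_left ?_ hC)
      have : x + s • w - x = s • w := by abel
      rw [this, norm_smul, Real.norm_of_nonneg hs.1]
      exact mul_le_of_le_one_left (norm_nonneg _) hs.2
    have e9 : volume.real (Icc (0 : ℝ) 1) = 1 := by simp
    rw [e9, mul_one] at e8
    have e10 : ‖(l i w : ℂ)‖ ≤ ‖l i‖ * ‖w‖ := by
      rw [Complex.norm_real]
      exact (l i).le_opNorm w
    calc ‖(l i w : ℂ)‖ * ‖∫ s in Icc (0 : ℝ) 1, (a i k (x + s • w) - a i k x)‖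
        ≤ (‖l i‖ * ‖w‖) * (C * ‖w‖) := mul_le_mul e10 e8 (norm_nonneg _) (by positivity)
      _ = _ := by ring
  calc _ ≤ ∑ i, ‖(l i w : ℂ) • (∫ s in Icc (0 : ℝ) 1, (1 : ℝ) • a i k (x + s • w)) -
      (l i w : ℂ) • a i k x‖ := norm_sum_le _ _
    _ ≤ ∑ i, ‖l i‖ * (C * ‖w‖ ^ 2) := Finset.sum_le_sum fun i _ => h8 i
    _ = Lm * C * ‖w‖ ^ 2 := by rw [← Finset.sum_mul, ← hLm]; ring

end Vale.Agent.P284.H619.Pot
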