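import Vale.Agent.P284.H619.PotC
import Vale.Agent.P284.H619.Fib
import Vale.Agent.P284.H625.NS.Strt
import Vale.Agent.P272.K.Inv.Chart

/-!
# P284 (helper619), module POT: straight charts, approximation of functions on the covering
-/

open scoped Manifold ContDiff Topology ComplexConjugate
open MeasureTheory Set Filter Metric

noncomputable section

set_option linter.unusedSectionVars false

namespace Vale.Agent.P284.H619.Pot

open Vale.Agent.P272.K Vale.Agent.P284.H366 Vale.Agent.P284.H894.G Vale.Agent.P284.H894.W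

/-- two surjective linear maps differ by an automorphism -/
theorem exists_aut {n q : ℕ} {L L₀ : Cm n →L[ℂ] Cm q} (hL : Function.Surjective L)
    (hL₀ : Function.Surjective L₀) : ∃ A : Cm n ≃L[ℂ] Cm n, ∀ x, L (A x) = L₀ x := by
  have key : ∀ M : Cm n →ₗ[ℂ] Cm q, LinearMap.range M = ⊤ →
      ∃ e : Cm n ≃ₗ[ℂ] Cm q × LinearMap.ker M, ∀ x, (e x).1 = M x := by
    intro M hM
    obtain ⟨Q, hQ⟩ := Submodule.exists_isCompl (LinearMap.ker M)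
    refine ⟨LinearMap.equivProdOfSurjectiveOfIsCompl M (Submodule.projectionOnto _ Q hQ) hM
      (Submodule.range_projectionOnto hQ) (by rwa [Submodule.ker_projectionOnto]), ?_⟩
    intro x
    rfl
  obtain ⟨e, he⟩ := key L (LinearMap.range_eq_top.2 hL)
  obtain ⟨e₀, he₀⟩ := key L₀ (LinearMap.range_eq_top.2 hL₀)
  have hr : Module.finrank ℂ (LinearMap.ker (L₀ : Cm n →ₗ[ℂ] Cm q)) =
      Module.finrank ℂ (LinearMap.ker (L : Cm n →ₗ[ℂ] Cm q)) := by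
    have h1 := LinearMap.finrank_range_add_finrank_ker (L : Cm n →ₗ[ℂ] Cm q)
    have h2 := LinearMap.finrank_range_add_finrank_ker (L₀ : Cm n →ₗ[ℂ] Cm q)
    rw [LinearMap.range_eq_top.2 hL] at h1
    rw [LinearMap.range_eq_top.2 hL₀] at h2
    omega
  let κ := LinearEquiv.ofFinrankEq _ _ hr
  let A : Cm n ≃ₗ[ℂ] Cm n := e₀.trans (((LinearEquiv.refl ℂ (Cm q)).prodCongr κ).trans e.symm)
  refine ⟨A.toContinuousLinearEquiv, fun x => ?_⟩
  show L (A x) = L₀ x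
  have h1 : (e (A x)).1 = L₀ x := by
    show (e (e.symm _)).1 = _
    rw [e.apply_symm_apply]
    exact he₀ x
  rw [← h1]
  exact (he _).symm

/-- straight charts with a prescribed linear part -/
theorem exists_box {n q : ℕ} {t : Cm n → Cm q} {z₀ : Cm n} (ht : AnalyticAt ℂ t z₀)
    (hs : Function.Surjective (fderiv ℂ t z₀)) {L₀ : Cm n →L[ℂ] Cm q}
    (hL₀ : Function.Surjective L₀) :
    ∃ χ β : Cm n → Cm n, AnalyticAt ℂ χ 0 ∧ χ 0 = z₀ ∧ AnalyticAt ℂ β z₀ ∧ β z₀ = 0 ∧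
      (∀ᶠ z in 𝓝 z₀, χ (β z) = z) ∧ (∀ᶠ u in 𝓝 0, β (χ u) = u) ∧
      ∀ᶠ u in 𝓝 0, t (χ u) = t z₀ + L₀ u := by
  obtain ⟨s, φ, χ, -, hφ, hφ0, hχ, hχ0, h1, h2, h3⟩ := H625.exists_straight ht hs
  obtain ⟨A, hA⟩ := exists_aut hs hL₀
  have hA0 : Tendsto A (𝓝 0) (𝓝 0) := by
    have := A.continuous.tendsto 0
    rwa [map_zero] at this
  refine ⟨fun u => χ (A u), fun z => A.symm (φ z), ?_, by
    show χ (A 0) = z₀
    rw [map_zero, hχ0], ?_, by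
    show A.symm (φ z₀) = 0
    rw [hφ0, map_zero], ?_, ?_, ?_⟩
  · exact AnalyticAt.fun_comp (by rwa [map_zero]) ((A : Cm n →L[ℂ] Cm n).analyticAt 0)
  · exact ((A.symm : Cm n →L[ℂ] Cm n).analyticAt _).comp hφ
  · filter_upwards [h1] with z hz
    rw [A.apply_symm_apply, hz]
  · filter_upwards [hA0.eventually h2] with u hu
    rw [hu, A.symm_apply_apply]
  · filter_upwards [hA0.eventually h3] with u hu
    rw [hu, hA]

section
variable {n q : ℕ} {X : Type} [TopologicalSpace X] [ChartedSpace (Cm n) X]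
  {E : Type} [TopologicalSpace E] {p : E → X} {F : E → Cm q} {H : ℕ → Type}
  [∀ k, NormedAddCommGroup (H k)] [∀ k, InnerProductSpace ℂ (H k)] {U : Ultrafilter ℕ}

/-- approximation, for functions on the covering -/
def AE (n : ℕ) {X : Type} [TopologicalSpace X] [ChartedSpace (Cm n) X] (U : Ultrafilter ℕ)
    (p : E → X) (y : E) (v Ψ : ∀ k, E → H k) : Prop :=
  ∃ (e : Chart n X) (ν ψ : ∀ k, Cm n → H k), At e (p y) ∧
    (∀ᶠ y' in 𝓝 y, ∀ k, v k y' = ν k (e (p y')) ∧ Ψ k y' = ψ k (e (p y'))) ∧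
    Appr U (e (p y)) ν ψ

lemma AE.near (hp : IsCoveringMap p) {y : E} {v Ψ : ∀ k, E → H k} (h : AE n U p y v Ψ) :
    ∀ᶠ y' in 𝓝 y, AE n U p y' v Ψ := by
  obtain ⟨e, ν, ψ, he, h1, h2⟩ := h
  filter_upwards [h1.eventually_nhds, at_ev hp he, (ev_iff hp he).2 (Pot.near h2)] with y' g1 g2 g3
  exact ⟨e, ν, ψ, g2, g1, g3⟩

/-- approximation in a given chart -/
lemma AE.chart [IsManifold 𝓘(ℂ, Cm n) ω X] (hp : IsCoveringMap p) {y : E} {v Ψ : ∀ k, E → H k}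
    (h : AE n U p y v Ψ) {e : Chart n X} (he : At e (p y)) : ∃ ν ψ : ∀ k, Cm n → H k,
      (∀ᶠ y' in 𝓝 y, ∀ k, v k y' = ν k (e (p y')) ∧ Ψ k y' = ψ k (e (p y'))) ∧
      Appr U (e (p y)) ν ψ := by
  obtain ⟨e', ν, ψ, he', h1, h2⟩ := h
  have e1 : e' (e.symm (e (p y))) = e' (p y) := by rw [e.left_inv he.2]
  have e2 : e (e'.symm (e' (p y))) = e (p y) := by rw [e'.left_inv he'.2]
  have a1 : AnalyticAt ℂ (fun z => e' (e.symm z)) (e (p y)) := (transition he he').analyticAt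
  have a2 : AnalyticAt ℂ (fun z => e (e'.symm z)) (e' (p y)) := (transition he' he).analyticAt
  refine ⟨fun k z => ν k (e' (e.symm z)), fun k z => ψ k (e' (e.symm z)), ?_, ?_⟩
  · filter_upwards [h1, at_ev hp he] with y' g1 g2 k
    rw [e.left_inv g2.2]
    exact g1 k
  · refine comp (T := fun z => e' (e.symm z)) (T' := fun z => e (e'.symm z)) a1 (by rwa [e1]) ?_
      (by rwa [e1])
    rw [← ev_iff hp he]
    filter_upwards [at_ev hp he, at_ev hp he'] with y' g1 g2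
    rw [e.left_inv g1.2, e'.left_inv g2.2]

lemma ev_all (hp : IsCoveringMap p) {y : E} {e : Chart n X} (he : At e (p y)) {G : ℕ → Type*}
    {ψ ψ' : ∀ k, Cm n → G k} {Ψ : ∀ k, E → G k}
    (h : ∀ᶠ y' in 𝓝 y, ∀ k, Ψ k y' = ψ k (e (p y')))
    (h' : ∀ᶠ y' in 𝓝 y, ∀ k, Ψ k y' = ψ' k (e (p y'))) :
    ∀ᶠ z in 𝓝 (e (p y)), ∀ k, ψ k z = ψ' k z := by
  rw [← ev_iff hp he]
  filter_upwards [h, h'] with y' h1 h2 k
  rw [← h1, h2]

lemma AE.of_chart {y : E} {e : Chart n X} (he : At e (p y)) {v Ψ : ∀ k, E → H k}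
    {ν ψ : ∀ k, Cm n → H k} (h1 : ∀ᶠ y' in 𝓝 y, ∀ k, v k y' = ν k (e (p y')))
    (h2 : ∀ᶠ y' in 𝓝 y, ∀ k, Ψ k y' = ψ k (e (p y'))) (h : Appr U (e (p y)) ν ψ) :
    AE n U p y v Ψ :=
  ⟨e, ν, ψ, he, by filter_upwards [h1, h2] with y' g1 g2 k using ⟨g1 k, g2 k⟩, h⟩

lemma AE.congr {y : E} {v Ψ Ψ' : ∀ k, E → H k} (h : AE n U p y v Ψ)
    (hΨ : ∀ᶠ y' in 𝓝 y, ∀ k, Ψ k y' = Ψ' k y') : AE n U p y v Ψ' := by
  obtain ⟨e, ν, ψ, he, h1, h2⟩ := h
  refine ⟨e, ν, ψ, he, ?_, h2⟩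
  filter_upwards [h1, hΨ] with y' g1 g2 k
  exact ⟨(g1 k).1, by rw [← g2 k, (g1 k).2]⟩

lemma AE.sub [IsManifold 𝓘(ℂ, Cm n) ω X] (hp : IsCoveringMap p) {y : E}
    {v Ψ v' Ψ' : ∀ k, E → H k} (h : AE n U p y v Ψ) (h' : AE n U p y v' Ψ') :
    AE n U p y (fun k y => v k y - v' k y) (fun k y => Ψ k y - Ψ' k y) := by
  obtain ⟨e, ν, ψ, he, h1, h2⟩ := h
  obtain ⟨ν', ψ', h3, h4⟩ := h'.chart hp he
  refine ⟨e, fun k z => ν k z - ν' k z, fun k z => ψ k z - ψ' k z, he, ?_, h2.sub h4⟩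
  filter_upwards [h1, h3] with y' g1 g2 k
  exact ⟨by rw [(g1 k).1, (g2 k).1], by rw [(g1 k).2, (g2 k).2]⟩

lemma AE.add [IsManifold 𝓘(ℂ, Cm n) ω X] (hp : IsCoveringMap p) {y : E}
    {v Ψ v' Ψ' : ∀ k, E → H k} (h : AE n U p y v Ψ) (h' : AE n U p y v' Ψ') :
    AE n U p y (fun k y => v k y + v' k y) (fun k y => Ψ k y + Ψ' k y) := by
  obtain ⟨e, ν, ψ, he, h1, h2⟩ := h
  obtain ⟨ν', ψ', h3, h4⟩ := h'.chart hp he
  refine ⟨e, fun k z => ν k z + ν' k z, fun k z => ψ k z + ψ' k z, he, ?_, h2.add h4⟩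
  filter_upwards [h1, h3] with y' g1 g2 k
  exact ⟨by rw [(g1 k).1, (g2 k).1], by rw [(g1 k).2, (g2 k).2]⟩

lemma AE.mk_eq [IsManifold 𝓘(ℂ, Cm n) ω X] (hp : IsCoveringMap p) {y : E}
    {v v' Ψ : ∀ k, E → H k} (h : AE n U p y v Ψ) (h' : AE n U p y v' Ψ) :
    mk U (fun k => v k y) = mk U (fun k => v' k y) := by
  obtain ⟨e, ν, ψ, he, h1, h2⟩ := h
  obtain ⟨ν', ψ', h3, h4⟩ := h'.chart hp he
  have e1 : ∀ᶠ z in 𝓝 (e (p y)), ∀ k, ψ' k z = ψ k z :=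
    ev_all hp he (Ψ := Ψ) (h3.mono fun y' g k => (g k).2) (h1.mono fun y' g k => (g k).2)
  have h5 := h2.mk_eq (h4.congr (Eventually.of_forall fun _ _ => rfl) e1)
  have e2 : (fun k => v k y) = fun k => ν k (e (p y)) := funext fun k => (h1.self_of_nhds k).1
  have e3 : (fun k => v' k y) = fun k => ν' k (e (p y)) := funext fun k => (h3.self_of_nhds k).1
  rw [e2, e3, h5]

/-- functions of `F`: transfer between regular points of the same fibre -/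
lemma transfer [IsManifold 𝓘(ℂ, Cm n) ω X] (hp : IsCoveringMap p) (hF : HolE n p F) {t : Cm q}
    {y y₁ : E} (hy : F y = t) (hy₁ : F y₁ = t) (hr : Reg (n := n) p F y)
    (hr₁ : Reg (n := n) p F y₁) {e : Chart n X} (he : At e (p y)) {e₁ : Chart n X}
    (he₁ : At e₁ (p y₁)) {b : ∀ k, Cm q → H k} {w : ∀ k, E → H k}
    (h : AE n U p y w fun k y' => b k (F y')) :
    ∃ w' : ∀ k, E → H k, AE n U p y₁ w' fun k y' => b k (F y') := by
  obtain ⟨f, hf, hfan⟩ := hF y e he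
  obtain ⟨f₁, hf₁, hfan₁⟩ := hF y₁ e₁ he₁
  have hs := hr e f he hf
  have hs₁ := hr₁ e₁ f₁ he₁ hf₁
  obtain ⟨χ, β, hχ, hχ0, hβ, hβ0, hχβ, hβχ, hfχ⟩ := exists_box hfan hs (L₀ := fderiv ℂ f (e (p y))) hs
  obtain ⟨χ₁, β₁, hχ₁, hχ10, hβ₁, hβ10, hχβ₁, hβχ₁, hfχ₁⟩ :=
    exists_box hfan₁ hs₁ (L₀ := fderiv ℂ f (e (p y))) hs
  set L₀ := fderiv ℂ f (e (p y)) with hL₀
  have ht : f (e (p y)) = t := by rw [← hf.self_of_nhds, hy]
  have ht₁ : f₁ (e₁ (p y₁)) = t := by rw [← hf₁.self_of_nhds, hy₁]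
  obtain ⟨ν, ψ, h1, h2⟩ := h.chart hp he
  have hψ : ∀ᶠ z in 𝓝 (e (p y)), ∀ k, ψ k z = b k (f z) := by
    refine ev_all hp he (Ψ := fun k y' => b k (F y')) (ψ' := fun k z => b k (f z))
      (h1.mono fun y' g k => (g k).2) ?_
    filter_upwards [hf] with y' g k
    rw [g]
  -- in the straight chart at `y`
  have hχc : Tendsto χ (𝓝 0) (𝓝 (e (p y))) := by
    have := hχ.continuousAt.tendsto
    rwa [hχ0] at this
  have h3 : Appr U 0 (fun k u => ν k (χ u)) (fun k u => ψ k (χ u)) :=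
    comp (T := χ) (T' := β) hχ (by rwa [hχ0]) hβχ (by rwa [hχ0])
  have h4 : Appr U 0 (fun k u => ν k (χ u)) (fun k u => b k (t + L₀ u)) := by
    refine h3.congr (Eventually.of_forall fun _ _ => rfl) ?_
    filter_upwards [hχc.eventually hψ, hfχ] with u g1 g2 k
    rw [g1, g2, ht]
  -- in the straight chart at `y₁`
  have h5 : Appr U (e₁ (p y₁)) (fun k z => ν k (χ (β₁ z))) (fun k z => b k (t + L₀ (β₁ z))) :=
    comp (T := β₁) (T' := χ₁) (v := fun k u => ν k (χ u)) (φ := fun k u => b k (t + L₀ u))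
      hβ₁ (by rwa [hβ10]) hχβ₁ (by rwa [hβ10])
  have hβc : Tendsto β₁ (𝓝 (e₁ (p y₁))) (𝓝 0) := by
    have := hβ₁.continuousAt.tendsto
    rwa [hβ10] at this
  refine ⟨fun k y' => ν k (χ (β₁ (e₁ (p y')))), e₁, _, _, he₁, ?_, h5⟩
  filter_upwards [hf₁, (ev_iff hp he₁).2 hχβ₁, (ev_iff hp he₁).2 (hβc.eventually hfχ₁)] with
    y' g1 g2 g3 k
  refine ⟨rfl, ?_⟩
  rw [g1, ← ht₁, ← g3, g2]

end

end Vale.Agent.P284.H619.Pot
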