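import Vale.Agent.P284.H619.PotD
import Vale.Agent.P284.H619.Fib2

/-!
# P284 (helper619), module POT: the potential along a connected regular fibre
-/

open scoped Manifold ContDiff Topology ComplexConjugate
open MeasureTheory Set Filter Metric

noncomputable section

set_option linter.unusedSectionVars false

namespace Vale.Agent.P284.H619.Pot

open Vale.Agent.P272.K Vale.Agent.P284.H366 Vale.Agent.P284.H894.G Vale.Agent.P284.H894.W

section real
variable {V G : Type*} [NormedAddCommGroup V] [NormedSpace ℂ V] [NormedAddCommGroup G]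
  [NormedSpace ℂ G]

/-- an antilinear map as a real linear map -/
def toR (J : V →SL[starRingEnd ℂ] G) : V →L[ℝ] G :=
  AddMonoidHom.toRealLinearMap (J : V →+ G) J.continuous

@[simp] lemma toR_apply (J : V →SL[starRingEnd ℂ] G) (x : V) : toR J x = J x := rfl

lemma hasFDerivAt_of_sq {n : ℕ} {f : Cm n → G} {f' : Cm n →L[ℝ] G} {x : Cm n} {C : ℝ}
    (h : ∀ᶠ y in 𝓝 x, ‖f y - f x - f' (y - x)‖ ≤ C * ‖y - x‖ ^ 2) : HasFDerivAt f f' x := by
  rw [hasFDerivAt_iff_isLittleO]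
  refine Asymptotics.IsBigO.trans_isLittleO (g := fun y => ‖y - x‖ ^ 2) ?_ ?_
  · refine Asymptotics.IsBigO.of_bound C ?_
    filter_upwards [h] with y hy
    rwa [Real.norm_of_nonneg (by positivity)]
  · have h1 : Tendsto (fun y : Cm n => y - x) (𝓝 x) (𝓝 0) := by
      have : Continuous fun y : Cm n => y - x := by fun_prop
      simpa using this.tendsto x
    have h2 := (Asymptotics.isLittleO_norm_pow_id (E' := Cm n) one_lt_two).comp_tendsto h1
    simpa [Function.comp_def] using h2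

/-- the holomorphic part of the differential and composition with holomorphic maps -/
lemma DH_comp {n : ℕ} {φ : Cm n → G} {χ : Cm n → Cm n} {x : Cm n}
    (hφ : DifferentiableAt ℝ φ (χ x)) (hχ : DifferentiableAt ℂ χ x) (v : Cm n) :
    DH (fun u => φ (χ u)) x v = DH φ (χ x) (fderiv ℂ χ x v) := by
  have h1 : HasFDerivAt (fun u => φ (χ u)) ((fderiv ℝ φ (χ x)).comp
      ((fderiv ℂ χ x).restrictScalars ℝ)) x :=
    hφ.hasFDerivAt.comp x (hχ.hasFDerivAt.restrictScalars ℝ)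
  have h2 : ∀ v, fderiv ℝ (fun u => φ (χ u)) x v = fderiv ℝ φ (χ x) (fderiv ℂ χ x v) := by
    intro v
    rw [h1.fderiv]
    rfl
  rw [DH, DH, h2, h2, map_smul]

lemma J_DH {n : ℕ} {φ : Cm n → G} {J : G →SL[starRingEnd ℂ] G} {x : Cm n}
    (hφ : DifferentiableAt ℝ φ x) (hJ : ∀ᶠ y in 𝓝 x, J (φ y) = φ y) (v : Cm n) :
    J (DH φ x v) = DB φ x v := by
  have h1 : HasFDerivAt (fun y => J (φ y)) ((toR J).comp (fderiv ℝ φ x)) x :=
    (toR J).hasFDerivAt.comp x hφ.hasFDerivAt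
  have h2 : HasFDerivAt φ ((toR J).comp (fderiv ℝ φ x)) x :=
    h1.congr_of_eventuallyEq (hJ.mono fun y hy => hy.symm)
  have h3 : ∀ v, J (fderiv ℝ φ x v) = fderiv ℝ φ x v := fun v =>
    DFunLike.congr_fun h2.fderiv.symm v
  have h4 : (starRingEnd ℂ) (1 / 2) = 1 / 2 := by simp [map_ofNat]
  rw [DH, DB_apply, J.map_smulₛₗ, map_sub, J.map_smulₛₗ, h3, h3, h4, Complex.conj_I, neg_smul,
    sub_neg_eq_add]

end real

section
variable {n q : ℕ} {X : Type} [TopologicalSpace X] [ChartedSpace (Cm n) X]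
  {E : Type} [TopologicalSpace E] {p : E → X} {F : E → Cm q} {H : ℕ → Type}
  [∀ k, NormedAddCommGroup (H k)] [∀ k, InnerProductSpace ℂ (H k)] {U : Ultrafilter ℕ}

/-- Local data at the point `y`: `f` and `φ k` are the local expressions of `F` and `Φ k` in the chart
`e`, and the holomorphic vertical derivatives of `φ k` converge to those of `G`. -/
structure LocD (U : Ultrafilter ℕ) (p : E → X) (F : E → Cm q) (Φ : ∀ k, E → H k)
    (J : ∀ k, H k →SL[starRingEnd ℂ] H k) (y : E) (e : Chart n X) (f : Cm n → Cm q)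
    (φ : ∀ k, Cm n → H k) (G : Cm n → UP H U) : Prop where
  mem : At e (p y)
  fan : AnalyticAt ℂ f (e (p y))
  fev : ∀ᶠ y' in 𝓝 y, F y' = f (e (p y'))
  φev : ∀ᶠ y' in 𝓝 y, ∀ k, Φ k y' = φ k (e (p y'))
  φd : ∀ᶠ z in 𝓝 (e (p y)), ∀ k, ContDiffAt ℝ 1 (φ k) z
  φJ : ∀ᶠ z in 𝓝 (e (p y)), ∀ k, J k (φ k z) = φ k z
  Gan : AnalyticAt ℂ G (e (p y))
  ap : ∀ V : Cm n → Cm n, AnalyticAt ℂ V (e (p y)) →
    (∀ᶠ z in 𝓝 (e (p y)), fderiv ℂ f z (V z) = 0) → ∃ α : ∀ k, Cm n → H k,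
      Appr U (e (p y)) α (fun k z => DH (φ k) z (V z)) ∧
      ∀ᶠ z in 𝓝 (e (p y)), mk U (fun k => α k z) = fderiv ℂ G z (V z)

variable {Φ : ∀ k, E → H k} {J : ∀ k, H k →SL[starRingEnd ℂ] H k} {y : E} {e : Chart n X}
  {f : Cm n → Cm q} {φ : ∀ k, Cm n → H k} {G : Cm n → UP H U}

lemma Jbd (hJ : ∀ k x, ‖J k x‖ ≤ ‖x‖) : ∃ C : ℝ, ∀ k, ‖J k‖ ≤ C :=
  ⟨1, fun k => ContinuousLinearMap.opNorm_le_bound _ zero_le_one fun x => by
    rw [one_mul]; exact hJ k x⟩

/-- the derivatives in constant vertical directions of a straight chart -/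
lemma LocD.dirs (h : LocD U p F Φ J y e f φ G) (hJ : ∀ k x, ‖J k x‖ ≤ ‖x‖) {χ β : Cm n → Cm n}
    (hχ : AnalyticAt ℂ χ 0) (hχ0 : χ 0 = e (p y)) (hβ : AnalyticAt ℂ β (e (p y)))
    (hβ0 : β (e (p y)) = 0) (hχβ : ∀ᶠ z in 𝓝 (e (p y)), χ (β z) = z)
    (hβχ : ∀ᶠ u in 𝓝 (0 : Cm n), β (χ u) = u) {L₀ : Cm n →L[ℂ] Cm q}
    (hf : ∀ᶠ u in 𝓝 (0 : Cm n), f (χ u) = f (e (p y)) + L₀ u) {w : Cm n} (hw : L₀ w = 0) :
    ∃ a : ∀ k, Cm n → H k, Appr U 0 a (fun k u => fderiv ℝ (fun u => φ k (χ u)) u w) ∧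
      ∀ᶠ u in 𝓝 (0 : Cm n), H366.mk U (fun k => a k u) = fderiv ℂ (fun u => G (χ u)) u w +
        upMap U J (Jbd hJ) (fderiv ℂ (fun u => G (χ u)) u w) := by
  have hχc : Tendsto χ (𝓝 0) (𝓝 (e (p y))) := by
    have := hχ.continuousAt.tendsto
    rwa [hχ0] at this
  have hβc : Tendsto β (𝓝 (e (p y))) (𝓝 0) := by
    have := hβ.continuousAt.tendsto
    rwa [hβ0] at this
  -- the vertical vector field
  have hV : AnalyticAt ℂ (fun z => fderiv ℂ χ (β z) w) (e (p y)) := by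
    have h1 : AnalyticAt ℂ (fun z => fderiv ℂ χ (β z)) (e (p y)) :=
      AnalyticAt.fun_comp (by rw [hβ0]; exact hχ.fderiv) hβ
    exact ((ContinuousLinearMap.apply ℂ (Cm n) w).analyticAt _).comp h1
  have hd : ∀ᶠ u in 𝓝 (0 : Cm n), fderiv ℂ f (χ u) (fderiv ℂ χ u w) = 0 := by
    filter_upwards [hf.eventually_nhds, hχ.eventually_analyticAt,
      hχc.eventually h.fan.eventually_analyticAt] with u g1 g2 g3
    have k1 : HasFDerivAt (fun u => f (χ u)) ((fderiv ℂ f (χ u)).comp (fderiv ℂ χ u)) u :=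
      g3.differentiableAt.hasFDerivAt.comp u g2.differentiableAt.hasFDerivAt
    have k2 : HasFDerivAt (fun u => f (χ u)) L₀ u :=
      (L₀.hasFDerivAt.const_add (f (e (p y)))).congr_of_eventuallyEq g1
    have := DFunLike.congr_fun (k1.unique k2) w
    rw [hw] at this
    exact this
  obtain ⟨α, hα, hαG⟩ := h.ap (fun z => fderiv ℂ χ (β z) w) hV (by
    filter_upwards [hβc.eventually hd, hχβ] with z g1 g2
    rwa [g2] at g1)
  have h1 : Appr U 0 (fun k u => α k (χ u)) (fun k u => DH (φ k) (χ u) (fderiv ℂ χ (β (χ u)) w)) :=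
    comp (T := χ) (T' := β) (v := α) (φ := fun k z => DH (φ k) z (fderiv ℂ χ (β z) w)) hχ
      (by rwa [hχ0]) hβχ (by rwa [hχ0])
  have h2 : Appr U 0 (fun k u => α k (χ u)) (fun k u => DH (fun u => φ k (χ u)) u w) := by
    refine h1.congr (Eventually.of_forall fun _ _ => rfl) ?_
    filter_upwards [hβχ, hχc.eventually h.φd, hχ.eventually_analyticAt] with u g1 g2 g3 k
    rw [g1, DH_comp ((g2 k).differentiableAt one_ne_zero) g3.differentiableAt]
  have h3 : Appr U 0 (fun k u => J k (α k (χ u))) (fun k u => J k (DH (fun u => φ k (χ u)) u w)) :=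
    mapJ (J := fun k x => J k x) (fun k x y => by rw [← map_sub]; exact hJ k _)
      (fun k => map_zero _) h2
  refine ⟨fun k u => α k (χ u) + J k (α k (χ u)), (h2.add h3).congr
    (Eventually.of_forall fun _ _ => rfl) ?_, ?_⟩
  · filter_upwards [hχc.eventually h.φd, (hχc.eventually h.φJ).eventually_nhds,
      hχ.eventually_analyticAt] with u g2 g3 g4 k
    have hdφ : DifferentiableAt ℝ (fun u => φ k (χ u)) u :=
      ((g2 k).differentiableAt one_ne_zero).comp u (g4.differentiableAt.restrictScalars ℝ)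
    rw [J_DH (J := J k) hdφ (g3.mono fun u' hu' => hu' k), DH_add_DB]
  · filter_upwards [hβχ, hχc.eventually hαG, Pot.near h2, hχ.eventually_analyticAt,
      hχc.eventually h.Gan.eventually_analyticAt] with u g1 g2 g3 g4 g5
    have b1 : Bd fun k => α k (χ u) := g3.bdd
    have e1 : fderiv ℂ (fun u => G (χ u)) u w = H366.mk U fun k => α k (χ u) := by
      rw [g2, g1]
      have : HasFDerivAt (fun u => G (χ u)) ((fderiv ℂ G (χ u)).comp (fderiv ℂ χ u)) u :=
        g5.differentiableAt.hasFDerivAt.comp u g4.differentiableAt.hasFDerivAt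
      rw [this.fderiv]
      rfl
    rw [e1, upMap_mk (Jbd hJ) b1]
    exact mk_add b1 (Bd.map (Jbd hJ) b1)

/-- real directions spanning the kernel -/
lemma exists_dirs {L₀ : Cm n →L[ℂ] Cm q} {s₀ : Cm q →L[ℂ] Cm n} (hs : ∀ w, L₀ (s₀ w) = w) :
    ∃ (wv : Fin n ⊕ Fin n → Cm n) (l : Fin n ⊕ Fin n → Cm n →L[ℝ] ℝ),
      (∀ w, w - s₀ (L₀ w) = ∑ i, l i w • wv i) ∧ ∀ i, L₀ (wv i) = 0 := by
  set P : Cm n →L[ℂ] Cm n := ContinuousLinearMap.id ℂ (Cm n) - s₀.comp L₀ with hP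
  have hPa : ∀ w, P w = w - s₀ (L₀ w) := fun w => rfl
  have hLP : ∀ w, L₀ (P w) = 0 := fun w => by rw [hPa, map_sub, hs, sub_self]
  refine ⟨fun i => P (Sum.elim (fun j => Pi.single j 1) (fun j => Pi.single j Complex.I) i),
    fun i => Sum.elim
      (fun j => Complex.reCLM.comp (ContinuousLinearMap.proj (R := ℝ) (φ := fun _ : Fin n => ℂ) j))
      (fun j => Complex.imCLM.comp (ContinuousLinearMap.proj (R := ℝ) (φ := fun _ : Fin n => ℂ) j))
      i, fun w => ?_, fun i => hLP _⟩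
  rw [← hPa, Fintype.sum_sum_type]
  simp only [Sum.elim_inl, Sum.elim_inr, ContinuousLinearMap.comp_apply,
    ContinuousLinearMap.proj_apply, Complex.reCLM_apply, Complex.imCLM_apply]
  rw [← Finset.sum_add_distrib]
  have e1 : w = ∑ j, ((w j).re • (Pi.single j 1 : Cm n) + (w j).im • (Pi.single j Complex.I : Cm n)) := by
    ext i
    rw [Finset.sum_apply, Finset.sum_eq_single i]
    · simp [Complex.re_add_im]
    · intro j _ hj
      simp [Pi.single_eq_of_ne hj.symm]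
    · intro hi
      exact absurd (Finset.mem_univ i) hi
  have e2 : ∀ (r : ℝ) (x : Cm n), P (r • x) = r • P x := fun r x => by
    have : r • x = (r : ℂ) • x := (Complex.coe_smul r x).symm
    rw [this, map_smul]
    exact Complex.coe_smul r (P x)
  conv_lhs => rw [e1, map_sum]
  refine Finset.sum_congr rfl fun j _ => ?_
  rw [map_add, e2, e2]

lemma exists_rinv {L₀ : Cm n →L[ℂ] Cm q} (h : Function.Surjective L₀) :
    ∃ s₀ : Cm q →L[ℂ] Cm n, ∀ w, L₀ (s₀ w) = w := by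
  obtain ⟨s', hs'⟩ := (L₀ : Cm n →ₗ[ℂ] Cm q).exists_rightInverse_of_surjective
    (LinearMap.range_eq_top.2 h)
  exact ⟨LinearMap.toContinuousLinearMap s', fun w => LinearMap.congr_fun hs' w⟩

/-- local approximation, after subtraction of a function of `F` -/
lemma LocD.loc [∀ k, CompleteSpace (H k)] (h : LocD U p F Φ J y e f φ G)
    (hp : IsCoveringMap p) (hJ : ∀ k x, ‖J k x‖ ≤ ‖x‖)
    (hs : Function.Surjective (fderiv ℂ f (e (p y)))) :
    ∃ (b : ∀ k, Cm q → H k) (v : ∀ k, E → H k), AE n U p y v fun k y' => Φ k y' - b k (F y') := by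
  obtain ⟨χ, β, hχ, hχ0, hβ, hβ0, hχβ, hβχ, hfχ⟩ := exists_box h.fan hs
    (L₀ := fderiv ℂ f (e (p y))) hs
  obtain ⟨s₀, hs₀⟩ := exists_rinv hs
  set L₀ := fderiv ℂ f (e (p y)) with hL₀
  obtain ⟨wv, l, hP, hwv⟩ := exists_dirs hs₀
  have hdir : ∀ i, ∃ a : ∀ k, Cm n → H k,
      Appr U 0 a (fun k u => fderiv ℝ (fun u => φ k (χ u)) u (wv i)) := fun i => by
    obtain ⟨a, ha, -⟩ := h.dirs hJ hχ hχ0 hβ hβ0 hχβ hβχ hfχ (hwv i)
    exact ⟨a, ha⟩
  choose a ha using hdir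
  have hχc : Tendsto χ (𝓝 0) (𝓝 (e (p y))) := by
    have := hχ.continuousAt.tendsto
    rwa [hχ0] at this
  have hβc : Tendsto β (𝓝 (e (p y))) (𝓝 0) := by
    have := hβ.continuousAt.tendsto
    rwa [hβ0] at this
  obtain ⟨b, v, hv⟩ := box hP (φ := fun k u => φ k (χ u)) (by
    filter_upwards [hχc.eventually h.φd, hχ.eventually_analyticAt] with u g1 g2 k
    exact ContDiffAt.comp (f := χ) u (g1 k) (g2.contDiffAt.restrict_scalars ℝ)) ha
  have h5 : Appr U (e (p y)) (fun k z => v k (β z))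
      (fun k z => φ k (χ (β z)) - b k (L₀ (β z))) :=
    comp (T := β) (T' := χ) (v := v) (φ := fun k u => φ k (χ u) - b k (L₀ u)) hβ
      (by rwa [hβ0]) hχβ (by rwa [hβ0])
  refine ⟨fun k τ => b k (τ - f (e (p y))), fun k y' => v k (β (e (p y'))), e, _, _, h.mem, ?_, h5⟩
  filter_upwards [h.fev, h.φev, (ev_iff hp h.mem).2 hχβ,
    (ev_iff hp h.mem).2 (hβc.eventually hfχ)] with y' g1 g2 g3 g4 k
  refine ⟨rfl, ?_⟩
  rw [g3] at g4
  rw [g2, g1, g4, add_sub_cancel_left, g3]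

end

end Vale.Agent.P284.H619.Pot
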