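import Vale.Agent.P284.H619.PotE

/-!
# P284 (helper619), module POT: existence of the potential along a connected regular fibre
-/

open scoped Manifold ContDiff Topology ComplexConjugate
open MeasureTheory Set Filter Metric

noncomputable section

set_option linter.unusedSectionVars false

namespace Vale.Agent.P284.H619.Pot

open Vale.Agent.P272.K Vale.Agent.P284.H366 Vale.Agent.P284.H894.G Vale.Agent.P284.H894.W

section
variable {n q : ℕ} {X : Type} [TopologicalSpace X] [ChartedSpace (Cm n) X]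
  [IsManifold 𝓘(ℂ, Cm n) ω X]
  {E : Type} [TopologicalSpace E] {p : E → X} {F : E → Cm q} {H : ℕ → Type}
  [∀ k, NormedAddCommGroup (H k)] [∀ k, InnerProductSpace ℂ (H k)] {U : Ultrafilter ℕ}
  {Φ : ∀ k, E → H k} {J : ∀ k, H k →SL[starRingEnd ℂ] H k}

/-- **Propagation** along the connected regular fibre. -/
theorem exists_base [∀ k, CompleteSpace (H k)] (hp : IsCoveringMap p) (hF : HolE n p F) {t : Cm q}
    (hc : IsConnected (F ⁻¹' {t})) (hreg : ∀ y, F y = t → Reg (n := n) p F y)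
    (hJ : ∀ k x, ‖J k x‖ ≤ ‖x‖) (hloc : ∀ y, F y = t →
      ∃ (e : Chart n X) (f : Cm n → Cm q) (φ : ∀ k, Cm n → H k) (G : Cm n → UP H U),
        LocD U p F Φ J y e f φ G) :
    ∃ b : ∀ k, Cm q → H k, ∀ y, F y = t →
      ∃ v : ∀ k, E → H k, AE n U p y v fun k y' => Φ k y' - b k (F y') := by
  have hbox : ∀ y, F y = t → ∃ (b : ∀ k, Cm q → H k) (v : ∀ k, E → H k),
      AE n U p y v fun k y' => Φ k y' - b k (F y') := by
    intro y hy
    obtain ⟨e, f, φ, G, h⟩ := hloc y hy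
    exact h.loc hp hJ (hreg y hy e f h.mem h.fev)
  obtain ⟨y₀, hy₀⟩ := hc.nonempty
  obtain ⟨b, v₀, hb⟩ := hbox y₀ hy₀
  refine ⟨b, fib_ind hc.isPreconnected (P := fun y => ∃ v : ∀ k, E → H k,
    AE n U p y v fun k y' => Φ k y' - b k (F y')) (fun y₁ hy₁ => ?_) hy₀ ⟨v₀, hb⟩⟩
  by_cases h₁ : ∃ v : ∀ k, E → H k, AE n U p y₁ v fun k y' => Φ k y' - b k (F y')
  · obtain ⟨v, hv⟩ := h₁
    filter_upwards [hv.near hp] with y hy _
    exact ⟨fun _ => ⟨v, hy⟩, fun _ => ⟨v, hv⟩⟩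
  · obtain ⟨b₁, v₁, hb₁⟩ := hbox y₁ hy₁
    obtain ⟨e₁, f₁, φ₁, G₁, hl₁⟩ := hloc y₁ hy₁
    filter_upwards [hb₁.near hp, at_ev hp hl₁.mem] with y hy he hyt
    refine ⟨fun h => absurd h h₁, fun ⟨v, hv⟩ => ?_⟩
    exfalso
    apply h₁
    have h2 : AE n U p y (fun k y => v k y - v₁ k y) (fun k y' => b₁ k (F y') - b k (F y')) :=
      (hv.sub hp hy).congr (Eventually.of_forall fun y' k => by abel)
    obtain ⟨w, hw⟩ := transfer (b := fun k τ => b₁ k τ - b k τ) hp hF hyt hy₁ (hreg y hyt)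
      (hreg y₁ hy₁) he hl₁.mem h2
    exact ⟨_, (hb₁.add hp hw).congr (Eventually.of_forall fun y' k => by abel)⟩

variable {y : E} {e : Chart n X} {f : Cm n → Cm q} {φ : ∀ k, Cm n → H k} {G : Cm n → UP H U}

/-- **Local formula** for the potential. -/
theorem LocD.formula [∀ k, CompleteSpace (H k)] (h : LocD U p F Φ J y e f φ G)
    (hp : IsCoveringMap p) (hJ : ∀ k x, ‖J k x‖ ≤ ‖x‖)
    (hs : Function.Surjective (fderiv ℂ f (e (p y)))) {t : Cm q} (hy : F y = t)
    {b : ∀ k, Cm q → H k} {v : ∀ k, E → H k}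
    (hv : AE n U p y v fun k y' => Φ k y' - b k (F y')) :
    ∃ c₀ : UP H U, ∀ᶠ y' in 𝓝 y, F y' = t → H366.mk U (fun k => v k y') =
      G (e (p y')) + upMap U J (Jbd hJ) (G (e (p y'))) + c₀ := by
  obtain ⟨χ, β, hχ, hχ0, hβ, hβ0, hχβ, hβχ, hfχ⟩ := exists_box h.fan hs
    (L₀ := fderiv ℂ f (e (p y))) hs
  obtain ⟨s₀, hs₀⟩ := exists_rinv hs
  set L₀ := fderiv ℂ f (e (p y)) with hL₀
  obtain ⟨wv, l, hP, hwv⟩ := exists_dirs hs₀
  set JU : UP H U →SL[starRingEnd ℂ] UP H U := upMap U J (Jbd hJ) with hJU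
  set G' : Cm n → UP H U := fun u => G (χ u) with hG'
  have hdir : ∀ i, ∃ a : ∀ k, Cm n → H k,
      Appr U 0 a (fun k u => fderiv ℝ (fun u => φ k (χ u)) u (wv i)) ∧
      ∀ᶠ u in 𝓝 (0 : Cm n), H366.mk U (fun k => a k u) = fderiv ℂ G' u (wv i) +
        JU (fderiv ℂ G' u (wv i)) := fun i => h.dirs hJ hχ hχ0 hβ hβ0 hχβ hβχ hfχ (hwv i)
  choose a ha ha' using hdir
  have hχc : Tendsto χ (𝓝 0) (𝓝 (e (p y))) := by
    have := hχ.continuousAt.tendsto
    rwa [hχ0] at this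
  have hβc : Tendsto β (𝓝 (e (p y))) (𝓝 0) := by
    have := hβ.continuousAt.tendsto
    rwa [hβ0] at this
  have ht : f (e (p y)) = t := by rw [← h.fev.self_of_nhds, hy]
  obtain ⟨ν, ψ, h1, h2⟩ := hv.chart hp h.mem
  have hψ : ∀ᶠ z in 𝓝 (e (p y)), ∀ k, ψ k z = φ k z - b k (f z) := by
    refine ev_all hp h.mem (Ψ := fun k y' => Φ k y' - b k (F y'))
      (ψ' := fun k z => φ k z - b k (f z)) (h1.mono fun y' g k => (g k).2) ?_
    filter_upwards [h.fev, h.φev] with y' g1 g2 k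
    rw [g1, g2]
  have h3 : Appr U 0 (fun k u => ν k (χ u)) (fun k u => ψ k (χ u)) :=
    comp (T := χ) (T' := β) hχ (by rwa [hχ0]) hβχ (by rwa [hχ0])
  have h4 : Appr U 0 (fun k u => ν k (χ u)) (fun k u => φ k (χ u) - b k (t + L₀ u)) := by
    refine h3.congr (Eventually.of_forall fun _ _ => rfl) ?_
    filter_upwards [hχc.eventually hψ, hfχ] with u g1 g2 k
    rw [g1, g2, ht]
  obtain ⟨ρ, C, hρ, hder⟩ := deriv_lim hP (φ := fun k u => φ k (χ u)) (by
    filter_upwards [hχc.eventually h.φd, hχ.eventually_analyticAt] with u g1 g2 k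
    exact ContDiffAt.comp (f := χ) u (g1 k) (g2.contDiffAt.restrict_scalars ℝ)) ha
    (b := fun k τ => b k (t + τ)) h4
  -- the projection
  set P : Cm n →L[ℂ] Cm n := ContinuousLinearMap.id ℂ (Cm n) - s₀.comp L₀ with hPdef
  have hPa : ∀ w, P w = w - s₀ (L₀ w) := fun w => rfl
  have hLP : ∀ w, L₀ (P w) = 0 := fun w => by rw [hPa, map_sub, hs₀, sub_self]
  have hP0 : Tendsto P (𝓝 0) (𝓝 0) := by
    have := P.continuous.tendsto 0
    rwa [map_zero] at this
  -- the derivative of the limit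
  set D : Cm n → Cm n →L[ℝ] UP H U := fun u =>
    ((fderiv ℂ G' (P u)).comp P).restrictScalars ℝ +
      (toR JU).comp (((fderiv ℂ G' (P u)).comp P).restrictScalars ℝ) with hD
  have hG'an : AnalyticAt ℂ G' 0 := AnalyticAt.fun_comp (by rw [hχ0]; exact h.Gan) hχ
  have hgood : ∀ᶠ u in 𝓝 (0 : Cm n), P u ∈ ball (0 : Cm n) ρ ∧ AnalyticAt ℂ G' (P u) ∧
      ∀ i, H366.mk U (fun k => a i k (P u)) = fderiv ℂ G' (P u) (wv i) +
        JU (fderiv ℂ G' (P u) (wv i)) := by
    have e1 : ∀ᶠ u in 𝓝 (0 : Cm n), ∀ i, H366.mk U (fun k => a i k u) = fderiv ℂ G' u (wv i) +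
        JU (fderiv ℂ G' u (wv i)) := eventually_all.2 ha'
    filter_upwards [hP0.eventually (ball_mem_nhds 0 hρ), hP0.eventually hG'an.eventually_analyticAt,
      hP0.eventually e1] with u g1 g2 g3
    exact ⟨g1, g2, g3⟩
  obtain ⟨r, hr, hrb⟩ := Metric.eventually_nhds_iff_ball.1 hgood
  set T : Cm n → UP H U := fun u => H366.mk U fun k => ν k (χ (P u)) with hT
  set Kf : Cm n → UP H U := fun u => T u - (G' (P u) + JU (G' (P u))) with hKf
  have hTd : ∀ u ∈ ball (0 : Cm n) r, HasFDerivAt T (D u) u := by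
    intro u hu
    obtain ⟨g1, g2, g3⟩ := hrb u hu
    refine hasFDerivAt_of_sq (C := |C| * ‖P‖ ^ 2) ?_
    have hc1 : Tendsto (fun u' : Cm n => P (u' - u)) (𝓝 u) (𝓝 0) := by
      have : Continuous fun u' : Cm n => P (u' - u) := by fun_prop
      have h := this.tendsto u
      rwa [sub_self, map_zero] at h
    filter_upwards [hc1.eventually (ball_mem_nhds 0 hρ)] with u' hu'
    have k1 := hder (P u) g1 (P (u' - u)) (hLP _) (by simpa using hu')
    have k2 : P u + P (u' - u) = P u' := by rw [← map_add]; congr 1; abel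
    have k3 : ∑ i, (l i (P (u' - u)) : ℂ) • H366.mk U (fun k => a i k (P u)) = D u (u' - u) := by
      have m1 : P (u' - u) = ∑ i, l i (P (u' - u)) • wv i := by
        rw [← hP, hLP, map_zero, sub_zero]
      have m2 : fderiv ℂ G' (P u) (P (u' - u)) =
          ∑ i, (l i (P (u' - u)) : ℂ) • fderiv ℂ G' (P u) (wv i) := by
        conv_lhs => rw [m1, map_sum]
        refine Finset.sum_congr rfl fun i _ => ?_
        have : l i (P (u' - u)) • wv i = (l i (P (u' - u)) : ℂ) • wv i :=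
          (Complex.coe_smul _ _).symm
        rw [this, map_smul]
      show _ = fderiv ℂ G' (P u) (P (u' - u)) + JU (fderiv ℂ G' (P u) (P (u' - u)))
      rw [m2, map_sum, ← Finset.sum_add_distrib]
      refine Finset.sum_congr rfl fun i _ => ?_
      rw [g3 i, smul_add, JU.map_smulₛₗ, Complex.conj_ofReal]
    rw [k2, k3] at k1
    refine k1.trans ?_
    have hC : ‖P (u' - u)‖ ^ 2 ≤ ‖P‖ ^ 2 * ‖u' - u‖ ^ 2 := by
      rw [← mul_pow]
      exact pow_le_pow_left₀ (norm_nonneg _) (P.le_opNorm _) 2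
    calc C * ‖P (u' - u)‖ ^ 2 ≤ |C| * ‖P (u' - u)‖ ^ 2 :=
          mul_le_mul_of_nonneg_right (le_abs_self C) (sq_nonneg _)
      _ ≤ |C| * (‖P‖ ^ 2 * ‖u' - u‖ ^ 2) := mul_le_mul_of_nonneg_left hC (abs_nonneg C)
      _ = _ := by ring
  have hKd : ∀ u ∈ ball (0 : Cm n) r, HasFDerivAt Kf (0 : Cm n →L[ℝ] UP H U) u := by
    intro u hu
    obtain ⟨g1, g2, g3⟩ := hrb u hu
    have m1 : HasFDerivAt (fun u => G' (P u)) (((fderiv ℂ G' (P u)).comp P).restrictScalars ℝ) u :=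
      (g2.differentiableAt.hasFDerivAt.comp u P.hasFDerivAt).restrictScalars ℝ
    have m2 : HasFDerivAt (fun u => JU (G' (P u)))
        ((toR JU).comp (((fderiv ℂ G' (P u)).comp P).restrictScalars ℝ)) u :=
      (toR JU).hasFDerivAt.comp u m1
    have m3 := (hTd u hu).sub (m1.add m2)
    refine m3.congr_fderiv ?_
    rw [hD]
    simp
  refine ⟨Kf 0, ?_⟩
  have hconst : ∀ u ∈ ball (0 : Cm n) r, Kf u = Kf 0 := by
    intro u hu
    refine (convex_ball (0 : Cm n) r).is_const_of_fderivWithin_eq_zero (𝕜 := ℝ) (f := Kf)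
      (fun u hu => (hKd u hu).differentiableAt.differentiableWithinAt) (fun u hu => ?_) hu
      (mem_ball_self hr)
    rw [fderivWithin_of_isOpen isOpen_ball hu, (hKd u hu).fderiv]
  filter_upwards [h1, h.fev, (ev_iff hp h.mem).2 hχβ,
    (ev_iff hp h.mem).2 (hβc.eventually hfχ),
    (ev_iff hp h.mem).2 (hβc.eventually (ball_mem_nhds 0 hr))] with y' g1 g2 g3 g4 g5 g6
  set u := β (e (p y')) with hu
  have k1 : L₀ u = 0 := by
    rw [g3, ht, ← g2, g6] at g4
    simpa using g4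
  have k2 : P u = u := by rw [hPa, k1, map_zero, sub_zero]
  have k3 := hconst u g5
  have k4 : T u = H366.mk U (fun k => v k y') := by
    rw [hT]
    simp only [k2, g3]
    congr 1
    funext k
    exact (g1 k).1.symm
  have k5 : G' (P u) = G (e (p y')) := by rw [k2, hG']; simp only [g3]
  rw [← k3, hKf]
  simp only
  rw [k4, k5]
  abel

end

end Vale.Agent.P284.H619.Pot
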