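import Vale.Agent.P284.H619.PotF

/-!
# P284 (helper619), module POT: the potential and its equivariance
-/

open scoped Manifold ContDiff Topology ComplexConjugate
open MeasureTheory Set Filter Metric

noncomputable section

set_option linter.unusedSectionVars false

namespace Vale.Agent.P284.H619.Pot

open Vale.Agent.P272.K Vale.Agent.P284.H366 Vale.Agent.P284.H894.G Vale.Agent.P284.H894.W

section
variable {n q : ℕ} {X : Type} [TopologicalSpace X] [ChartedSpace (Cm n) X]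
  [IsManifold 𝓘(ℂ, Cm n) ω X]
  {E : Type} [TopologicalSpace E] {p : E → X} {F : E → Cm q} {H : ℕ → Type}
  [∀ k, NormedAddCommGroup (H k)] [∀ k, InnerProductSpace ℂ (H k)] {U : Ultrafilter ℕ}
  {Φ : ∀ k, E → H k} {J : ∀ k, H k →SL[starRingEnd ℂ] H k}

/-- **Existence of the potential** -/
theorem exists_pot [∀ k, CompleteSpace (H k)] (hp : IsCoveringMap p) (hF : HolE n p F) {t : Cm q}
    (hc : IsConnected (F ⁻¹' {t})) (hreg : ∀ y, F y = t → Reg (n := n) p F y)
    (hJ : ∀ k x, ‖J k x‖ ≤ ‖x‖) (hloc : ∀ y, F y = t →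
      ∃ (e : Chart n X) (f : Cm n → Cm q) (φ : ∀ k, Cm n → H k) (G : Cm n → UP H U),
        LocD U p F Φ J y e f φ G) :
    ∃ u : E → UP H U, ∀ y, F y = t → ∀ (e : Chart n X) (f : Cm n → Cm q) (φ : ∀ k, Cm n → H k)
      (G : Cm n → UP H U), LocD U p F Φ J y e f φ G → ∃ c₀ : UP H U, ∀ᶠ y' in 𝓝 y, F y' = t →
        u y' = G (e (p y')) + upMap U J (Jbd hJ) (G (e (p y'))) + c₀ := by
  classical
  obtain ⟨b, hb⟩ := exists_base hp hF hc hreg hJ hloc
  choose! v hv using hb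
  refine ⟨fun y => H366.mk U fun k => v y k y, fun y hy e f φ G h => ?_⟩
  obtain ⟨c₀, hc₀⟩ := h.formula hp hJ (hreg y hy e f h.mem h.fev) hy (hv y hy)
  refine ⟨c₀, ?_⟩
  filter_upwards [hc₀, (hv y hy).near hp] with y' h1 h2 h3
  rw [← h1 h3]
  exact (hv y' h3).mk_eq hp h2

end

section
variable {n q : ℕ} {X : Type} [TopologicalSpace X] [ChartedSpace (Cm n) X]
  {E : Type} [TopologicalSpace E] {p : E → X} {F : E → Cm q}
  {W : Type} [NormedAddCommGroup W] [InnerProductSpace ℂ W] [CompleteSpace W]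

/-- **Equivariance of the potential** -/
theorem equi_pot (hp : IsCoveringMap p) {t : Cm q} (hc : IsConnected (F ⁻¹' {t}))
    {J : W →SL[starRingEnd ℂ] W} {A : W ≃ₗᵢ[ℂ] W} (hA : ∀ x, A (J x) = J (A x)) {u : E → W}
    {g : E → E} (hg : Continuous g) (hpg : ∀ y, p (g y) = p y) (hFg : ∀ y, F (g y) = F y)
    (hdat : ∀ y, F y = t → ∃ (e : Chart n X) (f : Cm n → Cm q) (G G' : Cm n → W) (c₀ c₁ : W),
      At e (p y) ∧ AnalyticAt ℂ f (e (p y)) ∧ (∀ᶠ y' in 𝓝 y, F y' = f (e (p y'))) ∧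
      Function.Surjective (fderiv ℂ f (e (p y))) ∧ AnalyticAt ℂ G (e (p y)) ∧
      AnalyticAt ℂ G' (e (p y)) ∧
      (∀ᶠ z in 𝓝 (e (p y)), ∀ ξ, fderiv ℂ f z ξ = 0 → fderiv ℂ G' z ξ = A (fderiv ℂ G z ξ)) ∧
      (∀ᶠ y' in 𝓝 y, F y' = t → u y' = G (e (p y')) + J (G (e (p y'))) + c₀) ∧
      ∀ᶠ y' in 𝓝 (g y), F y' = t → u y' = G' (e (p y')) + J (G' (e (p y'))) + c₁) :
    ∃ b : W, ∀ y, F y = t → u (g y) = A (u y) + b := by
  obtain ⟨y₀, hy₀⟩ := hc.nonempty
  refine ⟨u (g y₀) - A (u y₀), ?_⟩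
  have key := fib_ind hc.isPreconnected (P := fun y => u (g y) - A (u y) = u (g y₀) - A (u y₀))
    (fun y₁ hy₁ => ?_) hy₀ rfl
  · intro y hy
    have := key y hy
    rw [← this]
    abel
  · obtain ⟨e, f, G, G', c₀, c₁, he, hfa, hf, hs, hG, hG', hd, h1, h2⟩ := hdat y₁ hy₁
    -- the difference of the primitives is a function of `F`
    have hA' : ∀ x, ((A.toContinuousLinearEquiv : W ≃L[ℂ] W) : W →L[ℂ] W) x = A x := fun x => rfl
    obtain ⟨Q, -, hQ⟩ := H625.exists_desc (F := fun z => G' z - A (G z)) hfa hs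
      (hG'.sub ((((A.toContinuousLinearEquiv : W ≃L[ℂ] W) : W →L[ℂ] W).analyticAt _).comp hG)) (by
        filter_upwards [hd, hG.eventually_analyticAt, hG'.eventually_analyticAt] with z g1 g2 g3 ξ hξ
        have m1 : HasFDerivAt (fun z => G' z - A (G z)) (fderiv ℂ G' z -
            ((A.toContinuousLinearEquiv : W ≃L[ℂ] W) : W →L[ℂ] W).comp (fderiv ℂ G z)) z :=
          g3.differentiableAt.hasFDerivAt.sub
            (((A.toContinuousLinearEquiv : W ≃L[ℂ] W) : W →L[ℂ] W).hasFDerivAt.comp z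
              g2.differentiableAt.hasFDerivAt)
        rw [m1.fderiv, sub_apply, ContinuousLinearMap.comp_apply, hA', g1 ξ hξ, sub_self])
    have h3 : ∀ᶠ y' in 𝓝 y₁, F y' = t → u (g y') - A (u y') = Q t + J (Q t) + c₁ - A c₀ := by
      filter_upwards [h1, hg.continuousAt.eventually h2, hf, (ev_iff hp he).2 hQ] with
        y' k1 k2 k3 k4 k5
      have m1 : G' (e (p y')) = Q t + A (G (e (p y'))) := by
        have : G' (e (p y')) - A (G (e (p y'))) = Q t := by rw [k4, ← k3, k5]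
        rw [← this]; abel
      rw [k2 (by rw [hFg, k5]), k1 k5, hpg, m1]
      simp only [map_add, hA]
      abel
    have h4 := h3.self_of_nhds hy₁
    filter_upwards [h3] with y' k1 k2
    rw [k1 k2, h4]

end

end Vale.Agent.P284.H619.Pot
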