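import Vale.Agent.P284.H619.PotE
import Vale.Agent.P284.H625.NS.LocForm
import Vale.Agent.P284.H366.LS4
import Vale.Agent.P284.H402.B.TF4
import Vale.Agent.P284.H551.LE2
import Vale.Agent.P284.H501.Alg2
import Vale.Agent.P284.H501.An

/-!
# P284 (helper619), module POT: the local data on a piece
-/

open scoped Manifold ContDiff Topology ComplexConjugate Matrix
open MeasureTheory Set Filter Metric

noncomputable section

set_option linter.unusedSectionVars false

namespace Vale.Agent.P284.H619.Pot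

open Vale.Agent.P272.K Vale.Agent.P284.H366 Vale.Agent.P284.H894 Vale.Agent.P284.H894.G
  Vale.Agent.P284.H894.V Vale.Agent.P284.H501 Vale.Agent.P284.H402.A Vale.Agent.P284.H402.B
  Vale.Agent.P284.H551

/-- `(θ_1 ∧ … ∧ θ_q ∧ α)(u, v)` for a vertical vector `v` -/
lemma wd_sm_snoc {n q : ℕ} {M : Matrix (Fin n) (Fin q) ℂ} {L : Cm n →L[ℂ] Cm q}
    (hL : ∀ v i, L v i = ∑ j, M j i * v j) (α : Fin n → ℂ) (u : Fin q → Cm n) {v : Cm n}
    (hv : L v = 0) :
    wd (sm M α) (Fin.snoc (α := fun _ => Cm n) u v) = dL L u * ∑ j, v j * α j := by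
  set ξ : Fin (q + 1) → Cm n := Fin.snoc (α := fun _ => Cm n) u v with hξ
  have e1 : ∀ i (j : Fin q), vm (sm M α) ξ i j.castSucc = L (ξ i) j := by
    intro i j
    rw [hL]
    show ∑ l, ξ i l * sm M α l j.castSucc = _
    simp only [sm_cast]
    exact Finset.sum_congr rfl fun l _ => mul_comm _ _
  have e2 : ∀ i, vm (sm M α) ξ i (Fin.last q) = ∑ l, ξ i l * α l := by
    intro i
    show ∑ l, ξ i l * sm M α l (Fin.last q) = _
    simp only [sm_last]
  have hl : ξ (Fin.last q) = v := Fin.snoc_last _ _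
  have hc : ∀ i : Fin q, ξ i.castSucc = u i := fun i => Fin.snoc_castSucc _ _ _
  rw [wd_apply, Matrix.det_succ_row _ (Fin.last q), Fin.sum_univ_castSucc]
  have e3 : ∀ j : Fin q, (-1 : ℂ) ^ ((Fin.last q : ℕ) + (j.castSucc : ℕ)) *
      vm (sm M α) ξ (Fin.last q) j.castSucc *
      ((vm (sm M α) ξ).submatrix (Fin.last q).succAbove j.castSucc.succAbove).det = 0 := by
    intro j
    rw [e1, hl, hv]
    simp
  rw [Finset.sum_eq_zero fun j _ => e3 j, zero_add, e2, hl]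
  have e4 : (vm (sm M α) ξ).submatrix (Fin.last q).succAbove (Fin.last q).succAbove =
      Matrix.of fun i j : Fin q => L (u i) j := by
    ext i j
    rw [Matrix.submatrix_apply, Fin.succAbove_last, Matrix.of_apply, e1, hc]
  rw [e4, dL_eq, ← two_mul, pow_mul]
  simp [mul_comm]

variable {n q : ℕ} {Γ : Type} [Group Γ] {C : Coc n Γ} (θ : HF C q)
  {f : ℕ → Γ → C.I → Cm n → ℝ} (hf : ∀ k, IsTst C (f k)) {U : Ultrafilter ℕ} (D : MD C)

/-- the lifts of the test functions -/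
def Ph (hf : ∀ k, IsTst C (f k)) (k : ℕ) (γ : Γ) (a : C.I) (z : Cm n) : H366.L2 Γ :=
  vec (hf k).fin.toFinset γ fun g => ((f k g a z : ℝ) : ℂ)

include hf in
lemma ofReal_smooth (γ : Γ) (a : C.I) {z : Cm n} (hz : z ∈ C.Ω a) (k : ℕ) :
    ContDiffAt ℝ ∞ (fun y => ((f k γ a y : ℝ) : ℂ)) z :=
  Complex.ofRealCLM.contDiff.contDiffAt.comp z ((hf k).smooth γ a z hz)

lemma Ph_smooth (γ : Γ) (a : C.I) {z : Cm n} (hz : z ∈ C.Ω a) (k : ℕ) :
    ContDiffAt ℝ 1 (Ph hf k γ a) z :=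
  (vec_contDiffAt γ fun g _ => (ofReal_smooth hf g a hz k)).of_le (by norm_cast)

/-- the values of the form on `(u, v)`, `v` vertical -/
lemma Phi_snoc {γ : Γ} {a : C.I} {z : Cm n} (hz : z ∈ C.Ω a) {L : Cm n →L[ℂ] Cm q}
    (hL : ∀ v i, L v i = ∑ j, θ.th a z j i * v j) (u : Fin q → Cm n) {v : Cm n} (hv : L v = 0)
    (k : ℕ) : (tf θ (hf k)).Φ γ a z (Fin.snoc (α := fun _ => Cm n) u v) =
      dL L u • DH (Ph hf k γ a) z v := by
  have h1 : DH (Ph hf k γ a) z v =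
      vec (hf k).fin.toFinset γ fun g => DH (fun y => ((f k g a y : ℝ) : ℂ)) z v :=
    vec_DH γ (fun g _ => (ofReal_smooth hf g a hz k).differentiableAt (by simp)) v
  rw [TForm.Φ_apply, h1, ← vec_smul]
  refine vec_congr _ γ fun g _ => ?_
  show wd (sm (θ.th a z) (pd (f k g a) z)) (Fin.snoc (α := fun _ => Cm n) u v) = _
  rw [wd_sm_snoc hL _ _ hv, DH_complex]
  rfl

/-- **The local data on a piece.** -/
theorem piece (hT : TSeq U fun k => tf θ (hf k)) (γ : Γ) (a : C.I) {z₀ : Cm n} (hz₀ : z₀ ∈ D.Q a)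
    {Fz : Cm n → Cm q} (hF : AnalyticAt ℂ Fz z₀)
    (hd : ∀ᶠ z in 𝓝 z₀, ∀ v i, fderiv ℂ Fz z v i = ∑ j, θ.th a z j i * v j)
    (hs : Function.Surjective (fderiv ℂ Fz z₀)) :
    ∃ G : Cm n → WU Γ U, AnalyticAt ℂ G z₀ ∧
      (∀ᶠ z in 𝓝 z₀, IsW (fderiv ℂ Fz z) (LimS D U (fun k => tf θ (hf k)) γ a z)
        (fderiv ℂ G z)) ∧
      ∀ V : Cm n → Cm n, AnalyticAt ℂ V z₀ → (∀ᶠ z in 𝓝 z₀, fderiv ℂ Fz z (V z) = 0) →
        ∃ α : ℕ → Cm n → H366.L2 Γ, Appr U z₀ α (fun k z => DH (Ph hf k γ a) z (V z)) ∧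
          ∀ᶠ z in 𝓝 z₀, H366.mk U (fun k => α k z) = fderiv ℂ G z (V z) := by
  obtain ⟨J, hJ⟩ := dL_ne hs
  set u : Fin q → Cm n := fun i => Pi.single (J i) 1 with hu
  have han : AnalyticAt ℂ (fun z => dL (fderiv ℂ Fz z) u) z₀ := an_dL hF.fderiv u
  have hne : ∀ᶠ z in 𝓝 z₀, dL (fderiv ℂ Fz z) u ≠ 0 := han.continuousAt.eventually_ne hJ
  have hsur : ∀ᶠ z in 𝓝 z₀, Function.Surjective (fderiv ℂ Fz z) := by
    filter_upwards [hne] with z hz
    by_contra hcon
    exact hz (dL_not_surj hcon u)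
  have hQ : ∀ᶠ z in 𝓝 z₀, z ∈ D.Q a := (D.Q_open a).mem_nhds hz₀
  -- the primitive
  obtain ⟨G, hG, hGW⟩ := H625.rel_poincare (s := LimS D U (fun k => tf θ (hf k)) γ a) hF
    (LimS_analyticAt D hT γ a hz₀) (by
      filter_upwards [hQ] with z hz
      exact LimS_closed D hT (fun k => tf_closed θ (hf k)) γ a hz) (by
      filter_upwards [hQ, hd, hsur] with z g1 g2 g3 ξ i j hij hi hj
      refine LimS_rel D θ hf hT γ a g1 (inj_of_surj g2 g3) hij (fun r => ?_) fun r => ?_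
      · have := congrFun hi r
        rw [g2, Pi.zero_apply] at this
        refine Eq.trans ?_ this
        exact Finset.sum_congr rfl fun l _ => mul_comm _ _
      · have := congrFun hj r
        rw [g2, Pi.zero_apply] at this
        refine Eq.trans ?_ this
        exact Finset.sum_congr rfl fun l _ => mul_comm _ _) hs
  refine ⟨G, hG, hGW, fun V hV hVv => ?_⟩
  -- the approximation
  set ξ : Fin (q + 1) → Cm n → Cm n := fun i z =>
    (Fin.snoc (α := fun _ => Cm n) u (V z) : Fin (q + 1) → Cm n) i with hξ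
  have hξan : ∀ i, AnalyticAt ℂ (ξ i) z₀ := by
    intro i
    refine Fin.lastCases ?_ (fun j => ?_) i
    · have : ξ (Fin.last q) = V := by
        funext z
        exact Fin.snoc_last (α := fun _ => Cm n) _ _
      rw [this]
      exact hV
    · have : ξ j.castSucc = fun _ => u j := by
        funext z
        exact Fin.snoc_castSucc (α := fun _ => Cm n) _ _ _
      rw [this]
      exact analyticAt_const
  set c : (Fin (q + 1) → Fin n) → Cm n → ℂ := fun I z =>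
    (dL (fderiv ℂ Fz z) u)⁻¹ * cJ (fun i => ξ i z) I with hc
  have hcan : ∀ I, AnalyticAt ℂ (c I) z₀ := fun I => (han.inv hJ).mul (an_cJ hξan I)
  set α : ℕ → Cm n → H366.L2 Γ := fun k z => ∑ I : Fin (q + 1) → Fin n,
    c I z • H513.V.mv D.η (fun y => (tf θ (hf k)).Φ γ a y (eJ I)) z with hα
  have hap := slim_comb (hT.fseq D γ a) D.mol D.pos.le le_rfl (z := z₀) hz₀ Finset.univ c eJ
    fun I _ => ((hcan I).contDiffAt.restrict_scalars ℝ : ContDiffAt ℝ 1 (c I) z₀)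
  refine ⟨α, hap.congr (Eventually.of_forall fun _ _ => rfl) ?_, ?_⟩
  · filter_upwards [hQ, hd, hne, hVv] with z g1 g2 g3 g4 k
    have k1 := Phi_snoc θ hf (γ := γ) (V_sub_Ω C a (D.Q_sub a g1)) g2 u g4 k
    rw [← expandA ((tf θ (hf k)).Φ γ a z)] at k1
    have k2 : ∑ I : Fin (q + 1) → Fin n, c I z • (tf θ (hf k)).Φ γ a z (eJ I) =
        (dL (fderiv ℂ Fz z) u)⁻¹ • ∑ I : Fin (q + 1) → Fin n,
          cJ (Fin.snoc (α := fun _ => Cm n) u (V z)) I • (tf θ (hf k)).Φ γ a z (eJ I) := by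
      rw [Finset.smul_sum]
      exact Finset.sum_congr rfl fun I _ => mul_smul _ _ _
    rw [k2, k1, smul_smul, inv_mul_cancel₀ g3, one_smul]
  · filter_upwards [hQ, hne, hVv, hGW] with z g1 g3 g4 g5
    have k1 := mk_comb (hT.fseq D γ a) D.mol D.pos.le le_rfl (z := z) g1 Finset.univ
      (fun I => c I z) eJ
    have k2 : H366.mk U (fun k => α k z) = ∑ I : Fin (q + 1) → Fin n,
        c I z • LimS D U (fun k => tf θ (hf k)) γ a z (eJ I) := by
      rw [k1]
      refine Finset.sum_congr rfl fun I _ => ?_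
      rw [LimS_apply D hT γ a g1]
    have k3 : ∑ I : Fin (q + 1) → Fin n, c I z • LimS D U (fun k => tf θ (hf k)) γ a z (eJ I) =
        (dL (fderiv ℂ Fz z) u)⁻¹ • ∑ I : Fin (q + 1) → Fin n,
          cJ (Fin.snoc (α := fun _ => Cm n) u (V z)) I •
            LimS D U (fun k => tf θ (hf k)) γ a z (eJ I) := by
      rw [Finset.smul_sum]
      exact Finset.sum_congr rfl fun I _ => mul_smul _ _ _
    rw [k2, k3, expandL, g5.snoc u g4, smul_smul, inv_mul_cancel₀ g3, one_smul]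

end Vale.Agent.P284.H619.Pot
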