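import Vale.Agent.P284.H619.PotG
import Vale.Agent.P284.H619.PotH
import Vale.Agent.P284.H366.PT.Spec

/-!
# P284 (helper619), module POT: `PotS`
-/

open scoped Manifold ContDiff Topology InnerProductSpace ComplexConjugate ENNReal Matrix
open Filter Set MeasureTheory Metric

noncomputable section

set_option linter.unusedSectionVars false

namespace Vale.Agent.P284.H619.Pot

open Vale.Agent.P272.K Vale.Agent.P284.H894 Vale.Agent.P284.H894.G Vale.Agent.P284.H894.V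
  Vale.Agent.P284.H894.W Vale.Agent.P284.H501 Vale.Agent.P284.H501.Core
  Vale.Agent.P284.H402.A Vale.Agent.P284.H402.B Vale.Agent.P284.H551 Vale.Agent.P284.H366
  Vale.Agent.P284.H366.PT
open Vale.Agent.P284.H619 hiding L2

/-! ### Conjugation -/

section cjs
variable {Γ : Type}

theorem cj_inner (u v : H366.L2 Γ) : ⟪u, cj Γ v⟫_ℂ = conj ⟪cj Γ u, v⟫_ℂ := by
  have h1 : ⟪u, cj Γ v⟫_ℂ = ∑' x, ⟪co u x, co (cj Γ v) x⟫_ℂ := lp.inner_eq_tsum _ _
  have h2 : ⟪cj Γ u, v⟫_ℂ = ∑' x, ⟪co (cj Γ u) x, co v x⟫_ℂ := lp.inner_eq_tsum _ _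
  rw [h1, h2, Complex.conj_tsum]
  refine tsum_congr fun x => ?_
  have e1 : co (cj Γ v) x = conj (co v x) := rfl
  have e2 : co (cj Γ u) x = conj (co u x) := rfl
  rw [e1, e2]
  simp [RCLike.inner_apply]

theorem cj_bd {x : ℕ → H366.L2 Γ} (hx : Bd x) : Bd fun k => cj Γ (x k) := by
  obtain ⟨C, hC⟩ := hx
  exact ⟨C, fun k => by rw [norm_cj]; exact hC k⟩

theorem cjU_inner {U : Ultrafilter ℕ} (x y : WU Γ U) :
    ⟪x, cjU Γ U y⟫_ℂ = conj ⟪cjU Γ U x, y⟫_ℂ := by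
  have hc1 : ∀ y : WU Γ U, IsClosed {x : WU Γ U | ⟪x, cjU Γ U y⟫_ℂ = conj ⟪cjU Γ U x, y⟫_ℂ} := by
    intro y
    refine isClosed_eq ?_ ?_
    · exact continuous_id.inner continuous_const
    · exact Complex.continuous_conj.comp ((cjU Γ U).continuous.inner continuous_const)
  have hc2 : ∀ x : WU Γ U, IsClosed {y : WU Γ U | ⟪x, cjU Γ U y⟫_ℂ = conj ⟪cjU Γ U x, y⟫_ℂ} := by
    intro x
    refine isClosed_eq ?_ ?_
    · exact continuous_const.inner (cjU Γ U).continuous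
    · exact Complex.continuous_conj.comp (continuous_const.inner continuous_id)
  refine dense_mk (fun x => ⟪x, cjU Γ U y⟫_ℂ = conj ⟪cjU Γ U x, y⟫_ℂ) (hc1 y) (fun x hx => ?_) x
  refine dense_mk (fun y => ⟪H366.mk U x, cjU Γ U y⟫_ℂ = conj ⟪cjU Γ U (H366.mk U x), y⟫_ℂ) (hc2 _)
    (fun y hy => ?_) y
  rw [cjU_mk U hy, cjU_mk U hx]
  have h1 := inner_mk (U := U) hx (cj_bd hy)
  have h2 := inner_mk (U := U) (cj_bd hx) hy
  have h3 : Tendsto (fun k => ⟪x k, cj Γ (y k)⟫_ℂ) U (𝓝 (conj ⟪H366.mk U (fun k => cj Γ (x k)),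
      H366.mk U y⟫_ℂ)) := by
    simp only [cj_inner]
    exact (Complex.continuous_conj.tendsto _).comp h2
  exact tendsto_nhds_unique h1 h3

theorem cj_sg [Group Γ] (x : Γ) (c : ℂ) : cj Γ (sg x c) = sg x (conj c) := by
  refine co_ext fun y => ?_
  show conj (co (sg x c) y) = co (sg x (conj c)) y
  by_cases h : y = x
  · subst h
    rw [co_sg_same, co_sg_same]
  · rw [co_sg_ne h, co_sg_ne h, map_zero]

theorem lam_cj [Group Γ] (g : Γ) (v : H366.L2 Γ) : lam Γ g (cj Γ v) = cj Γ (lam Γ g v) :=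
  co_ext fun _ => rfl

theorem piU_cjU [Group Γ] {U : Ultrafilter ℕ} (g : Γ) (x : WU Γ U) :
    piU Γ U g (cjU Γ U x) = cjU Γ U (piU Γ U g x) := by
  refine dense_mk (fun x => piU Γ U g (cjU Γ U x) = cjU Γ U (piU Γ U g x))
    (isClosed_eq ((LinearIsometryEquiv.continuous _).comp (cjU Γ U).continuous)
      ((cjU Γ U).continuous.comp (LinearIsometryEquiv.continuous _))) (fun x hx => ?_) x
  rw [cjU_mk U hx, piU, upRep_mk _ _ (cj_bd hx), upRep_mk _ _ hx,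
    cjU_mk U (Bd.iso (fun _ => lam Γ g) hx)]
  congr 1

end cjs

section phi
variable {n : ℕ} {Γ : Type} [Group Γ] {C : Coc n Γ} {f : ℕ → Γ → C.I → Cm n → ℝ}

theorem Ph_compat (hf : ∀ k, IsTst C (f k)) (k : ℕ) (γ : Γ) {a b : C.I} {z : Cm n}
    (hz : z ∈ C.O a b) (ha : z ∈ C.V a) (hb : C.T a b z ∈ C.V b) :
    Ph hf k γ a z = Ph hf k (γ * C.κ a b z) b (C.T a b z) := by
  have h1 : ∀ g ∉ (hf k).fin.toFinset, ∀ b, ∀ y ∈ C.V b, f k g b y = 0 := by
    intro g hg b y hy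
    by_contra hne
    exact hg ((hf k).fin.mem_toFinset.2 ⟨b, y, hy, hne⟩)
  refine vec_shift _ γ (C.κ a b z) (fun g hg => ?_) (fun g hg => ?_) fun g => ?_
  · rw [h1 g hg a z ha, Complex.ofReal_zero]
  · rw [h1 g hg b _ hb, Complex.ofReal_zero]
  · rw [(hf k).compat g a b z hz]

/-- the lifts are real -/
theorem Ph_real (hf : ∀ k, IsTst C (f k)) (k : ℕ) (γ : Γ) (a : C.I) (z : Cm n) :
    cj Γ (Ph hf k γ a z) = Ph hf k γ a z := by
  rw [Ph, vec, map_sum]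
  refine Finset.sum_congr rfl fun g _ => ?_
  rw [cj_sg, Complex.conj_ofReal]

end phi

section cov
variable {n q : ℕ} {Γ X E : Type} [Group Γ] [TopologicalSpace X] [ChartedSpace (Cm n) X]
  [TopologicalSpace E] [MulAction Γ E] {p : E → X} {C : Coc n Γ}
  (hG : IsGalois Γ p) (D : ECoc p C) {F : E → Cm q}
  {f : ℕ → Γ → C.I → Cm n → ℝ} (hf : ∀ k, IsTst C (f k)) {U : Ultrafilter ℕ} {Dm : MD C}

include hG in
theorem Ph_eq {γ γ' : Γ} {a a' : C.I} {z z' : Cm n} (hz : z ∈ Dm.Q a) (hz' : z' ∈ Dm.Q a')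
    (h : γ • D.σ a z = γ' • D.σ a' z') (k : ℕ) : Ph hf k γ a z = Ph hf k γ' a' z' := by
  have hzV := Dm.Q_sub a hz
  have hzV' := Dm.Q_sub a' hz'
  obtain ⟨hO, hT, hκ⟩ := D.eq_imp hG (V_sub_Ω C a hzV) (V_sub_Ω C a' hzV') h
  rw [Ph_compat hf k γ hO hzV (by rw [hT]; exact hzV'), hT, hκ]

include hG in
theorem exists_pt (Dm : MD C) (y : E) : ∃ (γ : Γ) (a : C.I) (z : Cm n), z ∈ Dm.Q a ∧
    γ • D.σ a z = y := by
  obtain ⟨γ, a, -, h2, h3⟩ := D.exists_sheet hG y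
  exact ⟨γ, a, _, Dm.W_sub a h2, h3⟩

include hG in
theorem pt_near (γ : Γ) {a : C.I} {z : Cm n} (hz : z ∈ Dm.Q a) :
    ∀ᶠ y in 𝓝 (γ • D.σ a z), D.e a (p y) ∈ Dm.Q a ∧ γ • D.σ a (D.e a (p y)) = y := by
  have hzΩ := V_sub_Ω C a (Dm.Q_sub a hz)
  have hcπ : ContinuousAt p (γ • D.σ a z) := hG.cov.continuous.continuousAt
  have hpy : p (γ • D.σ a z) = (D.e a).symm z := D.proj' hG γ hzΩ
  have he : ContinuousAt (fun y => D.e a (p y)) (γ • D.σ a z) := by
    refine ContinuousAt.comp ?_ hcπ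
    rw [hpy]
    exact (D.e a).continuousAt (D.source hzΩ)
  have hval : D.e a (p (γ • D.σ a z)) = z := D.e_proj hG γ hzΩ
  have h1 : ∀ᶠ y in 𝓝 (γ • D.σ a z), D.e a (p y) ∈ Dm.Q a := by
    refine he.eventually (p := fun z' => z' ∈ Dm.Q a) ?_
    show ∀ᶠ z' in 𝓝 (D.e a (p (γ • D.σ a z))), z' ∈ Dm.Q a
    rw [hval]
    exact (Dm.Q_open a).mem_nhds hz
  filter_upwards [h1, D.ev hG γ hzΩ] with y g1 g2
  exact ⟨g1, g2.2.2⟩

end cov

/-- **The potentials** -/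
theorem potS : PotS := by
  classical
  intro n X _ _ _ _ _ _ w hw E Γ _ _ _ _ p hG C D K hKw q F c B hF hc hreg f hf U hT Dm t hcon hregt
  have hp := hG.cov
  have hVΩ : ∀ a, Dm.Q a ⊆ C.Ω a := fun a => (Dm.Q_sub a).trans (V_sub_Ω C a)
  have han : ∀ γ a, ∀ z ∈ C.Ω a, AnalyticAt ℂ (Fc D F γ a) z := fun γ a z hz =>
    Fc_an hG D hF γ hz
  have hsurj : ∀ γ a z, z ∈ Dm.Q a → F (γ • D.σ a z) = t →
      Function.Surjective (fderiv ℂ (Fc D F γ a) z) := fun γ a z hz hzt =>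
    (reg_iff hG D hF γ (hVΩ a hz)).1 (hregt _ hzt)
  have hHol : HolE n p F := fun y e he => by
    obtain ⟨f, hf⟩ := rep_of_holB hG D hF y e he
    exact ⟨f, hf.2, hf.1⟩
  have hJ : ∀ (k : ℕ) (x : H366.L2 Γ), ‖cj Γ x‖ ≤ ‖x‖ := fun _ x => (norm_cj x).le
  set θ := hfF hG D K hKw hF hc hreg with hθ
  set s := LimS Dm U (fun k => tf θ (hf k)) with hs
  have hcf : H551.CForm C Dm.Q s := cform_lim Dm hT
  choose γs as zs hzs hys using exists_pt hG D Dm
  set Φ : ℕ → E → H366.L2 Γ := fun k y => Ph hf k (γs y) (as y) (zs y) with hΦ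
  have hΦe : ∀ γ a z, z ∈ Dm.Q a → ∀ k, Φ k (γ • D.σ a z) = Ph hf k γ a z := fun γ a z hz k =>
    Ph_eq hG D hf (hzs _) hz (hys _) k
  -- the local data
  have hloc : ∀ γ a z, z ∈ Dm.Q a → F (γ • D.σ a z) = t → ∃ G : Cm n → WU Γ U,
      LocD U p F Φ (fun _ => cj Γ) (γ • D.σ a z) (D.e a) (Fc D F γ a) (fun k => Ph hf k γ a) G ∧
      ∀ᶠ z' in 𝓝 z, IsW (fderiv ℂ (Fc D F γ a) z') (s γ a z') (fderiv ℂ G z') := by
    intro γ a z hz hzt
    have hzΩ := hVΩ a hz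
    have hez : D.e a (p (γ • D.σ a z)) = z := D.e_proj hG γ hzΩ
    obtain ⟨G, hG1, hG2, hG3⟩ := piece θ hf Dm hT γ a hz (han γ a z hzΩ)
      (Eventually.of_forall fun z' v i => thF_apply D hc γ a z' v i) (hsurj γ a z hz hzt)
    refine ⟨G, ⟨D.at_sheet hG γ hzΩ, by rw [hez]; exact han γ a z hzΩ, Fc_rep hG D F γ hzΩ, ?_, ?_,
      ?_, by rw [hez]; exact hG1, by rw [hez]; exact hG3⟩, hG2⟩
    · filter_upwards [pt_near (Dm := Dm) hG D γ hz] with y' g1 k
      have := hΦe γ a _ g1.1 k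
      rwa [g1.2] at this
    · rw [hez]
      filter_upwards [(Ω_open a).mem_nhds hzΩ] with z' g1 k
      exact Ph_smooth hf γ a g1 k
    · exact Eventually.of_forall fun z' k => Ph_real hf k γ a z'
  obtain ⟨u, hu⟩ := exists_pot (Φ := Φ) (J := fun _ => cj Γ) hp hHol hcon hregt hJ (fun y hy => by
    obtain ⟨γ, a, z, hz, rfl⟩ := exists_pt hG D Dm y
    obtain ⟨G, hG1, -⟩ := hloc γ a z hz hy
    exact ⟨_, _, _, _, hG1⟩)
  have hcjU : ∀ x : WU Γ U, upMap U (fun _ => cj Γ) (Jbd hJ) x = cjU Γ U x := fun x => rfl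
  refine ⟨u, ?_, ?_⟩
  · intro y e hyt he x₀
    obtain ⟨γ, a, z₁, hz₁, hy⟩ := exists_pt hG D Dm y
    have hz₁Ω := hVΩ a hz₁
    obtain ⟨G, hLD, hG2⟩ := hloc γ a z₁ hz₁ (by rw [hy]; exact hyt)
    rw [hy] at hLD
    obtain ⟨c₀, hc₀⟩ := hu y hyt _ _ _ _ hLD
    set τ : Cm n → Cm n := fun x => D.e a (e.symm x) with hτ
    have ha : At (D.e a) (p y) := hLD.mem
    have hez : D.e a (p y) = z₁ := by
      rw [← hy]
      exact D.e_proj hG γ hz₁Ω
    have hG1 : AnalyticAt ℂ G z₁ := by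
      have := hLD.Gan
      rwa [hez] at this
    have hτz : τ (e (p y)) = z₁ := by
      show D.e a (e.symm (e (p y))) = z₁
      rw [e.left_inv he.2, hez]
    have hτan : AnalyticAt ℂ τ (e (p y)) := (transition he ha).analyticAt
    have hGτ : AnalyticAt ℂ (fun x => G (τ x)) (e (p y)) := by
      refine AnalyticAt.comp (g := G) ?_ hτan
      rw [hτz]
      exact hG1
    have hin : ∀ x₁ : WU Γ U, AnalyticAt ℂ (fun x => ⟪x₁, G (τ x)⟫_ℂ) (e (p y)) := fun x₁ =>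
      ((innerSL ℂ x₁).analyticAt _).comp hGτ
    refine ⟨fun x => ⟪x₀, G (τ x)⟫_ℂ + ⟪x₀, c₀⟫_ℂ, fun x => ⟪cjU Γ U x₀, G (τ x)⟫_ℂ,
      (hin x₀).add analyticAt_const, hin _, ?_⟩
    have hev1 : ∀ᶠ y' in 𝓝 y, IsW (fderiv ℂ (Fc D F γ a) (D.e a (p y'))) (s γ a (D.e a (p y')))
        (fderiv ℂ G (D.e a (p y'))) ∧ AnalyticAt ℂ G (D.e a (p y')) := by
      refine (ev_iff hp ha (Q := fun z => IsW (fderiv ℂ (Fc D F γ a) z) (s γ a z) (fderiv ℂ G z) ∧
        AnalyticAt ℂ G z)).2 ?_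
      rw [hez]
      exact hG2.and hG1.eventually_analyticAt
    have hev2 := pt_near (Dm := Dm) hG D γ hz₁
    rw [hy] at hev2
    have hev3 : ∀ᶠ y' in 𝓝 y, AnalyticAt ℂ τ (e (p y')) :=
      (ev_iff hp he (Q := fun x => AnalyticAt ℂ τ x)).2 hτan.eventually_analyticAt
    filter_upwards [hev1, hev2, hev3, at_ev hp he, hc₀] with y' g1 g2 g3 g4 g5 hy't
    obtain ⟨g6, g7⟩ := g1
    obtain ⟨g8, g9⟩ := g2
    set z' := D.e a (p y') with hz'
    have hτz' : τ (e (p y')) = z' := by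
      show D.e a (e.symm (e (p y'))) = z'
      rw [e.left_inv g4.2]
    constructor
    · simp only [hτz']
      have h1 : conj ⟪cjU Γ U x₀, G z'⟫_ℂ = ⟪x₀, cjU Γ U (G z')⟫_ℂ := (cjU_inner x₀ (G z')).symm
      rw [h1, ← inner_add_right, ← inner_add_right, g5 hy't, hcjU]
      congr 1
      abel
    · intro ξ hξ
      have hd1 : DifferentiableAt ℂ τ (e (p y')) := g3.differentiableAt
      have hd2 : DifferentiableAt ℂ G (τ (e (p y'))) := by
        rw [hτz']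
        exact g7.differentiableAt
      -- the derivative of `g`
      have e1 : fderiv ℂ (fun x => ⟪x₀, G (τ x)⟫_ℂ + ⟪x₀, c₀⟫_ℂ) (e (p y')) ξ =
          ⟪x₀, fderiv ℂ G z' (fderiv ℂ τ (e (p y')) ξ)⟫_ℂ := by
        have h1 : HasFDerivAt (fun x => ⟪x₀, G (τ x)⟫_ℂ + ⟪x₀, c₀⟫_ℂ)
            ((innerSL ℂ x₀).comp ((fderiv ℂ G z').comp (fderiv ℂ τ (e (p y'))))) (e (p y')) := by
          have h2 : HasFDerivAt (fun x => G (τ x))
              ((fderiv ℂ G z').comp (fderiv ℂ τ (e (p y')))) (e (p y')) := by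
            have h3 := hd2.hasFDerivAt.comp (e (p y')) hd1.hasFDerivAt
            rw [hτz'] at h3
            exact h3
          exact ((innerSL ℂ x₀).hasFDerivAt.comp (e (p y')) h2).add_const ⟪x₀, c₀⟫_ℂ
        rw [h1.fderiv]
        rfl
      rw [e1]
      congr 1
      -- the relative form
      have hz'Ω := hVΩ a g8
      have hanz := han γ a z' hz'Ω
      have hrep : H501.Rep p F y' e fun x => Fc D F γ a (τ x) := by
        constructor
        · refine AnalyticAt.comp (g := Fc D F γ a) ?_ g3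
          rw [hτz']
          exact hanz
        · have h5 := Fc_rep hG D F γ hz'Ω
          rw [g9] at h5
          filter_upwards [h5, at_ev hp g4] with y'' h6 h7
          rw [h6]
          show _ = Fc D F γ a (D.e a (e.symm (e (p y''))))
          rw [e.left_inv h7.2]
      have e2 : fderiv ℂ (fun x => Fc D F γ a (τ x)) (e (p y')) =
          (fderiv ℂ (Fc D F γ a) z').comp (fderiv ℂ τ (e (p y'))) := by
        have h3 := (show DifferentiableAt ℂ (Fc D F γ a) (τ (e (p y'))) by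
          rw [hτz']; exact hanz.differentiableAt).hasFDerivAt.comp (e (p y')) hd1.hasFDerivAt
        rw [hτz'] at h3
        exact h3.fderiv
      have hsj : Function.Surjective (fderiv ℂ (fun x => Fc D F γ a (τ x)) (e (p y'))) :=
        hregt y' hy't e _ g4 hrep.2
      have e3 : SE hG D s y' e = (s γ a z').compContinuousLinearMap (fderiv ℂ τ (e (p y'))) := by
        have h5 := SE_eq hG D hcf γ g8 (e := e) (by rw [g9]; exact g4)
        rw [g9] at h5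
        exact h5
      have hisW : IsW (fderiv ℂ (fun x => Fc D F γ a (τ x)) (e (p y'))) (SE hG D s y' e)
          ((fderiv ℂ G z').comp (fderiv ℂ τ (e (p y')))) := by
        intro ξ'
        rw [e2, e3, ContinuousAlternatingMap.compContinuousLinearMap_apply, g6]
        rfl
      have hvert : fderiv ℂ (fun x => Fc D F γ a (τ x)) (e (p y')) ξ = 0 := hξ _ hrep.2
      exact (ThE_isTh (S := SE hG D s) hG.cov y' e _ g4 hrep hsj _ hisW ξ hvert).symm
  · intro k hk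
    have hFk : ∀ y, F (k • y) = F y := fun y => by rw [hc, hk, add_zero]
    refine equi_pot (n := n) (F := F) (t := t) (J := cjU Γ U) (A := piU Γ U k) (g := fun y => k • y) hp hcon
      (fun x => piU_cjU k x) (hG.cont k) (fun y => ECoc.p_smul hG k y) hFk fun y hy => ?_
    obtain ⟨γ, a, z₁, hz₁, rfl⟩ := exists_pt hG D Dm y
    have hz₁Ω := hVΩ a hz₁
    have hez : D.e a (p (γ • D.σ a z₁)) = z₁ := D.e_proj hG γ hz₁Ω
    have hkz : F ((k * γ) • D.σ a z₁) = t := by rw [mul_smul, hFk, hy]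
    obtain ⟨G, hLD, hG2⟩ := hloc γ a z₁ hz₁ hy
    obtain ⟨G', hLD', hG2'⟩ := hloc (k * γ) a z₁ hz₁ hkz
    obtain ⟨c₀, hc₀⟩ := hu _ hy _ _ _ _ hLD
    obtain ⟨c₁, hc₁⟩ := hu _ hkz _ _ _ _ hLD'
    have hFck : Fc D F (k * γ) a = Fc D F γ a := by
      funext z
      rw [Fc, Fc, mul_smul, hFk]
    have hez' : D.e a (p ((k * γ) • D.σ a z₁)) = z₁ := D.e_proj hG (k * γ) hz₁Ω
    have hs₁ := hsurj γ a z₁ hz₁ hy
    refine ⟨D.e a, Fc D F γ a, G, G', c₀, c₁, hLD.mem, hLD.fan, hLD.fev, by rw [hez]; exact hs₁,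
      hLD.Gan, ?_, ?_, hc₀, ?_⟩
    · have := hLD'.Gan
      rw [hez'] at this
      rw [hez]
      exact this
    · obtain ⟨I, hI⟩ := dL_ne hs₁
      have han₁ : AnalyticAt ℂ (fun z => dL (fderiv ℂ (Fc D F γ a) z)
          (fun i => Pi.single (I i) 1)) z₁ := an_dL (han γ a z₁ hz₁Ω).fderiv _
      rw [hez]
      filter_upwards [hG2, hG2', han₁.continuousAt.eventually_ne hI,
        (Dm.Q_open a).mem_nhds hz₁] with z g1 g2 g3 g4 ξ hξ
      rw [hFck] at g2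
      have k1 := g1.snoc (fun i => Pi.single (I i) 1) hξ
      have k2 := g2.snoc (fun i => Pi.single (I i) 1) hξ
      have k3 := LimS_equiv Dm hT k γ a g4
        (Fin.snoc (α := fun _ => Cm n) (fun i => Pi.single (I i) 1) ξ)
      rw [← hs] at k3
      rw [k1, k2, map_smul] at k3
      exact smul_right_injective _ g3 k3
    · show ∀ᶠ y' in 𝓝 (k • γ • D.σ a z₁), _
      rw [← mul_smul]
      exact hc₁

end Vale.Agent.P284.H619.Pot
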