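import Vale.Agent.P284.H619.PotG
import Vale.Agent.P284.H366.ThE

/-!
# P284 (helper619), module POT: potentials for sequences of functions with values in Hilbert spaces
-/

open scoped Manifold ContDiff Topology InnerProductSpace ComplexConjugate
open Filter Set MeasureTheory Metric

noncomputable section

set_option linter.unusedSectionVars false

namespace Vale.Agent.P284.H619.Pot

open Vale.Agent.P272.K Vale.Agent.P284.H894 Vale.Agent.P284.H894.G Vale.Agent.P284.H894.V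
  Vale.Agent.P284.H894.W Vale.Agent.P284.H501 Vale.Agent.P284.H501.Core Vale.Agent.P284.H366

/-! ### Conjugations of ultraproducts -/

section cjg
variable {H : ℕ → Type} [∀ k, NormedAddCommGroup (H k)] [∀ k, InnerProductSpace ℂ (H k)]
  {U : Ultrafilter ℕ} {J : ∀ k, H k →SL[starRingEnd ℂ] H k}

theorem bdJ (hJ : ∀ k x, ‖J k x‖ ≤ ‖x‖) {x : ∀ k, H k} (hx : Bd x) : Bd fun k => J k (x k) := by
  obtain ⟨C, hC⟩ := hx
  exact ⟨C, fun k => (hJ k _).trans (hC k)⟩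

theorem inner_upJ (hJ : ∀ k x, ‖J k x‖ ≤ ‖x‖)
    (hJi : ∀ k x y, ⟪x, J k y⟫_ℂ = conj ⟪J k x, y⟫_ℂ) (x y : UP H U) :
    ⟪x, upMap U J (Jbd hJ) y⟫_ℂ = conj ⟪upMap U J (Jbd hJ) x, y⟫_ℂ := by
  set JU := upMap U J (Jbd hJ) with hJU
  have hc1 : ∀ y : UP H U, IsClosed {x : UP H U | ⟪x, JU y⟫_ℂ = conj ⟪JU x, y⟫_ℂ} := by
    intro y
    refine isClosed_eq ?_ ?_
    · exact continuous_id.inner continuous_const
    · exact Complex.continuous_conj.comp (JU.continuous.inner continuous_const)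
  have hc2 : ∀ x : UP H U, IsClosed {y : UP H U | ⟪x, JU y⟫_ℂ = conj ⟪JU x, y⟫_ℂ} := by
    intro x
    refine isClosed_eq ?_ ?_
    · exact continuous_const.inner JU.continuous
    · exact Complex.continuous_conj.comp (continuous_const.inner continuous_id)
  refine dense_mk (fun x => ⟪x, JU y⟫_ℂ = conj ⟪JU x, y⟫_ℂ) (hc1 y) (fun x hx => ?_) x
  refine dense_mk (fun y => ⟪H366.mk U x, JU y⟫_ℂ = conj ⟪JU (H366.mk U x), y⟫_ℂ) (hc2 _)
    (fun y hy => ?_) y
  rw [hJU, upMap_mk (Jbd hJ) hy, upMap_mk (Jbd hJ) hx]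
  have h1 := inner_mk (U := U) hx (bdJ hJ hy)
  have h2 := inner_mk (U := U) (bdJ hJ hx) hy
  have h3 : Tendsto (fun k => ⟪x k, J k (y k)⟫_ℂ) U (𝓝 (conj ⟪H366.mk U (fun k => J k (x k)),
      H366.mk U y⟫_ℂ)) := by
    simp only [hJi]
    exact (Complex.continuous_conj.tendsto _).comp h2
  exact tendsto_nhds_unique h1 h3

theorem rep_upJ {Γ : Type} [Group Γ] (hJ : ∀ k x, ‖J k x‖ ≤ ‖x‖)
    (ρ : ∀ k, Γ →* (H k ≃ₗᵢ[ℂ] H k)) (hρ : ∀ k g x, ρ k g (J k x) = J k (ρ k g x)) (g : Γ)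
    (x : UP H U) :
    upRep U ρ g (upMap U J (Jbd hJ) x) = upMap U J (Jbd hJ) (upRep U ρ g x) := by
  refine dense_mk (fun x => upRep U ρ g (upMap U J (Jbd hJ) x) =
    upMap U J (Jbd hJ) (upRep U ρ g x))
    (isClosed_eq ((LinearIsometryEquiv.continuous _).comp (ContinuousLinearMap.continuous _))
      ((ContinuousLinearMap.continuous _).comp (LinearIsometryEquiv.continuous _)))
      (fun x hx => ?_) x
  rw [upMap_mk (Jbd hJ) hx, upRep_mk _ _ (bdJ hJ hx), upRep_mk _ _ hx,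
    upMap_mk (Jbd hJ) (Bd.iso (fun k => ρ k g) hx)]
  congr 1
  funext k
  exact hρ k g (x k)

end cjg

section
variable {n q : ℕ} {X : Type} [TopologicalSpace X] [ChartedSpace (Cm n) X]
  {E Γ : Type} [TopologicalSpace E] [Group Γ] [MulAction Γ E] {p : E → X} {F : E → Cm q}
  {H : ℕ → Type}
  [∀ k, NormedAddCommGroup (H k)] [∀ k, InnerProductSpace ℂ (H k)] {U : Ultrafilter ℕ}
  {Φ : ∀ k, E → H k} {J : ∀ k, H k →SL[starRingEnd ℂ] H k}

/-- transport of the local data -/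
theorem LocD.smul (hG : IsGalois Γ p) {ρ : ∀ k, Γ →* (H k ≃ₗᵢ[ℂ] H k)}
    (hρ : ∀ k g x, ρ k g (J k x) = J k (ρ k g x)) {g : Γ}
    (hΦ : ∀ k y, Φ k (g • y) = ρ k g (Φ k y)) (hFg : ∀ y, F (g • y) = F y) {y : E}
    {e : Chart n X} {f : Cm n → Cm q} {φ : ∀ k, Cm n → H k} {G : Cm n → UP H U}
    (h : LocD U p F Φ J y e f φ G) :
    LocD U p F Φ J (g • y) e f (fun k z => ρ k g (φ k z)) (fun z => upRep U ρ g (G z)) := by
  have hpg : ∀ y', p (g • y') = p y' := fun y' => ((hG.orb _ _).2 ⟨g, rfl⟩).symm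
  have h2 : Tendsto (fun y' => g⁻¹ • y') (𝓝 (g • y)) (𝓝 y) := by
    have := (hG.cont g⁻¹).tendsto (g • y)
    rwa [inv_smul_smul] at this
  have h3 : ∀ y', p (g⁻¹ • y') = p y' := fun y' => by
    have := hpg (g⁻¹ • y')
    rw [smul_inv_smul] at this
    exact this.symm
  have hA : ∀ k x, ((((ρ k g).toContinuousLinearEquiv : H k ≃L[ℂ] H k) : H k →L[ℂ] H k)) x =
    ρ k g x := fun k x => rfl
  refine ⟨by rw [hpg]; exact h.mem, by rw [hpg]; exact h.fan, ?_, ?_, ?_, ?_, ?_, ?_⟩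
  · filter_upwards [h2.eventually h.fev] with y' k1
    have k2 := hFg (g⁻¹ • y')
    rw [smul_inv_smul] at k2
    rw [k2, k1, h3]
  · filter_upwards [h2.eventually h.φev] with y' k1 k
    have k2 := hΦ k (g⁻¹ • y')
    rw [smul_inv_smul] at k2
    rw [k2, k1, h3]
  · rw [hpg]
    filter_upwards [h.φd] with z k1 k
    exact ((((ρ k g).toContinuousLinearEquiv : H k ≃L[ℂ] H k) : H k →L[ℂ] H k).restrictScalars
      ℝ).contDiff.contDiffAt.comp z (k1 k)
  · rw [hpg]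
    filter_upwards [h.φJ] with z k1 k
    rw [← hρ, k1]
  · rw [hpg]
    exact ((((upRep U ρ g).toContinuousLinearEquiv : UP H U ≃L[ℂ] UP H U) :
      UP H U →L[ℂ] UP H U).analyticAt _).comp h.Gan
  · rw [hpg]
    intro V hV hVv
    obtain ⟨α, hα, hαG⟩ := h.ap V hV hVv
    refine ⟨fun k z => ρ k g (α k z), ?_, ?_⟩
    · have m1 : Appr U (e (p y)) (fun k z => ρ k g (α k z)) (fun k z => ρ k g (DH (φ k) z (V z))) :=
        mapJ (J := fun k x => ρ k g x) (fun k x y => by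
          rw [← map_sub, LinearIsometryEquiv.norm_map]) (fun k => map_zero _) hα
      refine m1.congr (Eventually.of_forall fun _ _ => rfl) ?_
      filter_upwards [h.φd] with z k1 k
      have k2 : HasFDerivAt (𝕜 := ℝ) (fun z => ρ k g (φ k z))
          (((((ρ k g).toContinuousLinearEquiv : H k ≃L[ℂ] H k) : H k →L[ℂ] H k).restrictScalars
          ℝ).comp (fderiv ℝ (φ k) z)) z :=
        ((((ρ k g).toContinuousLinearEquiv : H k ≃L[ℂ] H k) : H k →L[ℂ] H k).restrictScalars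
          ℝ).hasFDerivAt.comp z ((k1 k).differentiableAt one_ne_zero).hasFDerivAt
      rw [DH, DH, k2.fderiv, map_smul, map_sub, map_smul]
      rfl
    · filter_upwards [hαG, Pot.near hα, h.Gan.eventually_analyticAt] with z k1 k2 k3
      have b1 : Bd fun k => α k z := k2.bdd
      have k4 : HasFDerivAt (fun z => upRep U ρ g (G z))
          ((((upRep U ρ g).toContinuousLinearEquiv : UP H U ≃L[ℂ] UP H U) :
          UP H U →L[ℂ] UP H U).comp (fderiv ℂ G z)) z :=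
        ((((upRep U ρ g).toContinuousLinearEquiv : UP H U ≃L[ℂ] UP H U) :
          UP H U →L[ℂ] UP H U)).hasFDerivAt.comp z k3.differentiableAt.hasFDerivAt
      rw [k4.fderiv]
      show _ = upRep U ρ g (fderiv ℂ G z (V z))
      rw [← k1, upRep_mk _ _ b1]

variable [IsManifold 𝓘(ℂ, Cm n) ω X]

/-- **The potentials, general form.** Local data (`LocD`) at every point of a connected regular fibre,
with primitives `G` of the relative form of `S`. -/
theorem potE [∀ k, CompleteSpace (H k)] (hG : IsGalois Γ p) (hF : HolE n p F) {c : Γ → Cm q}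
    (hc : ∀ g y, F (g • y) = F y + c g) {t : Cm q} (hcon : IsConnected (F ⁻¹' {t}))
    (hreg : ∀ y, F y = t → Reg (n := n) p F y)
    (hJ : ∀ k x, ‖J k x‖ ≤ ‖x‖) (hJi : ∀ k x y, ⟪x, J k y⟫_ℂ = conj ⟪J k x, y⟫_ℂ)
    {ρ : ∀ k, Γ →* (H k ≃ₗᵢ[ℂ] H k)} (hρ : ∀ k g x, ρ k g (J k x) = J k (ρ k g x))
    (hΦ : ∀ k g y, Φ k (g • y) = ρ k g (Φ k y))
    {S : E → Chart n X → Cm n [⋀^Fin (q + 1)]→L[ℂ] UP H U} (hrel : RelE p F S)
    (hform : FormE p S) (hloc : ∀ y, F y = t → ∃ (e : Chart n X) (f : Cm n → Cm q)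
      (φ : ∀ k, Cm n → H k) (G : Cm n → UP H U), LocD U p F Φ J y e f φ G ∧
      ∀ᶠ y' in 𝓝 y, IsW (fderiv ℂ f (e (p y'))) (S y' e) (fderiv ℂ G (e (p y')))) :
    ∃ u : E → UP H U,
      (∀ y e, F y = t → At e (p y) → ∀ x : UP H U, ∃ g h : Cm n → ℂ,
        AnalyticAt ℂ g (e (p y)) ∧ AnalyticAt ℂ h (e (p y)) ∧ ∀ᶠ y' in 𝓝 y, F y' = t →
          ⟪x, u y'⟫_ℂ = g (e (p y')) + conj (h (e (p y'))) ∧
          ∀ ξ ∈ VS p F y' e, fderiv ℂ g (e (p y')) ξ = ⟪x, ThE p F S y' e ξ⟫_ℂ) ∧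
      ∀ g : Γ, c g = 0 → ∃ b : UP H U, ∀ y, F y = t → u (g • y) = upRep U ρ g (u y) + b := by
  have hp := hG.cov
  obtain ⟨u, hu⟩ := exists_pot (Φ := Φ) (J := J) hp hF hcon hreg hJ (fun y hy => by
    obtain ⟨e, f, φ, G, h, -⟩ := hloc y hy
    exact ⟨e, f, φ, G, h⟩)
  set JU := upMap U J (Jbd hJ) with hJU
  refine ⟨u, ?_, ?_⟩
  · intro y e hyt he x₀
    obtain ⟨e', f, φ, G, hLD, hW⟩ := hloc y hyt
    obtain ⟨c₀, hc₀⟩ := hu y hyt _ _ _ _ hLD
    set τ : Cm n → Cm n := fun x => e' (e.symm x) with hτ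
    have he' : At e' (p y) := hLD.mem
    have hτz : τ (e (p y)) = e' (p y) := by
      show e' (e.symm (e (p y))) = e' (p y)
      rw [e.left_inv he.2]
    have hτan : AnalyticAt ℂ τ (e (p y)) := (transition he he').analyticAt
    have hGτ : AnalyticAt ℂ (fun x => G (τ x)) (e (p y)) := by
      refine AnalyticAt.comp (g := G) ?_ hτan
      rw [hτz]
      exact hLD.Gan
    have hin : ∀ x₁ : UP H U, AnalyticAt ℂ (fun x => ⟪x₁, G (τ x)⟫_ℂ) (e (p y)) := fun x₁ =>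
      ((innerSL ℂ x₁).analyticAt _).comp hGτ
    refine ⟨fun x => ⟪x₀, G (τ x)⟫_ℂ + ⟪x₀, c₀⟫_ℂ, fun x => ⟪JU x₀, G (τ x)⟫_ℂ,
      (hin x₀).add analyticAt_const, hin _, ?_⟩
    have hev1 : ∀ᶠ y' in 𝓝 y, AnalyticAt ℂ G (e' (p y')) ∧ AnalyticAt ℂ f (e' (p y')) :=
      (ev_iff hp he' (Q := fun z => AnalyticAt ℂ G z ∧ AnalyticAt ℂ f z)).2
        (hLD.Gan.eventually_analyticAt.and hLD.fan.eventually_analyticAt)
    have hev3 : ∀ᶠ y' in 𝓝 y, AnalyticAt ℂ τ (e (p y')) :=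
      (ev_iff hp he (Q := fun x => AnalyticAt ℂ τ x)).2 hτan.eventually_analyticAt
    filter_upwards [hev1, hev3, at_ev hp he, at_ev hp he', hc₀, hW, hLD.fev.eventually_nhds] with
      y' g1 g3 g4 g4' g5 g6 g7 hy't
    have hτz' : τ (e (p y')) = e' (p y') := by
      show e' (e.symm (e (p y'))) = e' (p y')
      rw [e.left_inv g4.2]
    constructor
    · simp only [hτz']
      have h1 : conj ⟪JU x₀, G (e' (p y'))⟫_ℂ = ⟪x₀, JU (G (e' (p y')))⟫_ℂ :=
        (inner_upJ hJ hJi x₀ (G (e' (p y')))).symm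
      rw [h1, ← inner_add_right, ← inner_add_right, g5 hy't]
      congr 1
      abel
    · intro ξ hξ
      have hd1 : DifferentiableAt ℂ τ (e (p y')) := g3.differentiableAt
      have hd2 : DifferentiableAt ℂ G (τ (e (p y'))) := by
        rw [hτz']
        exact g1.1.differentiableAt
      -- the derivative of `g`
      have e1 : fderiv ℂ (fun x => ⟪x₀, G (τ x)⟫_ℂ + ⟪x₀, c₀⟫_ℂ) (e (p y')) ξ =
          ⟪x₀, fderiv ℂ G (e' (p y')) (fderiv ℂ τ (e (p y')) ξ)⟫_ℂ := by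
        have h1 : HasFDerivAt (fun x => ⟪x₀, G (τ x)⟫_ℂ + ⟪x₀, c₀⟫_ℂ)
            ((innerSL ℂ x₀).comp ((fderiv ℂ G (e' (p y'))).comp (fderiv ℂ τ (e (p y')))))
            (e (p y')) := by
          have h2 : HasFDerivAt (fun x => G (τ x))
              ((fderiv ℂ G (e' (p y'))).comp (fderiv ℂ τ (e (p y')))) (e (p y')) := by
            have h3 := hd2.hasFDerivAt.comp (e (p y')) hd1.hasFDerivAt
            rw [hτz'] at h3
            exact h3
          exact ((innerSL ℂ x₀).hasFDerivAt.comp (e (p y')) h2).add_const ⟪x₀, c₀⟫_ℂ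
        rw [h1.fderiv]
        rfl
      rw [e1]
      congr 1
      -- the relative form
      rw [ThE_change hp hF hrel hform g4 g4' (hreg y' hy't) hξ]
      have hrep : H501.Rep p F y' e' f := ⟨g1.2, g7⟩
      have hsj : Function.Surjective (fderiv ℂ f (e' (p y'))) := hreg y' hy't e' f g4' g7
      have hvert : fderiv ℂ f (e' (p y')) (fderiv ℂ τ (e (p y')) ξ) = 0 := by
        have h1 := (mem_VS_iff hp hF g4).1 hξ
        rw [dFe_change hp hF g4 g4', dFe_eq hp g4' g7] at h1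
        exact h1
      exact (ThE_isTh (S := S) hp y' e' f g4' hrep hsj _ g6 _ hvert).symm
  · intro g hg
    have hFg : ∀ y, F (g • y) = F y := fun y => by rw [hc, hg, add_zero]
    have hpg : ∀ y', p (g • y') = p y' := fun y' => ((hG.orb _ _).2 ⟨g, rfl⟩).symm
    refine equi_pot (n := n) (F := F) (t := t) (J := JU) (A := upRep U ρ g) (g := fun y => g • y) hp
      hcon (fun x => rep_upJ hJ ρ hρ g x) (hG.cont g) hpg hFg fun y hy => ?_
    obtain ⟨e, f, φ, G, hLD, -⟩ := hloc y hy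
    have hLD' := hLD.smul hG hρ (hΦ · g) hFg
    obtain ⟨c₀, hc₀⟩ := hu _ hy _ _ _ _ hLD
    obtain ⟨c₁, hc₁⟩ := hu _ ((hFg y).trans hy) _ _ _ _ hLD'
    refine ⟨e, f, G, fun z => upRep U ρ g (G z), c₀, c₁, hLD.mem, hLD.fan, hLD.fev,
      hreg y hy e f hLD.mem hLD.fev, hLD.Gan, ?_, ?_, hc₀, hc₁⟩
    · have := hLD'.Gan
      rwa [hpg] at this
    · filter_upwards [hLD.Gan.eventually_analyticAt] with z k3 ξ _
      have k4 : HasFDerivAt (fun z => upRep U ρ g (G z))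
          ((((upRep U ρ g).toContinuousLinearEquiv : UP H U ≃L[ℂ] UP H U) :
          UP H U →L[ℂ] UP H U).comp (fderiv ℂ G z)) z :=
        ((((upRep U ρ g).toContinuousLinearEquiv : UP H U ≃L[ℂ] UP H U) :
          UP H U →L[ℂ] UP H U)).hasFDerivAt.comp z k3.differentiableAt.hasFDerivAt
      rw [k4.fderiv]
      rfl

end

end Vale.Agent.P284.H619.Pot
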