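import Vale.Agent.P284.H619.Ten

/-!
# P284 (helper619): natural sections `G k` of a Hilbert space valued 1-form `Θ`

`G 0 = Λ^R Θ`, `G (k+1) = G k ⊗ G k ⊗ G 0 ⊕ (G k ∧ d G k) ∧ Λ^(R-1) Θ`, `R = r + 1`.
-/

open scoped InnerProductSpace ENNReal ComplexConjugate Topology
open Filter

noncomputable section

namespace Vale.Agent.P284.H619

variable {H : Type*} [NormedAddCommGroup H] [InnerProductSpace ℂ H] (S : TH H)

section defs
variable {V : Type*} [NormedAddCommGroup V] [NormedSpace ℂ V]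

/-- the form `Λ^R Θ`, evaluated on the frame `ξ` -/
def TH.s0 {R : ℕ} (Θ : V → V →L[ℂ] H) (z : V) (ξ : Fin R → V) : H :=
  S.wdg (fun _ => (Θ z : V →ₗ[ℂ] H)) ξ

/-- the form `g ∧ dg` (`ξ` fixed) -/
def TH.al {R : ℕ} (g : V → (Fin R → V) → H) (z : V) (ξ : Fin R → V) : V →L[ℂ] H :=
  (S.T (g z ξ)).comp (fderiv ℂ (fun y => g y ξ) z) -
    (S.T.flip (g z ξ)).comp (fderiv ℂ (fun y => g y ξ) z)

lemma TH.al_apply {R : ℕ} (g : V → (Fin R → V) → H) (z : V) (ξ : Fin R → V) (η : V) :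
    S.al g z ξ η = S.T (g z ξ) (fderiv ℂ (fun y => g y ξ) z η) -
      S.T (fderiv ℂ (fun y => g y ξ) z η) (g z ξ) := rfl

/-- `(g ∧ dg) ∧ Λ^r Θ` -/
def TH.dv {r : ℕ} (Θ : V → V →L[ℂ] H) (g : V → (Fin (r + 1) → V) → H) (z : V)
    (ξ : Fin (r + 1) → V) : H :=
  S.wdg (Fin.cons (S.al g z ξ : V →ₗ[ℂ] H) (fun _ => (Θ z : V →ₗ[ℂ] H))) ξ

/-- the next natural section -/
def TH.nx {r : ℕ} (Θ : V → V →L[ℂ] H) (g : V → (Fin (r + 1) → V) → H) (z : V)
    (ξ : Fin (r + 1) → V) : H :=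
  S.T S.u (S.T (g z ξ) (S.T (g z ξ) (S.s0 Θ z ξ))) + S.T S.u' (S.dv Θ g z ξ)

/-- the natural sections -/
def TH.G {r : ℕ} (Θ : V → V →L[ℂ] H) : ℕ → V → (Fin (r + 1) → V) → H
  | 0 => S.s0 Θ
  | k + 1 => S.nx Θ (TH.G Θ k)

end defs

/-- the weights of the natural sections -/
def mu : ℕ → ℕ
  | 0 => 1
  | k + 1 => 2 * mu k + 1

lemma mu_pos (k : ℕ) : 1 ≤ mu k := by
  cases k with
  | zero => exact le_rfl
  | succ k => simp [mu]

section alg
variable {V : Type*} [NormedAddCommGroup V] [NormedSpace ℂ V]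

lemma TH.wdg_cons_smul {r : ℕ} (c : ℂ) (α : V →ₗ[ℂ] H) (β : Fin r → V →ₗ[ℂ] H)
    (ξ : Fin (r + 1) → V) :
    S.wdg (Fin.cons (c • α) β) ξ = c • S.wdg (Fin.cons α β) ξ := by
  rw [S.wdg_apply, S.wdg_apply, Finset.smul_sum]
  refine Finset.sum_congr rfl fun σ _ => ?_
  rw [smul_comm c]
  congr 1
  rw [S.tp_succ, S.tp_succ]
  simp only [Fin.cons_zero, LinearMap.smul_apply, map_smul, _root_.smul_apply]
  rfl

lemma TH.s0_mul {R : ℕ} (Θ : V → V →L[ℂ] H) (z : V) (A : Matrix (Fin R) (Fin R) ℂ)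
    (ξ : Fin R → V) : S.s0 Θ z (fun i => ∑ j, A i j • ξ j) = A.det • S.s0 Θ z ξ :=
  alt_mul _ A ξ

lemma TH.G_mul {r : ℕ} (Θ : V → V →L[ℂ] H) (k : ℕ) (A : Matrix (Fin (r + 1)) (Fin (r + 1)) ℂ)
    (ξ : Fin (r + 1) → V) (z : V) :
    S.G Θ k z (fun i => ∑ j, A i j • ξ j) = A.det ^ mu k • S.G Θ k z ξ := by
  induction k generalizing z with
  | zero =>
    simp only [TH.G, mu, pow_one]
    exact S.s0_mul Θ z A ξ
  | succ k ih =>
    have hD : ∀ z, fderiv ℂ (fun y => S.G Θ k y (fun i => ∑ j, A i j • ξ j)) z =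
        A.det ^ mu k • fderiv ℂ (fun y => S.G Θ k y ξ) z := by
      intro z
      have h1 : (fun y => S.G Θ k y (fun i => ∑ j, A i j • ξ j)) =
          fun y => A.det ^ mu k • S.G Θ k y ξ := funext fun y => ih y
      rw [h1]
      exact congrFun (fderiv_const_smul_field _) z
    have hal : S.al (S.G Θ k) z (fun i => ∑ j, A i j • ξ j) =
        A.det ^ (2 * mu k) • S.al (S.G Θ k) z ξ := by
      ext η
      rw [S.al_apply, hD, ih, _root_.smul_apply, _root_.smul_apply,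
        S.al_apply, two_mul, pow_add]
      simp only [map_smul, _root_.smul_apply, smul_sub, smul_smul]
    have hdv : S.dv Θ (S.G Θ k) z (fun i => ∑ j, A i j • ξ j) =
        A.det ^ (2 * mu k + 1) • S.dv Θ (S.G Θ k) z ξ := by
      rw [TH.dv, TH.dv, alt_mul, hal, ContinuousLinearMap.toLinearMap_smul, S.wdg_cons_smul,
        smul_smul, pow_succ, mul_comm]
    show S.nx Θ (S.G Θ k) z _ = _ • S.nx Θ (S.G Θ k) z ξ
    rw [TH.nx, TH.nx, hdv, ih, S.s0_mul, mu, smul_add]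
    simp only [map_smul, _root_.smul_apply, smul_smul]
    congr 2
    ring

end alg

end Vale.Agent.P284.H619
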