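import Vale.Agent.P284.H619.Ten0
import Mathlib.LinearAlgebra.Determinant
import Mathlib.Analysis.Calculus.FDeriv.Analytic
import Mathlib.Analysis.InnerProductSpace.Calculus

/-!
# P284 (helper619): natural sections built from a Hilbert space valued 1-form

`wdg α` is the wedge product of `R` one-forms with values in `H`; `G k` are the natural sections.
-/

open scoped InnerProductSpace ENNReal ComplexConjugate Topology
open Filter

noncomputable section

namespace Vale.Agent.P284.H619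

variable {H : Type*} [NormedAddCommGroup H] [InnerProductSpace ℂ H] (S : TH H)

/-- iterated tensor product of `R` vectors -/
def TH.tp : (R : ℕ) → MultilinearMap ℂ (fun _ : Fin R => H) H
  | 0 => MultilinearMap.constOfIsEmpty ℂ _ S.u
  | R + 1 =>
    LinearMap.uncurryLeft
      { toFun := fun v => (S.T v : H →ₗ[ℂ] H).compMultilinearMap (TH.tp R)
        map_add' := fun v w => by ext; simp
        map_smul' := fun c v => by ext; simp }

lemma TH.tp_zero (v : Fin 0 → H) : S.tp 0 v = S.u := rfl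

lemma TH.tp_succ {R : ℕ} (v : Fin (R + 1) → H) :
    S.tp (R + 1) v = S.T (v 0) (S.tp R (Fin.tail v)) := rfl

lemma TH.inner_tp {R : ℕ} (v w : Fin R → H) :
    ⟪S.tp R v, S.tp R w⟫_ℂ = ∏ i, ⟪v i, w i⟫_ℂ := by
  induction R with
  | zero => simpa [TH.tp_zero] using S.inner_uu
  | succ R ih =>
    rw [S.tp_succ, S.tp_succ, S.inner_T, ih, Fin.prod_univ_succ]
    rfl

variable {V : Type*} [AddCommGroup V] [Module ℂ V]

/-- wedge product of `R` one-forms with values in `H` -/
def TH.wdg {R : ℕ} (α : Fin R → V →ₗ[ℂ] H) : V [⋀^Fin R]→ₗ[ℂ] H :=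
  MultilinearMap.alternatization ((S.tp R).compLinearMap α)

lemma TH.wdg_apply {R : ℕ} (α : Fin R → V →ₗ[ℂ] H) (ξ : Fin R → V) :
    S.wdg α ξ = ∑ σ : Equiv.Perm (Fin R),
      ((Equiv.Perm.sign σ : ℤ) : ℂ) • S.tp R (fun i => α i (ξ (σ i))) := by
  rw [TH.wdg, MultilinearMap.alternatization_apply]
  refine Finset.sum_congr rfl fun σ _ => ?_
  simp [MultilinearMap.domDomCongr_apply, Units.smul_def, Int.cast_smul_eq_zsmul]

lemma TH.inner_wdg {R : ℕ} {V' : Type*} [AddCommGroup V'] [Module ℂ V']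
    (α : Fin R → V →ₗ[ℂ] H) (β : Fin R → V' →ₗ[ℂ] H) (ξ : Fin R → V) (η : Fin R → V') :
    ⟪S.wdg α ξ, S.wdg β η⟫_ℂ = ∑ σ : Equiv.Perm (Fin R), ∑ τ : Equiv.Perm (Fin R),
      ((Equiv.Perm.sign σ : ℤ) : ℂ) * (((Equiv.Perm.sign τ : ℤ) : ℂ) *
        ∏ i, ⟪α i (ξ (σ i)), β i (η (τ i))⟫_ℂ) := by
  rw [S.wdg_apply, S.wdg_apply, sum_inner]
  refine Finset.sum_congr rfl fun σ _ => ?_
  rw [inner_sum]
  refine Finset.sum_congr rfl fun τ _ => ?_
  rw [inner_smul_left, inner_smul_right, S.inner_tp]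
  simp

/-- an alternating form on the rows of the matrix `A * ξ` -/
lemma alt_mul {R : ℕ} (f : V [⋀^Fin R]→ₗ[ℂ] H) (A : Matrix (Fin R) (Fin R) ℂ) (ξ : Fin R → V) :
    f (fun i => ∑ j, A i j • ξ j) = A.det • f ξ := by
  have h0 : ∀ φ : Module.Dual ℂ H, φ (f (fun i => ∑ j, A i j • ξ j)) = φ (A.det • f ξ) := by
    intro φ
    let L : (Fin R → ℂ) →ₗ[ℂ] V := Fintype.linearCombination ℂ ξ
    let F : (Fin R → ℂ) [⋀^Fin R]→ₗ[ℂ] ℂ := (φ.compAlternatingMap f).compLinearMap L
    have h1 := F.eq_smul_basis_det (Pi.basisFun ℂ (Fin R))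
    have h2 : F (fun i => A i) = F (Pi.basisFun ℂ (Fin R)) * A.det := by
      conv_lhs => rw [h1]
      rw [AlternatingMap.smul_apply, Pi.basisFun_det]
      rfl
    have h3 : F (fun i => A i) = φ (f (fun i => ∑ j, A i j • ξ j)) := by
      simp only [F, L, AlternatingMap.compLinearMap_apply, LinearMap.compAlternatingMap_apply]
      rfl
    have h4 : F (Pi.basisFun ℂ (Fin R)) = φ (f ξ) := by
      simp only [F, L, AlternatingMap.compLinearMap_apply, LinearMap.compAlternatingMap_apply]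
      congr 2
      funext i
      simp [Fintype.linearCombination_apply, Pi.single_apply]
    rw [← h3, h2, h4, map_smul, smul_eq_mul, mul_comm]
  rw [← sub_eq_zero]
  refine (Module.forall_dual_apply_eq_zero_iff ℂ _).1 fun φ => ?_
  rw [map_sub, h0 φ, sub_self]

end Vale.Agent.P284.H619
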