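import Mathlib.Analysis.InnerProductSpace.l2Space
import Mathlib.SetTheory.Cardinal.Arithmetic
import Mathlib.Analysis.Normed.Operator.Bilinear

/-!
# P284 (helper619): isometric tensor products inside a Hilbert space
-/

open scoped InnerProductSpace ENNReal ComplexConjugate
open Filter

noncomputable section

namespace Vale.Agent.P284.H619

/-- An isometric tensor product `H × H → H`, and two orthonormal vectors. -/
structure TH (H : Type*) [NormedAddCommGroup H] [InnerProductSpace ℂ H] where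
  T : H →L[ℂ] H →L[ℂ] H
  inner_T : ∀ v w v' w' : H, ⟪T v w, T v' w'⟫_ℂ = ⟪v, v'⟫_ℂ * ⟪w, w'⟫_ℂ
  u : H
  u' : H
  inner_uu : ⟪u, u⟫_ℂ = 1
  inner_uu' : ⟪u, u'⟫_ℂ = 0
  inner_u'u' : ⟪u', u'⟫_ℂ = 1

section ell
variable {κ : Type} (σ : κ ≃ κ × κ)

abbrev L2 (κ : Type) := lp (fun _ : κ => ℂ) 2

lemma summable_sq (v : L2 κ) : Summable fun k => ‖v k‖ ^ 2 := by
  have h := lp.memℓp v
  rw [memℓp_gen_iff (by norm_num)] at h
  simpa using h

lemma memT (v w : L2 κ) : Memℓp (fun k : κ => v (σ k).1 * w (σ k).2) 2 := by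
  rw [memℓp_gen_iff (by norm_num)]
  have h : Summable fun p : κ × κ => ‖v p.1‖ ^ 2 * ‖w p.2‖ ^ 2 :=
    (summable_sq v).mul_of_nonneg (summable_sq w) (fun _ => by positivity) (fun _ => by positivity)
  have h2 := (σ.summable_iff).2 h
  refine h2.congr fun k => ?_
  simp only [Function.comp, norm_mul, ENNReal.toReal_ofNat]
  rw [← mul_pow]
  norm_num

/-- the tensor product of two vectors of `ℓ²` -/
def tv (v w : L2 κ) : L2 κ := ⟨fun k => v (σ k).1 * w (σ k).2, memT σ v w⟩

lemma tv_apply (v w : L2 κ) (k : κ) : tv σ v w k = v (σ k).1 * w (σ k).2 := rfl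

lemma inner_tv (v w v' w' : L2 κ) :
    ⟪tv σ v w, tv σ v' w'⟫_ℂ = ⟪v, v'⟫_ℂ * ⟪w, w'⟫_ℂ := by
  rw [lp.inner_eq_tsum, lp.inner_eq_tsum, lp.inner_eq_tsum]
  have hs : ∀ a b : L2 κ, Summable fun k => ‖⟪a k, b k⟫_ℂ‖ := fun a b =>
    (lp.summable_inner (𝕜 := ℂ) a b).norm
  have h1 := tsum_mul_tsum_of_summable_norm (hs v v') (hs w w')
  rw [h1, ← σ.tsum_eq]
  refine tsum_congr fun k => ?_
  simp only [tv_apply, RCLike.inner_apply, map_mul]
  ring

lemma norm_tv (v w : L2 κ) : ‖tv σ v w‖ = ‖v‖ * ‖w‖ := by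
  have h := inner_tv σ v w v w
  rw [inner_self_eq_norm_sq_to_K, inner_self_eq_norm_sq_to_K, inner_self_eq_norm_sq_to_K] at h
  have h2 : ‖tv σ v w‖ ^ 2 = (‖v‖ * ‖w‖) ^ 2 := by
    rw [mul_pow]
    exact_mod_cast h
  exact (pow_left_inj₀ (norm_nonneg _) (by positivity) two_ne_zero).1 h2

/-- the tensor product as a bilinear map -/
def tvL : L2 κ →L[ℂ] L2 κ →L[ℂ] L2 κ :=
  LinearMap.mkContinuous₂
    (LinearMap.mk₂ ℂ (tv σ)
      (fun v v' w => by
        ext k
        simp only [tv_apply, lp.coeFn_add, Pi.add_apply]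
        ring)
      (fun c v w => by
        ext k
        simp only [tv_apply, lp.coeFn_smul, Pi.smul_apply, smul_eq_mul]
        ring)
      (fun v w w' => by
        ext k
        simp only [tv_apply, lp.coeFn_add, Pi.add_apply]
        ring)
      (fun c v w => by
        ext k
        simp only [tv_apply, lp.coeFn_smul, Pi.smul_apply, smul_eq_mul]
        ring))
    1 (fun v w => by
      rw [LinearMap.mk₂_apply, norm_tv]
      linarith)

lemma tvL_apply (v w : L2 κ) : tvL σ v w = tv σ v w := rfl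

end ell

/-- Every Hilbert space embeds in a Hilbert space with an isometric tensor product. -/
theorem exists_TH (H₀ : Type) [NormedAddCommGroup H₀] [InnerProductSpace ℂ H₀] [CompleteSpace H₀] :
    ∃ (H : Type) (_ : NormedAddCommGroup H) (_ : InnerProductSpace ℂ H) (_ : CompleteSpace H)
      (_ : TH H), Nonempty (H₀ →ₗᵢ[ℂ] H) := by
  classical
  obtain ⟨w, b, -⟩ := exists_hilbertBasis ℂ H₀
  let κ : Type := w ⊕ ℕ
  have : Infinite κ := inferInstanceAs (Infinite (w ⊕ ℕ))
  have hc : Nonempty (κ ≃ κ × κ) := by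
    have h1 : Cardinal.mk (κ × κ) = Cardinal.mk κ := by
      rw [Cardinal.mk_prod, Cardinal.lift_id]
      exact Cardinal.mul_eq_self (Cardinal.aleph0_le_mk κ)
    exact Cardinal.eq.1 h1.symm
  obtain ⟨σ⟩ := hc
  have hon : Orthonormal ℂ (fun k : κ => (lp.single 2 k (1 : ℂ) : L2 κ)) := by
    rw [orthonormal_iff_ite]
    intro i j
    rw [lp.inner_single_left]
    by_cases h : i = j
    · subst h
      simp
    · rw [if_neg h]
      have : (lp.single 2 j (1 : ℂ) : L2 κ) i = 0 := by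
        rw [lp.single_apply]
        exact Pi.single_eq_of_ne h _
      rw [this]
      simp
  refine ⟨L2 κ, inferInstance, inferInstance, inferInstance, ⟨tvL σ, ?_, lp.single 2 (Sum.inr 0) 1,
    lp.single 2 (Sum.inr 1) 1, ?_, ?_, ?_⟩, ⟨?_⟩⟩
  · intro v w v' w'
    exact inner_tv σ v w v' w'
  · exact ((orthonormal_iff_ite.1 hon) (Sum.inr 0) (Sum.inr 0)).trans (if_pos rfl)
  · exact ((orthonormal_iff_ite.1 hon) (Sum.inr 0) (Sum.inr 1)).trans 
      (if_neg fun h => absurd (Sum.inr_injective h) Nat.zero_ne_one)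
  · exact ((orthonormal_iff_ite.1 hon) (Sum.inr 1) (Sum.inr 1)).trans (if_pos rfl)
  · have hon2 : Orthonormal ℂ (fun k : w => (lp.single 2 (Sum.inl k) (1 : ℂ) : L2 κ)) :=
      hon.comp _ Sum.inl_injective
    exact (hon2.orthogonalFamily.linearIsometry).comp b.repr.toLinearIsometry

end Vale.Agent.P284.H619
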